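import Vale.Agent.P322.Noise

/-!
The entropy deficit as a mutual information in bits.
-/

noncomputable section
namespace Vale.Agent.P322
open Real Set Finset

/-- `P(f(X) = b, Y = y)` for a uniform `X` sent over independent binary symmetric channels with
crossover probability `ε`; `true` stands for `1` and `false` for `-1`. -/
def jointLaw {n : ℕ} (f : (Fin n → Bool) → Bool) (ε : ℝ) (b : Bool) (y : Fin n → Bool) : ℝ :=
  (∑ x with f x = b, ∏ i, if y i = x i then 1 - ε else ε) / 2 ^ n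

/-- the mutual information of `f(X)` and `Y` in bits. -/
def mutualInfo {n : ℕ} (f : (Fin n → Bool) → Bool) (ε : ℝ) : ℝ :=
  ∑ b : Bool, ∑ y : Fin n → Bool, jointLaw f ε b y *
    logb 2 (jointLaw f ε b y / ((∑ y', jointLaw f ε b y') * ∑ b', jointLaw f ε b' y))

lemma ker_one_sub_two {n : ℕ} (ε : ℝ) (x y : Cube n) :
    (∏ i, if y i = x i then 1 - ε else ε) = ker (1 - 2 * ε) x y := by
  refine Finset.prod_congr rfl fun i _ => ?_
  cases x i <;> cases y i <;> simp [sgn] <;> ring

lemma jointLaw_eq {n : ℕ} (f : Cube n → Bool) (ε : ℝ) (b : Bool) (y : Cube n) :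
    jointLaw f ε b y
      = (1 + sgn b * Tn (1 - 2 * ε) (fun x => sgn (f x)) y) / 2 / 2 ^ n := by
  have h1 : ∀ x, (if f x = b then ker (1 - 2 * ε) x y else 0)
      = ker (1 - 2 * ε) y x * 1 / 2 + sgn b * (ker (1 - 2 * ε) y x * sgn (f x)) / 2 := fun x => by
    rw [ker_comm _ x y]
    cases f x <;> cases b <;> simp [sgn] <;> ring
  unfold jointLaw
  congr 1
  simp only [ker_one_sub_two, Finset.sum_filter, h1]
  rw [Finset.sum_add_distrib, ← Finset.sum_div, ← Finset.sum_div, ← Finset.mul_sum]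
  simp [Tn, sum_ker]
  ring

lemma Ex_sgn_eq_zero {n : ℕ} {f : Cube n → Bool}
    (hb : #{x | f x = true} = #{x | f x = false}) : Ex (fun x => sgn (f x)) = 0 := by
  have e : ∀ x, sgn (f x) = (if f x = true then 1 else 0) - (if f x = false then 1 else 0) :=
    fun x => by cases f x <;> simp [sgn]
  simp only [Ex, e, Finset.sum_sub_distrib, Finset.sum_boole, hb, sub_self, zero_div]

lemma mutualInfo_eq {n : ℕ} {f : Cube n → Bool}
    (hb : #{x | f x = true} = #{x | f x = false}) (ε : ℝ) :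
    mutualInfo f ε = Info (1 - 2 * ε) (fun x => sgn (f x)) / log 2 := by
  set F : Cube n → ℝ := fun x => sgn (f x) with hF
  set t : Cube n → ℝ := fun y => Tn (1 - 2 * ε) F y with ht
  have hp : (2 : ℝ) ^ n ≠ 0 := by positivity
  have hY : ∀ y, ∑ b, jointLaw f ε b y = 1 / 2 ^ n := fun y => by
    simp only [Fintype.sum_bool, jointLaw_eq]
    simp [sgn]
    ring
  have hB : ∀ b, ∑ y, jointLaw f ε b y = 1 / 2 := fun b => by
    have h0 : ∑ y, t y = 0 := by
      have h := (Ex_Tn (1 - 2 * ε) F).trans (Ex_sgn_eq_zero hb)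
      simpa [Ex, hp] using h
    simp only [jointLaw_eq, ← Finset.sum_div, Finset.sum_add_distrib, ← Finset.mul_sum]
    rw [show (∑ y, Tn (1 - 2 * ε) (fun x => sgn (f x)) y) = 0 from h0]
    simp
    field_simp
  have hterm : ∀ b y, jointLaw f ε b y *
      logb 2 (jointLaw f ε b y / ((∑ y', jointLaw f ε b y') * ∑ b', jointLaw f ε b' y))
      = (1 + sgn b * t y) * log (1 + sgn b * t y) / 2 / 2 ^ n / log 2 := fun b y => by
    rw [hY, hB, jointLaw_eq, logb,
      show (1 + sgn b * Tn (1 - 2 * ε) (fun x => sgn (f x)) y) / 2 / 2 ^ n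
        / (1 / 2 * (1 / 2 ^ n)) = 1 + sgn b * t y by field_simp; rfl]
    ring
  unfold mutualInfo
  simp only [hterm]
  rw [Finset.sum_comm]
  simp only [← Finset.sum_div, Fintype.sum_bool]
  congr 1
  simp only [Info, Ex, phi]
  rw [← Finset.sum_div]
  congr 2
  refine Finset.sum_congr rfl fun y _ => ?_
  simp [sgn, ht]
  ring_nf

lemma phi_one_sub_two {ε : ℝ} (h0 : 0 ≤ ε) (h1 : ε ≤ 1 / 2) :
    phi (1 - 2 * ε) = log 2 - binEntropy ε := by
  rw [binEntropy_eq_negMulLog_add_negMulLog_one_sub, negMulLog, negMulLog, phi]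
  rw [show 1 + (1 - 2 * ε) = 2 * (1 - ε) by ring, show 1 - (1 - 2 * ε) = 2 * ε by ring,
    log_mul two_ne_zero (by linarith)]
  rcases h0.eq_or_lt with e | e
  · subst e; simp
  · rw [log_mul two_ne_zero e.ne']; ring

lemma Info_le_phi_Icc (hK : TwoPoint) {n : ℕ} {F : Cube n → ℝ} (hF : ∀ x, |F x| ≤ 1)
    (h0 : Ex F = 0) {r : ℝ} (hr0 : 0 ≤ r) (hr1 : r ≤ 1) : Info r F ≤ phi r :=
  le_on_closure (s := Ioo (0 : ℝ) 1) (f := fun t => Info t F) (g := phi)
    (fun t ht => Info_le_phi hK hF h0 ht.1 ht.2) (continuous_Info F).continuousOn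
    continuous_phi.continuousOn (by rw [closure_Ioo zero_ne_one]; exact ⟨hr0, hr1⟩)

/-- the inequality of Courtade and Kumar for balanced functions, given the two point inequality. -/
theorem balanced_CK_of (hK : TwoPoint) : ∀ (n : ℕ) (f : (Fin n → Bool) → Bool),
    #{x | f x = true} = #{x | f x = false} → ∀ ε : ℝ, 0 ≤ ε → ε ≤ 1 / 2 →
      mutualInfo f ε ≤ 1 - binEntropy ε / log 2 := by
  intro n f hb ε h0 h1
  have hl : 0 < log 2 := log_pos one_lt_two
  rw [mutualInfo_eq hb, one_sub_div hl.ne', ← phi_one_sub_two h0 h1]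
  gcongr
  refine Info_le_phi_Icc hK (fun x => ?_) (Ex_sgn_eq_zero hb) (by linarith) (by linarith)
  cases f x <;> simp [sgn]

end Vale.Agent.P322
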