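import Vale.Agent.P322.Scalar

namespace Vale.Agent.P322.Cert
open Real Finset

/-- fixed point unit. -/
@[irreducible] def PP : ℕ := 79228162514264337593543950336

def mD (a b : ℕ) : ℕ := a * b / PP
def mU (a b : ℕ) : ℕ := a * b / PP + 1

def loopLo : ℕ → ℕ → ℕ → ℕ → ℕ → ℕ
  | 0, _, _, acc, _ => acc
  | n + 1, u2, pw, acc, k => loopLo n u2 (pw * u2 / PP) (acc + pw / (2 * k + 1)) (k + 1)

def loopHi : ℕ → ℕ → ℕ → ℕ → ℕ → ℕ
  | 0, u2, pw, acc, k => acc + (pw * PP / ((2 * k + 1) * (PP - u2)) + 1)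
  | n + 1, u2, pw, acc, k => loopHi n u2 (pw * u2 / PP + 1) (acc + (pw / (2 * k + 1) + 1)) (k + 1)

def atLo (u : ℕ) : ℕ := loopLo 30 (u * u / PP) u 0 0
def atHi (u : ℕ) : ℕ := loopHi 30 (u * u / PP + 1) u 0 0

/-- bounds for `log 2`. -/
def l2Lo : ℕ := 2 * atLo (PP / 3)
def l2Hi : ℕ := 2 * atHi (PP / 3 + 1)

def shiftNum : ℕ → ℕ → ℕ → ℕ → ℕ
  | 0, _, _, k => k
  | n + 1, num, den, k => bif Nat.ble (2 * den) num then shiftNum n num (2 * den) (k + 1) else k

def lLo (num den : ℕ) : ℕ :=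
  let k := shiftNum 100 num den 0
  let d := den * 2 ^ k
  bif Nat.ble d num then k * l2Lo + 2 * atLo ((num - d) * PP / (num + d)) else 0

def lHi (num den : ℕ) : ℕ :=
  let k := shiftNum 100 num den 0
  let d := den * 2 ^ k
  let u := (num - d) * PP / (num + d) + 1
  bif Nat.ble (u * u / PP + 2) PP then k * l2Hi + 2 * atHi u else k * l2Hi + ((num - d) * PP / d + 1)

noncomputable def rv (a : ℕ) : ℝ := (a : ℝ) / PP

lemma one_le_PP : 1 ≤ PP := Nat.le_of_ble_eq_true (by decide +kernel)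

lemma PP_pos : (0:ℝ) < (PP : ℕ) := Nat.cast_pos.2 one_le_PP

lemma rv_nonneg (a : ℕ) : 0 ≤ rv a := div_nonneg (Nat.cast_nonneg a) PP_pos.le
lemma rv_add (a b : ℕ) : rv (a + b) = rv a + rv b := by simp [rv, add_div]
lemma rv_mul_nat (k a : ℕ) : rv (k * a) = k * rv a := by simp [rv, mul_div_assoc]
lemma rv_le {a b : ℕ} (h : a ≤ b) : rv a ≤ rv b :=
  div_le_div_of_nonneg_right (Nat.cast_le.2 h) PP_pos.le

lemma rv_div_le (a b : ℕ) : rv (a / b) ≤ rv a / b := by
  rw [rv, rv, div_right_comm]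
  exact div_le_div_of_nonneg_right Nat.cast_div_le PP_pos.le

lemma cast_le_div_add_one (a b : ℕ) : (a : ℝ) / b ≤ ((a / b + 1 : ℕ) : ℝ) := by
  rcases Nat.eq_zero_or_pos b with rfl | hb
  · simp
  · rw [div_le_iff₀ (Nat.cast_pos.2 hb)]
    have := Nat.lt_mul_div_succ a hb
    have : (a : ℝ) ≤ (b * (a / b + 1) : ℕ) := Nat.cast_le.2 this.le
    push_cast at this ⊢
    linarith

lemma rv_le_div_add (a b : ℕ) : rv a / b ≤ rv (a / b + 1) := by
  rw [rv, rv, div_right_comm]
  exact div_le_div_of_nonneg_right (cast_le_div_add_one a b) PP_pos.le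

lemma rv_mD_le (a b : ℕ) : rv (mD a b) ≤ rv a * rv b := by
  refine (rv_div_le _ _).trans_eq ?_
  simp only [rv, Nat.cast_mul]
  rw [div_mul_div_comm, div_div]

lemma le_rv_mU (a b : ℕ) : rv a * rv b ≤ rv (mU a b) := by
  refine le_trans (le_of_eq ?_) (rv_le_div_add _ _)
  simp only [rv, Nat.cast_mul]
  rw [div_mul_div_comm, div_div]

lemma rv_mulPP_div_le (a b : ℕ) : rv (a * PP / b) ≤ (a : ℝ) / b := by
  refine (rv_div_le _ _).trans_eq ?_
  simp only [rv, Nat.cast_mul]
  rw [mul_div_assoc, div_self PP_pos.ne', mul_one]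

lemma le_rv_mulPP_div (a b : ℕ) : (a : ℝ) / b ≤ rv (a * PP / b + 1) := by
  refine le_trans (le_of_eq ?_) (rv_le_div_add _ _)
  simp only [rv, Nat.cast_mul]
  rw [mul_div_assoc, div_self PP_pos.ne', mul_one]

/-- odd power series of artanh. -/
noncomputable def oddSum (x : ℝ) (n : ℕ) : ℝ := ∑ j ∈ range n, x ^ (2 * j + 1) / (2 * j + 1)

lemma hasSum_At {x : ℝ} (h0 : 0 ≤ x) (h1 : x < 1) :
    HasSum (fun k : ℕ => x ^ (2 * k + 1) / (2 * k + 1)) (At x) := by
  have := (Real.hasSum_log_sub_log_of_abs_lt_one (by rwa [abs_of_nonneg h0])).div_const 2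
  refine (this.congr_fun fun k => ?_)
  field_simp

lemma oddSum_le {x : ℝ} (h0 : 0 ≤ x) (h1 : x < 1) (n : ℕ) : oddSum x n ≤ At x :=
  sum_le_hasSum _ (fun k _ => by positivity) (hasSum_At h0 h1)

lemma le_oddSum {x : ℝ} (h0 : 0 ≤ x) (h1 : x < 1) (n : ℕ) :
    At x ≤ oddSum x n + x ^ (2 * n + 1) / ((2 * n + 1) * (1 - x ^ 2)) := by
  have h2 : x ^ 2 < 1 := by nlinarith
  have ht : HasSum (fun k : ℕ => x ^ (2 * (k + n) + 1) / (2 * (k + n : ℕ) + 1)) (At x - oddSum x n) :=
    (hasSum_nat_add_iff' n).2 (hasSum_At h0 h1)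
  have hg : HasSum (fun k : ℕ => x ^ (2 * n + 1) / (2 * n + 1) * (x ^ 2) ^ k)
      (x ^ (2 * n + 1) / (2 * n + 1) * (1 - x ^ 2)⁻¹) :=
    (hasSum_geometric_of_lt_one (sq_nonneg x) h2).mul_left _
  have := hasSum_le (fun k => ?_) ht hg
  · rw [← div_eq_mul_inv, div_div] at this; linarith
  · have e : x ^ (2 * n + 1) / (2 * n + 1) * (x ^ 2) ^ k = x ^ (2 * (k + n) + 1) / (2 * n + 1) := by
      rw [div_mul_eq_mul_div, ← pow_mul, ← pow_add]; ring_nf
    rw [e]
    gcongr
    simp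

lemma loopLo_le {x : ℝ} (h0 : 0 ≤ x) : ∀ (n u2 pw acc k : ℕ), rv u2 ≤ x ^ 2 →
    rv pw ≤ x ^ (2 * k + 1) → rv acc ≤ oddSum x k →
    rv (loopLo n u2 pw acc k) ≤ oddSum x (k + n) := by
  intro n
  induction n with
  | zero => intro u2 pw acc k _ _ h3; simpa [loopLo] using h3
  | succ n ih =>
    intro u2 pw acc k h1 h2 h3
    rw [loopLo, show k + (n + 1) = k + 1 + n by omega]
    refine ih _ _ _ _ h1 ?_ ?_
    · refine (rv_mD_le pw u2).trans ?_
      rw [show 2 * (k + 1) + 1 = 2 * k + 1 + 2 by ring, pow_add]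
      exact mul_le_mul h2 h1 (rv_nonneg _) (by positivity)
    · rw [rv_add, oddSum, sum_range_succ]
      refine add_le_add h3 ((rv_div_le _ _).trans ?_)
      push_cast
      exact div_le_div_of_nonneg_right h2 (by positivity)

lemma atLo_le {x : ℝ} {u : ℕ} (h0 : 0 ≤ x) (h1 : x < 1) (hu : rv u ≤ x) : rv (atLo u) ≤ At x := by
  refine le_trans (loopLo_le h0 30 _ u 0 0 ?_ (by simpa using hu) (by simp [oddSum, rv])) (oddSum_le h0 h1 _)
  refine (rv_mD_le u u).trans ?_
  rw [sq]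
  exact mul_le_mul hu hu (rv_nonneg _) h0

lemma le_loopHi {x : ℝ} (h0 : 0 ≤ x) (h1 : x < 1) : ∀ (n u2 pw acc k : ℕ), u2 < PP → x ^ 2 ≤ rv u2 →
    x ^ (2 * k + 1) ≤ rv pw → oddSum x k ≤ rv acc →
    At x ≤ rv (loopHi n u2 pw acc k) := by
  intro n
  induction n with
  | zero =>
    intro u2 pw acc k hu h2 h3 h4
    refine (le_oddSum h0 h1 k).trans ?_
    rw [loopHi, rv_add]
    refine add_le_add h4 (le_trans ?_ (le_rv_mulPP_div _ _))
    rw [Nat.cast_mul, Nat.cast_sub hu.le]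
    have hp := PP_pos
    have hlt : (u2 : ℝ) < (PP : ℕ) := Nat.cast_lt.2 hu
    have e : (pw : ℝ) / (((2 * k + 1 : ℕ) : ℝ) * (((PP : ℕ) : ℝ) - u2)) = rv pw / ((2 * k + 1) * (1 - rv u2)) := by
      simp only [rv]; push_cast; field_simp
    rw [e]
    have : 0 < 1 - rv u2 := by rw [rv, sub_pos, div_lt_one hp]; exact hlt
    have : 0 < 1 - x ^ 2 := by nlinarith
    have := rv_nonneg pw
    gcongr
  | succ n ih =>
    intro u2 pw acc k hu h2 h3 h4
    rw [loopHi]
    refine ih _ _ _ _ hu h2 ?_ ?_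
    · refine le_trans ?_ (le_rv_mU pw u2)
      rw [show 2 * (k + 1) + 1 = 2 * k + 1 + 2 by ring, pow_add]
      exact mul_le_mul h3 h2 (by positivity) (rv_nonneg _)
    · rw [rv_add, oddSum, sum_range_succ]
      refine add_le_add h4 (le_trans ?_ (rv_le_div_add _ _))
      push_cast
      exact div_le_div_of_nonneg_right h3 (by positivity)

lemma le_atHi {x : ℝ} {u : ℕ} (h0 : 0 ≤ x) (h1 : x < 1) (hu : x ≤ rv u)
    (hg : u * u / PP + 2 ≤ PP) : At x ≤ rv (atHi u) := by
  refine le_loopHi h0 h1 30 _ u 0 0 (by omega) ?_ (by simpa using hu) (by simp [oddSum, rv])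
  refine le_trans ?_ (le_rv_mU u u)
  rw [sq]
  exact mul_le_mul hu hu h0 (rv_nonneg _)

lemma log_two_eq : log 2 = 2 * At (1 / 3) := by
  have : At (1 / 3) = (log (4 / 3) - log (2 / 3)) / 2 := by rw [At]; norm_num
  rw [this, ← log_div (by norm_num) (by norm_num)]
  norm_num
  ring

lemma l2Lo_le : rv l2Lo ≤ log 2 := by
  rw [l2Lo, rv_mul_nat, log_two_eq]
  have := atLo_le (x := 1 / 3) (u := PP / 3) (by norm_num) (by norm_num)
    ((rv_div_le PP 3).trans_eq (by simp [rv, PP_pos.ne']))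
  push_cast; linarith

lemma le_l2Hi : log 2 ≤ rv l2Hi := by
  rw [l2Hi, rv_mul_nat, log_two_eq]
  have := le_atHi (x := 1 / 3) (u := PP / 3 + 1) (by norm_num) (by norm_num)
    (le_trans (le_of_eq (by simp [rv, PP_pos.ne'])) (rv_le_div_add PP 3)) (by decide +kernel)
  push_cast; linarith

lemma At_ratio {a b : ℝ} (ha : 0 < a) (hb : 0 < b) : 2 * At ((a - b) / (a + b)) = log (a / b) := by
  have hab : 0 < a + b := by linarith
  rw [At, show 1 + (a - b) / (a + b) = 2 * a / (a + b) by field_simp; ring,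
    show 1 - (a - b) / (a + b) = 2 * b / (a + b) by field_simp; ring,
    log_div (by positivity) hab.ne', log_div (by positivity) hab.ne', log_mul two_ne_zero ha.ne',
    log_mul two_ne_zero hb.ne', log_div ha.ne' hb.ne']
  ring

lemma log_split {num den k : ℕ} (hn : 0 < num) (hd : 0 < den) :
    log ((num : ℝ) / den) = k * log 2 + log ((num : ℝ) / (den * 2 ^ k : ℕ)) := by
  have : (0:ℝ) < num := Nat.cast_pos.2 hn
  have : (0:ℝ) < den := Nat.cast_pos.2 hd
  push_cast
  rw [log_div (by positivity) (by positivity), log_div (by positivity) (by positivity),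
    log_mul (by positivity) (by positivity), log_pow]
  ring

lemma lLo_le {num den : ℕ} (hd : 0 < den) : rv (lLo num den) ≤ max 0 (log ((num : ℝ) / den)) := by
  simp only [lLo]
  set k := shiftNum 100 num den 0
  set d := den * 2 ^ k with hdd
  cases hb : Nat.ble d num with
  | false => simp [rv]
  | true =>
    have hle : d ≤ num := Nat.le_of_ble_eq_true hb
    have d0 : 0 < d := by positivity
    have n0 : 0 < num := lt_of_lt_of_le d0 hle
    refine le_trans ?_ (le_max_right _ _)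
    rw [log_split (k := k) n0 hd, ← hdd, cond_true, rv_add, rv_mul_nat, rv_mul_nat]
    refine add_le_add (mul_le_mul_of_nonneg_left l2Lo_le (Nat.cast_nonneg _)) ?_
    have a0 : (0:ℝ) < num := Nat.cast_pos.2 n0
    have b0 : (0:ℝ) < d := Nat.cast_pos.2 d0
    have hle' : (d:ℝ) ≤ num := Nat.cast_le.2 hle
    rw [← At_ratio a0 b0]
    push_cast
    refine mul_le_mul_of_nonneg_left (atLo_le (div_nonneg (by linarith) (by linarith))
      ((div_lt_one (by linarith)).2 (by linarith)) ?_) (by norm_num)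
    refine (rv_mulPP_div_le _ _).trans_eq ?_
    rw [Nat.cast_sub hle]; push_cast; rfl

lemma le_lHi {num den : ℕ} (hn : 0 < num) (hd : 0 < den) :
    log ((num : ℝ) / den) ≤ rv (lHi num den) := by
  simp only [lHi]
  set k := shiftNum 100 num den 0
  set d := den * 2 ^ k with hdd
  have d0 : 0 < d := by positivity
  rw [log_split (k := k) hn hd, ← hdd]
  have a0 : (0:ℝ) < num := Nat.cast_pos.2 hn
  have b0 : (0:ℝ) < d := Nat.cast_pos.2 d0
  have hk := mul_le_mul_of_nonneg_left le_l2Hi (Nat.cast_nonneg (α := ℝ) k)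
  cases hb : Nat.ble (((num - d) * PP / (num + d) + 1) * ((num - d) * PP / (num + d) + 1) / PP + 2) PP with
  | false =>
    rw [cond_false, rv_add, rv_mul_nat]
    refine add_le_add hk (le_trans ?_ (le_rv_mulPP_div _ _))
    rcases le_or_gt d num with h | h
    · refine (log_le_sub_one_of_pos (div_pos a0 b0)).trans_eq ?_
      rw [Nat.cast_sub h]; field_simp
    · refine le_trans (log_nonpos (by positivity) ((div_le_one b0).2 (Nat.cast_le.2 h.le))) (by positivity)
  | true =>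
    rw [cond_true, rv_add, rv_mul_nat, rv_mul_nat]
    refine add_le_add hk ?_
    rcases le_or_gt d num with h | h
    · have hle' : (d:ℝ) ≤ num := Nat.cast_le.2 h
      rw [← At_ratio a0 b0]
      push_cast
      refine mul_le_mul_of_nonneg_left (le_atHi (div_nonneg (by linarith) (by linarith))
        ((div_lt_one (by linarith)).2 (by linarith)) ?_ (Nat.le_of_ble_eq_true hb)) (by norm_num)
      refine le_trans (le_of_eq ?_) (le_rv_mulPP_div _ _)
      rw [Nat.cast_sub h]; push_cast; rfl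
    · exact le_trans (log_nonpos (by positivity) ((div_le_one b0).2 (Nat.cast_le.2 h.le)))
        (mul_nonneg (Nat.cast_nonneg _) (rv_nonneg _))

end Vale.Agent.P322.Cert
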