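import Vale.Agent.P322.GoalDef
import Vale.Agent.P322.FPoint

namespace Vale.Agent.P322.Cert
open Real

def qq (t : ℕ) : ℕ := (PP - t) * (PP + t)
def pLo (t : ℕ) : ℕ := lLo (PP + t) (PP - t) / 2
def pHi (t : ℕ) : ℕ := lHi (PP + t) (PP - t) / 2 + 1
def xHi (t : ℕ) : ℕ := (l2Hi + (lHi (PP * PP) (qq t) / 2 + 1)) - mD (pLo t) t
def qHi (t : ℕ) : ℕ :=
  (mU (pHi t) t + mU (xHi t) (PP + (t * PP * PP * PP / (qq t * pLo t) + 1))) - 2 * l2Lo
def xiHi (t : ℕ) : ℕ := xHi t * PP * PP / qq t + 1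

def tLo (al ah b1l bh d11 s1 : ℕ) : ℕ :=
  let u := mU al s1
  bif Nat.ble (bh + 1) PP && Nat.ble (u + 1) PP then
    mD ((lLo PP (PP - al) + lLo (PP - mU (mU al al) bh) (PP - mD al b1l))
        - ((PP + bh) * (lHi (PP + u) (PP - u) / 2 + 1) / s1 + 1)) (mD d11 d11) * PP
      / mU ah (mU (PP - b1l) (PP - b1l))
  else 0

def upHi (al ah bl bh d00 d11 t1 : ℕ) : ℕ :=
  let kap := mD (PP - ah) (mD (mD bl (PP - ah)) al + mD (PP - mU (mU ah ah) bh) (PP + mD al bl))
    * PP / mU ah (mU d00 d00)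
  let ab := mU ah bh
  mU (PP - kap / 4) (qHi t1 + mU l2Hi (lHi (PP + min ab (mU ab (PP - al) * PP / d11 + 1)) PP))

def dnLo (al ah bl bh a1l b1l d00 d11 t1 : ℕ) : ℕ :=
  let phi := 3 * PP / 4 + mD (PP - ah) (PP - bh) * PP / (4 * (PP - mD a1l b1l))
  let e := (PP + mU ah bh) * PP / d11 + 1
  let ep := PP - al
  let gy := 2 * phi - (mU e (mU ep ep) * PP / (4 * al) + 1)
  let y := mD ((PP + mD al bl) * PP / d00) (mD phi l2Lo) * PP / xiHi t1
  mD gy (lLo y PP) / 2

def cellOk (t0 t1 s0 s1 : ℕ) : Bool :=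
  let al := mD t0 t0
  let ah := mU t1 t1
  let bl := mD s0 s0
  let bh := mU s1 s1
  let a1l := mD t1 t1
  let b1l := mD s1 s1
  let d00 := PP - mD al bl
  let d11 := PP - mU ah bh
  Nat.ble 1 al && Nat.ble (ah + 1) PP && Nat.ble s1 PP && Nat.ble 1 d11 && Nat.ble 1 (pLo t1)
    && Nat.ble (upHi al ah bl bh d00 d11 t1)
        (tLo al ah b1l bh d11 s1 + dnLo al ah bl bh a1l b1l d00 d11 t1)

inductive CT where
  | leaf
  | ct (m : ℕ) (l r : CT)
  | cs (m : ℕ) (l r : CT)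

def CT.check : CT → ℕ → ℕ → ℕ → ℕ → Bool
  | .leaf, t0, t1, s0, s1 => cellOk t0 t1 s0 s1
  | .ct m l r, t0, t1, s0, s1 => l.check t0 m s0 s1 && r.check m t1 s0 s1
  | .cs m l r, t0, t1, s0, s1 => l.check t0 t1 s0 m && r.check t0 t1 m s1

lemma rv_PP : rv PP = 1 := div_self PP_pos.ne'
lemma rv_sub (a b : ℕ) : rv (a - b) = max 0 (rv a - rv b) := by
  rcases le_or_gt b a with h | h
  · rw [max_eq_right (sub_nonneg.2 (rv_le h))]; simp [rv, Nat.cast_sub h, sub_div]
  · rw [max_eq_left (sub_nonpos.2 (rv_le h.le)), Nat.sub_eq_zero_of_le h.le]; simp [rv]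
lemma rv_sub_of_le {a b : ℕ} (h : b ≤ a) : rv (a - b) = rv a - rv b := by
  simp [rv, Nat.cast_sub h, sub_div]
lemma le_rv_sub (a b : ℕ) : rv a - rv b ≤ rv (a - b) := by rw [rv_sub]; exact le_max_right _ _
lemma rv_lt_one {a : ℕ} (h : a + 1 ≤ PP) : rv a < 1 := by
  rw [rv, div_lt_one PP_pos]; exact Nat.cast_lt.2 h
lemma one_le_rv {a : ℕ} (h : 1 ≤ a) : 0 < rv a := div_pos (Nat.cast_pos.2 h) PP_pos
lemma cast_div_cast (a b : ℕ) : (a : ℝ) / b = rv a / rv b := by
  simp only [rv]; rw [div_div_div_cancel_right₀ PP_pos.ne']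
lemma rv_two_mul (a : ℕ) : rv (2 * a) = 2 * rv a := by rw [rv_mul_nat]; norm_num
lemma rv_four_mul (a : ℕ) : rv (4 * a) = 4 * rv a := by rw [rv_mul_nat]; norm_num

lemma rv_qq {t : ℕ} (h : t + 1 ≤ PP) : (qq t : ℝ) = (1 - rv t ^ 2) * ((PP : ℕ) : ℝ) ^ 2 := by
  simp only [qq, rv]
  rw [Nat.cast_mul, Nat.cast_sub (by omega), Nat.cast_add]
  have := PP_pos
  field_simp
  ring

lemma log_ratio {t : ℕ} (h : t + 1 ≤ PP) :
    log (((PP + t : ℕ) : ℝ) / ((PP - t : ℕ) : ℝ)) = 2 * At (rv t) := by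
  have h1 := rv_lt_one h
  have h0 := rv_nonneg t
  rw [cast_div_cast, rv_sub_of_le (by omega), rv_add, rv_PP, log_div (by linarith) (by linarith), At]
  ring

lemma pLo_le {t : ℕ} (h : t + 1 ≤ PP) : rv (pLo t) ≤ At (rv t) := by
  rw [pLo]
  refine (rv_div_le _ 2).trans ?_
  have := lLo_le (num := PP + t) (den := PP - t) (by omega)
  rw [log_ratio h] at this
  have h0 : 0 ≤ At (rv t) := by
    have := At_mono (a := 0) (b := rv t) (by norm_num) (rv_nonneg t) (rv_lt_one h)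
    rwa [At_zero] at this
  rw [max_eq_right (by linarith)] at this
  push_cast; linarith

lemma le_pHi {t : ℕ} (h : t + 1 ≤ PP) : At (rv t) ≤ rv (pHi t) := by
  rw [pHi]
  refine le_trans ?_ (rv_le_div_add _ 2)
  have := le_lHi (num := PP + t) (den := PP - t) (by omega) (by omega)
  rw [log_ratio h] at this
  push_cast; linarith

lemma le_xHi {t : ℕ} (h : t + 1 ≤ PP) : xz (At (rv t)) ≤ rv (xHi t) := by
  have t0 := rv_nonneg t
  have t1 := rv_lt_one h
  rw [xHi]
  refine le_trans ?_ (le_rv_sub _ _)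
  have q0 : 0 < qq t := Nat.mul_pos (by omega) (by omega)
  have hl := le_lHi (num := PP * PP) (den := qq t) (Nat.mul_pos one_le_PP one_le_PP) q0
  have e : ((PP * PP : ℕ) : ℝ) / (qq t : ℝ) = 1 / (1 - rv t ^ 2) := by
    rw [rv_qq h, Nat.cast_mul, ← sq]
    have := PP_pos
    field_simp
  rw [e] at hl
  have h2 := rv_le_div_add (lHi (PP * PP) (qq t)) 2
  push_cast at h2
  have h3 : rv (mD (pLo t) t) ≤ At (rv t) * rv t :=
    (rv_mD_le _ _).trans (mul_le_mul_of_nonneg_right (pLo_le h) t0)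
  rw [xz_At (by linarith) t1, rv_add]
  linarith [le_l2Hi]

lemma le_qHi {t : ℕ} (h : t + 1 ≤ PP) (hp : 1 ≤ pLo t) : Qz (At (rv t)) ≤ rv (qHi t) := by
  have tpos : 0 < rv t := by
    refine (rv_nonneg t).lt_of_ne fun e => ?_
    have := pLo_le h
    rw [← e, At_zero] at this
    linarith [one_le_rv hp]
  have t1 := rv_lt_one h
  have p0 : 0 < rv (pLo t) := one_le_rv hp
  have hpos : 0 < 1 - rv t ^ 2 := by nlinarith
  have Ap := At_pos tpos t1
  rw [qHi, Qz_At tpos t1]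
  refine le_trans (sub_le_sub ?_ (le_refl (2 * log 2))) (le_trans (sub_le_sub le_rfl ?_) (le_rv_sub _ _))
  · rw [rv_add]
    refine add_le_add ?_ (le_trans ?_ (le_rv_mU _ _))
    · exact (mul_le_mul_of_nonneg_right (le_pHi h) tpos.le).trans (le_rv_mU _ _)
    · refine mul_le_mul (le_xHi h) ?_ (by positivity) (rv_nonneg _)
      rw [rv_add, rv_PP]
      refine add_le_add le_rfl (le_trans ?_ (le_rv_mulPP_div _ _))
      have e : ((t * PP * PP : ℕ) : ℝ) / ((qq t * pLo t : ℕ) : ℝ) = rv t / ((1 - rv t ^ 2) * rv (pLo t)) := by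
        simp only [Nat.cast_mul]
        rw [rv_qq h, show rv t = (t:ℝ) / PP from rfl, show rv (pLo t) = (pLo t : ℝ) / PP from rfl]
        have := PP_pos
        field_simp
      rw [e]
      gcongr
      exact pLo_le h
  · rw [rv_two_mul]; linarith [l2Lo_le]

lemma xz_cosh_sq_monotone' :
    MonotoneOn (fun z => xz z * cosh z ^ 2) (Set.Ici 0) := by
  have hd : ∀ x : ℝ, HasDerivAt (fun z => xz z * cosh z ^ 2)
      (xz x * (2 * sinh x * cosh x) - x) x := fun x => by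
    refine ((hasDerivAt_xz x).mul ((hasDerivAt_cosh x).pow 2)).congr_deriv ?_
    simp only [Pi.pow_apply]
    have := cosh_pos x
    field_simp
    ring
  refine monotoneOn_of_deriv_nonneg (convex_Ici 0)
    (fun x _ => (hd x).continuousAt.continuousWithinAt)
    (fun x _ => (hd x).differentiableAt.differentiableWithinAt) fun x hx => ?_
  rw [interior_Ici] at hx
  have hx' : (0:ℝ) < x := hx
  rw [(hd x).deriv, sub_nonneg]
  have hE := half_le_Ez hx'
  rw [Ez, Sz_of_ne hx'.ne', sinh_two_mul] at hE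
  have e : xz x * (1 + (2 * sinh x * cosh x / (2 * x) - 1)) = xz x * (2 * sinh x * cosh x) / (2 * x) := by ring
  rw [e, le_div_iff₀ (by positivity)] at hE
  linarith

lemma cosh_At_sq {t : ℝ} (h1 : -1 < t) (h2 : t < 1) : cosh (At t) ^ 2 = 1 / (1 - t ^ 2) := by
  have ht := tanh_At h1 h2
  rw [tanh_eq_sinh_div_cosh] at ht
  have hc := cosh_pos (At t)
  rw [div_eq_iff hc.ne'] at ht
  have := cosh_sq_sub_sinh_sq (At t)
  rw [ht] at this
  have : (0:ℝ) < 1 - t ^ 2 := by nlinarith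
  rw [eq_div_iff this.ne']
  linarith

lemma le_xiHi {t : ℕ} (h : t + 1 ≤ PP) : xz (At (rv t)) / (1 - rv t ^ 2) ≤ rv (xiHi t) := by
  have t0 := rv_nonneg t
  have t1 := rv_lt_one h
  have hpos : 0 < 1 - rv t ^ 2 := by nlinarith
  rw [xiHi]
  refine le_trans (div_le_div_of_nonneg_right (le_xHi h) hpos.le) (le_trans (le_of_eq ?_) (le_rv_mulPP_div _ _))
  rw [Nat.cast_mul, rv_qq h, rv]
  have := PP_pos
  field_simp

lemma ratio_mono {a a' b b' : ℝ} (ha : 0 ≤ a) (hb : 0 ≤ b) (haa : a ≤ a') (hbb : b ≤ b')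
    (ha' : a' < 1) (hb' : b' ≤ 1) :
    (1 - a') * (1 - b') / (1 - a' * b') ≤ (1 - a) * (1 - b) / (1 - a * b) := by
  have d1 : 0 < 1 - a' * b' := by nlinarith
  have d2 : 0 < 1 - a * b' := by nlinarith
  have d3 : 0 < 1 - a * b := by nlinarith
  have h1 : (1 - a') * (1 - b') / (1 - a' * b') ≤ (1 - a) * (1 - b') / (1 - a * b') := by
    rw [div_le_div_iff₀ d1 d2]
    nlinarith [mul_nonneg (sub_nonneg.2 hb') (mul_nonneg (sub_nonneg.2 haa) (sub_nonneg.2 hb'))]
  refine h1.trans ?_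
  rw [div_le_div_iff₀ d2 d3]
  nlinarith [mul_nonneg (mul_nonneg (by linarith : (0:ℝ) ≤ 1 - a) (by linarith : (0:ℝ) ≤ 1 - a)) (sub_nonneg.2 hbb)]

lemma base_sound {al bh b1l s1 : ℕ} {S : ℝ} (hS : S = rv s1) (gu : mU al s1 + 1 ≤ PP)
    (al0 : 0 < rv al) (al1 : rv al < 1) (S0 : 0 < S) (S1 : S < 1) (Sbh : S ^ 2 ≤ rv bh)
    (b1 : rv b1l ≤ S ^ 2) (bh1 : rv bh < 1) :
    rv ((lLo PP (PP - al) + lLo (PP - mU (mU al al) bh) (PP - mD al b1l))
      - ((PP + bh) * (lHi (PP + mU al s1) (PP - mU al s1) / 2 + 1) / s1 + 1)) ≤ TT (rv al) S := by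
  subst hS
  have S21 : rv s1 ^ 2 < 1 := Sbh.trans_lt bh1
  rw [rv_sub]
  refine max_le (TT_nonneg al0.le al1 S0 S1) ?_
  rw [rv_add]
  have hle : al ≤ PP := by
    by_contra h
    linarith [rv_le (le_of_lt (not_le.1 h)), rv_PP]
  have i1 : rv (lLo PP (PP - al)) ≤ -log (1 - rv al) := by
    have hpos : 0 < PP - al := by
      rcases lt_or_eq_of_le hle with h | h
      · omega
      · rw [h, rv_PP] at al1; linarith
    refine (lLo_le (num := PP) hpos).trans (max_le ?_ (le_of_eq ?_))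
    · linarith [log_nonpos (by linarith : (0:ℝ) ≤ 1 - rv al) (by linarith)]
    · rw [cast_div_cast, rv_sub_of_le hle, rv_PP, one_div, log_inv]
  have n2 : 0 < 1 - rv al ^ 2 * rv s1 ^ 2 := by nlinarith [mul_le_mul_of_nonneg_left S21.le (sq_nonneg (rv al))]
  have m2 : 0 < 1 - rv al * rv s1 ^ 2 := by nlinarith
  have lognn : log (1 - rv al * rv s1 ^ 2) ≤ log (1 - rv al ^ 2 * rv s1 ^ 2) := by
    refine log_le_log m2 ?_
    nlinarith [mul_le_mul_of_nonneg_right (show rv al ^ 2 ≤ rv al by nlinarith) (sq_nonneg (rv s1))]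
  have i2 : rv (lLo (PP - mU (mU al al) bh) (PP - mD al b1l))
      ≤ log (1 - rv al ^ 2 * rv s1 ^ 2) - log (1 - rv al * rv s1 ^ 2) := by
    have hmd : mD al b1l < PP := by
      by_contra h
      have := (rv_le (not_lt.1 h)).trans (rv_mD_le al b1l)
      rw [rv_PP] at this; nlinarith [rv_nonneg b1l]
    refine (lLo_le (by omega)).trans (max_le (by linarith) ?_)
    rcases Nat.eq_zero_or_pos (PP - mU (mU al al) bh) with h | h
    · rw [h]; simp; linarith
    rw [cast_div_cast, log_div (one_le_rv h).ne' (one_le_rv (by omega)).ne']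
    refine sub_le_sub (log_le_log (one_le_rv h) ?_) (log_le_log m2 ?_)
    · rw [rv_sub_of_le (by omega), rv_PP]
      have h1 := le_rv_mU (mU al al) bh
      have h2 := mul_le_mul (le_rv_mU al al) Sbh (sq_nonneg _) (rv_nonneg _)
      rw [sq (rv al)]; linarith
    · rw [rv_sub_of_le hmd.le, rv_PP]
      have := (rv_mD_le al b1l).trans (mul_le_mul_of_nonneg_left b1 (rv_nonneg al))
      linarith
  have i3 : (1 + rv s1 ^ 2) * At (rv al * rv s1) / rv s1
      ≤ rv ((PP + bh) * (lHi (PP + mU al s1) (PP - mU al s1) / 2 + 1) / s1 + 1) := by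
    refine le_trans ?_ (rv_le_div_add _ _)
    have hu1 := rv_lt_one gu
    have hAt : At (rv al * rv s1) ≤ rv (lHi (PP + mU al s1) (PP - mU al s1) / 2 + 1) := by
      refine (At_mono (by nlinarith) (le_rv_mU al s1) hu1).trans (le_trans ?_ (rv_le_div_add _ 2))
      have := le_lHi (num := PP + mU al s1) (den := PP - mU al s1) (by omega) (by omega)
      rw [log_ratio gu] at this
      push_cast; linarith
    have e : rv ((PP + bh) * (lHi (PP + mU al s1) (PP - mU al s1) / 2 + 1)) / (s1 : ℝ)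
        = (1 + rv bh) * rv (lHi (PP + mU al s1) (PP - mU al s1) / 2 + 1) / rv s1 := by
      rw [← rv_PP, ← rv_add]
      generalize PP + bh = a, lHi (PP + mU al s1) (PP - mU al s1) / 2 + 1 = b
      simp only [rv]
      have := PP_pos
      push_cast
      field_simp
    rw [e]
    refine div_le_div_of_nonneg_right (mul_le_mul (by linarith) hAt ?_ (by linarith [rv_nonneg bh])) S0.le
    have := At_mono (a := 0) (b := rv al * rv s1) (by norm_num) (by positivity) (by nlinarith)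
    rwa [At_zero] at this
  simp only [TT]
  linarith

lemma phi_sound {t1 s1 : ℕ} {A B : ℝ} (A0 : 0 < A) (B0 : 0 < B) (AT : A ≤ rv t1 ^ 2) (BS : B ≤ rv s1 ^ 2)
    (gah : mU t1 t1 + 1 ≤ PP) (T21 : rv t1 ^ 2 < 1) (S21 : rv s1 ^ 2 ≤ 1) :
    rv (3 * PP / 4 + mD (PP - mU t1 t1) (PP - mU s1 s1) * PP / (4 * (PP - mD (mD t1 t1) (mD s1 s1)))) ≤ phiR A B := by
  set T := rv t1 with hT
  set S := rv s1 with hS
  set ah := mU t1 t1
  set bh := mU s1 s1
  set a1l := mD t1 t1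
  set b1l := mD s1 s1
  have A1 : A < 1 := AT.trans_lt T21
  have B1 : B ≤ 1 := BS.trans S21
  have eps1 : rv (PP - ah) = 1 - rv ah := by rw [rv_sub_of_le (by omega), rv_PP]
  simp only [rv_add, phiR]
  refine add_le_add ?_ ?_
  · refine (rv_div_le _ 4).trans ?_
    rw [rv_mul_nat, rv_PP]; norm_num
  · refine le_trans ((rv_mulPP_div_le _ _).trans ?_) (le_of_eq_of_le rfl
      (le_trans (div_le_div_of_nonneg_right (ratio_mono A0.le B0.le AT BS T21 S21) (by norm_num : (0:ℝ) ≤ 4))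
        (le_of_eq (by rw [div_div, mul_comm (1 - A * B) 4]))))
    rw [cast_div_cast, rv_four_mul, div_div, mul_comm (1 - T ^ 2 * S ^ 2) 4]
    have dd : 0 < 1 - T ^ 2 * S ^ 2 := by nlinarith [sq_nonneg T]
    refine div_le_div₀ (mul_nonneg (by linarith) (by linarith)) ((rv_mD_le _ _).trans ?_) (by positivity) ?_
    · refine mul_le_mul ?_ ?_ (rv_nonneg _) (by linarith)
      · rw [eps1]; have := le_rv_mU t1 t1; nlinarith
      · rw [rv_sub]; refine max_le (by linarith) ?_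
        rw [rv_PP]; have := le_rv_mU s1 s1; nlinarith
    · refine mul_le_mul_of_nonneg_left (le_trans ?_ (le_rv_sub _ _)) (by norm_num)
      rw [rv_PP]
      have h1 : rv a1l ≤ T ^ 2 := by rw [sq]; exact rv_mD_le t1 t1
      have h2 : rv b1l ≤ S ^ 2 := by rw [sq]; exact rv_mD_le s1 s1
      have := (rv_mD_le a1l b1l).trans (mul_le_mul h1 h2 (rv_nonneg _) (sq_nonneg _))
      linarith

lemma up_sound {t0 t1 s0 s1 : ℕ} {t s : ℝ} (gal : 1 ≤ mD t0 t0) (gah : mU t1 t1 + 1 ≤ PP) (gs1 : s1 ≤ PP)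
    (g11 : 1 ≤ PP - mU (mU t1 t1) (mU s1 s1)) (gp : 1 ≤ pLo t1)
    (ht0 : rv t0 ≤ t) (ht1 : t ≤ rv t1) (hs0 : rv s0 ≤ s) (hs1 : s ≤ rv s1)
    (spos : 0 < s) (slt : s < 1) :
    max 0 (1 - kapR (t ^ 2) (s ^ 2) / 4) * (Qz (At t) + log 2 * log (1 + (t ^ 2) * (s ^ 2) * (1 - (t ^ 2)) / (1 - (t ^ 2) * (s ^ 2))))
      ≤ rv (upHi (mD t0 t0) (mU t1 t1) (mD s0 s0) (mU s1 s1) (PP - mD (mD t0 t0) (mD s0 s0)) (PP - mU (mU t1 t1) (mU s1 s1)) t1) := by
  set al := mD t0 t0
  set ah := mU t1 t1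
  set bl := mD s0 s0
  set bh := mU s1 s1
  set a1l := mD t1 t1
  set b1l := mD s1 s1
  set A := t ^ 2 with hA
  set B := s ^ 2 with hB
  have tn : 0 ≤ rv t0 := rv_nonneg _
  have sn : 0 ≤ rv s0 := rv_nonneg _
  have tnn : 0 ≤ t := tn.trans ht0
  have alA : rv al ≤ A := by
    refine (rv_mD_le t0 t0).trans ?_; rw [hA, sq]; exact mul_le_mul ht0 ht0 tn tnn
  have Aah : A ≤ rv ah := by
    refine le_trans ?_ (le_rv_mU t1 t1); rw [hA, sq]; exact mul_le_mul ht1 ht1 tnn (tnn.trans ht1)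
  have blB : rv bl ≤ B := by
    refine (rv_mD_le s0 s0).trans ?_; rw [hB, sq]; exact mul_le_mul hs0 hs0 sn spos.le
  have Bbh : B ≤ rv bh := by
    refine le_trans ?_ (le_rv_mU s1 s1); rw [hB, sq]; exact mul_le_mul hs1 hs1 spos.le (spos.le.trans hs1)
  have al0 : 0 < rv al := one_le_rv gal
  have A0 : 0 < A := al0.trans_le alA
  have ah1 : rv ah < 1 := rv_lt_one gah
  have A1 : A < 1 := Aah.trans_lt ah1
  have B0 : 0 < B := by rw [hB]; positivity
  have B1 : B < 1 := by rw [hB]; nlinarith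
  have t1lt : t1 + 1 ≤ PP := by
    by_contra h
    have h1 : (1:ℝ) ≤ rv t1 := by rw [← rv_PP]; exact rv_le (by omega)
    nlinarith [le_rv_mU t1 t1]
  have tlt : t < 1 := ht1.trans_lt (rv_lt_one t1lt)
  have tpos : 0 < t := tnn.lt_of_ne fun e => by rw [hA, ← e] at A0; simp at A0
  have hd11 : rv (PP - mU ah bh) ≤ 1 - A * B := by
    rw [rv_sub_of_le (by omega), rv_PP]
    have := le_rv_mU ah bh
    nlinarith [mul_le_mul Aah Bbh B0.le (rv_nonneg ah)]
  have d11p : 0 < rv (PP - mU ah bh) := one_le_rv g11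
  have Dpos : 0 < 1 - A * B := d11p.trans_le hd11
  have hd00 : 1 - A * B ≤ rv (PP - mD al bl) := by
    refine le_trans ?_ (le_rv_sub _ _)
    rw [rv_PP]
    have := rv_mD_le al bl
    have := mul_le_mul alA blB (rv_nonneg _) A0.le
    linarith
  have d00p : 0 < rv (PP - mD al bl) := Dpos.trans_le hd00
  have d11one : rv (PP - mU ah bh) ≤ 1 := hd11.trans (by nlinarith)
  have hAB : A * B ≤ rv (mU ah bh) :=
    (mul_le_mul Aah Bbh B0.le (rv_nonneg _)).trans (le_rv_mU _ _)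
  have eps : 1 - A ≤ rv (PP - al) := by
    refine le_trans ?_ (le_rv_sub _ _); rw [rv_PP]; linarith
  have eps1 : rv (PP - ah) = 1 - rv ah := by rw [rv_sub_of_le (by omega), rv_PP]
  have hQ : Qz (At t) ≤ rv (qHi t1) := (Qz_monotone (Set.mem_Ici.2 (At_pos tpos tlt).le)
    (Set.mem_Ici.2 (At_pos (tpos.trans_le ht1) (rv_lt_one t1lt)).le)
    (At_mono (by linarith) ht1 (rv_lt_one t1lt))).trans (le_qHi t1lt gp)
  simp only [upHi]
  have hkap : rv (mD (PP - ah) (mD (mD bl (PP - ah)) al + mD (PP - mU (mU ah ah) bh) (PP + mD al bl))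
      * PP / mU ah (mU (PP - mD al bl) (PP - mD al bl))) ≤ kapR A B := by
    refine (rv_mulPP_div_le _ _).trans ?_
    rw [cast_div_cast, kapR]
    have hn0 : 0 ≤ B * (1 - A) * A + (1 - A ^ 2 * B) * (1 + A * B) :=
      add_nonneg (by have : (0:ℝ) ≤ 1 - A := by linarith
                     positivity) (mul_nonneg (by nlinarith) (by positivity))
    refine div_le_div₀ (mul_nonneg (by linarith) hn0) ?_ (by positivity) ?_
    · refine (rv_mD_le _ _).trans (mul_le_mul (by rw [eps1]; linarith) ?_ (rv_nonneg _) (by linarith))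
      rw [rv_add]
      refine add_le_add ?_ ?_
      · refine (rv_mD_le _ _).trans (mul_le_mul ((rv_mD_le _ _).trans ?_) alA (rv_nonneg _) ?_)
        · exact mul_le_mul blB (by rw [eps1]; linarith) (rv_nonneg _) B0.le
        · exact mul_nonneg B0.le (by linarith)
      · refine (rv_mD_le _ _).trans (mul_le_mul ?_ ?_ (rv_nonneg _) (by nlinarith))
        · rw [rv_sub]
          refine max_le (by nlinarith) ?_
          rw [rv_PP]
          have h1 := le_rv_mU (mU ah ah) bh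
          have h2 := mul_le_mul (le_rv_mU ah ah) (le_refl (rv bh)) (rv_nonneg _) (rv_nonneg _)
          have h3 : A ^ 2 * B ≤ rv ah * rv ah * rv bh := by
            rw [sq]; exact mul_le_mul (mul_le_mul Aah Aah A0.le (rv_nonneg _)) Bbh B0.le (mul_nonneg (rv_nonneg _) (rv_nonneg _))
          linarith
        · rw [rv_add, rv_PP]
          have := (rv_mD_le al bl).trans (mul_le_mul alA blB (rv_nonneg _) A0.le)
          linarith
    · refine le_trans (mul_le_mul Aah (le_trans ?_ (le_rv_mU _ _)) (sq_nonneg _) (rv_nonneg _)) (le_rv_mU _ _)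
      rw [sq]; exact mul_le_mul hd00 hd00 Dpos.le d00p.le
  refine le_trans (mul_le_mul ?_ ?_ ?_ (rv_nonneg _)) (le_rv_mU _ _)
  · rw [rv_sub]
    refine max_le_max le_rfl ?_
    rw [rv_PP]
    have := rv_div_le (mD (PP - ah) (mD (mD bl (PP - ah)) al + mD (PP - mU (mU ah ah) bh) (PP + mD al bl))
      * PP / mU ah (mU (PP - mD al bl) (PP - mD al bl))) 4
    push_cast at this ⊢
    linarith
  · rw [rv_add]
    refine add_le_add hQ (le_trans ?_ (le_rv_mU _ _))
    refine mul_le_mul le_l2Hi ?_ (log_nonneg ?_) (rv_nonneg _)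
    · set r := min (mU ah bh) (mU (mU ah bh) (PP - al) * PP / (PP - mU ah bh) + 1)
      have hr : A * B * (1 - A) / (1 - A * B) ≤ rv r := by
        rcases min_choice (mU ah bh) (mU (mU ah bh) (PP - al) * PP / (PP - mU ah bh) + 1) with e | e <;>
          simp only [r, e]
        · refine le_trans ?_ hAB
          rw [div_le_iff₀ Dpos]
          exact mul_le_mul_of_nonneg_left (by nlinarith) (by positivity)
        · refine le_trans ?_ (le_rv_mulPP_div _ _)
          rw [cast_div_cast]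
          refine div_le_div₀ (rv_nonneg _) (le_trans ?_ (le_rv_mU _ _)) d11p hd11
          exact mul_le_mul hAB eps (by linarith) (rv_nonneg _)
      refine le_trans ?_ (le_lHi (Nat.add_pos_left one_le_PP _) one_le_PP)
      rw [cast_div_cast, rv_add, rv_PP, div_one]
      refine log_le_log ?_ (by linarith)
      have : 0 ≤ A * B * (1 - A) / (1 - A * B) :=
        div_nonneg (mul_nonneg (by positivity) (by linarith)) Dpos.le
      linarith
    · have : 0 ≤ A * B * (1 - A) / (1 - A * B) :=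
        div_nonneg (mul_nonneg (by positivity) (by linarith)) Dpos.le
      linarith
  · refine add_nonneg (Qz_nonneg (At_pos tpos tlt).le) (mul_nonneg (log_pos one_lt_two).le (log_nonneg ?_))
    have : 0 ≤ A * B * (1 - A) / (1 - A * B) :=
      div_nonneg (mul_nonneg (by positivity) (by linarith)) Dpos.le
    linarith

lemma t_sound {t0 t1 s0 s1 : ℕ} {t s : ℝ} (gal : 1 ≤ mD t0 t0) (gah : mU t1 t1 + 1 ≤ PP) (gs1 : s1 ≤ PP)
    (g11 : 1 ≤ PP - mU (mU t1 t1) (mU s1 s1)) (gp : 1 ≤ pLo t1)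
    (ht0 : rv t0 ≤ t) (ht1 : t ≤ rv t1) (hs0 : rv s0 ≤ s) (hs1 : s ≤ rv s1)
    (spos : 0 < s) (slt : s < 1) :
    rv (tLo (mD t0 t0) (mU t1 t1) (mD s1 s1) (mU s1 s1) (PP - mU (mU t1 t1) (mU s1 s1)) s1) ≤ TTt (t ^ 2) s := by
  set al := mD t0 t0
  set ah := mU t1 t1
  set bl := mD s0 s0
  set bh := mU s1 s1
  set a1l := mD t1 t1
  set b1l := mD s1 s1
  set A := t ^ 2 with hA
  set B := s ^ 2 with hB
  have tn : 0 ≤ rv t0 := rv_nonneg _
  have sn : 0 ≤ rv s0 := rv_nonneg _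
  have tnn : 0 ≤ t := tn.trans ht0
  have alA : rv al ≤ A := by
    refine (rv_mD_le t0 t0).trans ?_; rw [hA, sq]; exact mul_le_mul ht0 ht0 tn tnn
  have Aah : A ≤ rv ah := by
    refine le_trans ?_ (le_rv_mU t1 t1); rw [hA, sq]; exact mul_le_mul ht1 ht1 tnn (tnn.trans ht1)
  have blB : rv bl ≤ B := by
    refine (rv_mD_le s0 s0).trans ?_; rw [hB, sq]; exact mul_le_mul hs0 hs0 sn spos.le
  have Bbh : B ≤ rv bh := by
    refine le_trans ?_ (le_rv_mU s1 s1); rw [hB, sq]; exact mul_le_mul hs1 hs1 spos.le (spos.le.trans hs1)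
  have al0 : 0 < rv al := one_le_rv gal
  have A0 : 0 < A := al0.trans_le alA
  have ah1 : rv ah < 1 := rv_lt_one gah
  have A1 : A < 1 := Aah.trans_lt ah1
  have B0 : 0 < B := by rw [hB]; positivity
  have B1 : B < 1 := by rw [hB]; nlinarith
  have t1lt : t1 + 1 ≤ PP := by
    by_contra h
    have h1 : (1:ℝ) ≤ rv t1 := by rw [← rv_PP]; exact rv_le (by omega)
    nlinarith [le_rv_mU t1 t1]
  have tlt : t < 1 := ht1.trans_lt (rv_lt_one t1lt)
  have tpos : 0 < t := tnn.lt_of_ne fun e => by rw [hA, ← e] at A0; simp at A0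
  have hd11 : rv (PP - mU ah bh) ≤ 1 - A * B := by
    rw [rv_sub_of_le (by omega), rv_PP]
    have := le_rv_mU ah bh
    nlinarith [mul_le_mul Aah Bbh B0.le (rv_nonneg ah)]
  have d11p : 0 < rv (PP - mU ah bh) := one_le_rv g11
  have Dpos : 0 < 1 - A * B := d11p.trans_le hd11
  have hd00 : 1 - A * B ≤ rv (PP - mD al bl) := by
    refine le_trans ?_ (le_rv_sub _ _)
    rw [rv_PP]
    have := rv_mD_le al bl
    have := mul_le_mul alA blB (rv_nonneg _) A0.le
    linarith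
  have d00p : 0 < rv (PP - mD al bl) := Dpos.trans_le hd00
  have d11one : rv (PP - mU ah bh) ≤ 1 := hd11.trans (by nlinarith)
  have hAB : A * B ≤ rv (mU ah bh) :=
    (mul_le_mul Aah Bbh B0.le (rv_nonneg _)).trans (le_rv_mU _ _)
  have eps : 1 - A ≤ rv (PP - al) := by
    refine le_trans ?_ (le_rv_sub _ _); rw [rv_PP]; linarith
  have eps1 : rv (PP - ah) = 1 - rv ah := by rw [rv_sub_of_le (by omega), rv_PP]
  have hQ : Qz (At t) ≤ rv (qHi t1) := (Qz_monotone (Set.mem_Ici.2 (At_pos tpos tlt).le)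
    (Set.mem_Ici.2 (At_pos (tpos.trans_le ht1) (rv_lt_one t1lt)).le)
    (At_mono (by linarith) ht1 (rv_lt_one t1lt))).trans (le_qHi t1lt gp)
  have hTT0 : 0 ≤ TTt A s :=
    div_nonneg (mul_nonneg (sq_nonneg _) (TT_nonneg A0.le A1 spos slt)) (by positivity)
  simp only [tLo]
  cases hg : (Nat.ble (bh + 1) PP && Nat.ble (mU al s1 + 1) PP) with
  | false => simpa [rv] using hTT0
  | true =>
    simp only [Bool.and_eq_true, Nat.ble_eq] at hg
    obtain ⟨gb, gu⟩ := hg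
    rw [cond_true]
    set S := rv s1 with hS
    have S0 : 0 < S := spos.trans_le hs1
    have Sbh : S ^ 2 ≤ rv bh := by rw [sq]; exact le_rv_mU s1 s1
    have bh1 := rv_lt_one gb
    have S1 : S < 1 := by
      by_contra h; rw [not_lt] at h; nlinarith
    have S21 : S ^ 2 < 1 := by linarith
    have b1 : rv b1l ≤ S ^ 2 := by rw [sq]; exact rv_mD_le s1 s1
    have al1 : rv al < 1 := alA.trans_lt A1
    have base := base_sound hS gu al0 al1 S0 S1 Sbh b1 bh1
    have mono : TT (rv al) S ≤ TT A S := TT_monotoneOn S0 S1 ⟨al0.le, al1⟩ ⟨A0.le, A1⟩ alA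
    refine le_trans ?_ (TTt_anti A0 A1 spos hs1 S1)
    refine (rv_mulPP_div_le _ _).trans ?_
    rw [cast_div_cast, TTt, mul_comm ((1 - A * S ^ 2) ^ 2)]
    refine div_le_div₀ (mul_nonneg (TT_nonneg A0.le A1 S0 S1) (sq_nonneg _))
      ((rv_mD_le _ _).trans ?_) (by have : (0:ℝ) < 1 - S ^ 2 := by linarith
                                    positivity) ?_
    · refine mul_le_mul (base.trans mono) ((rv_mD_le _ _).trans ?_) (rv_nonneg _) (TT_nonneg A0.le A1 S0 S1)
      have : rv (PP - mU ah bh) ≤ 1 - A * S ^ 2 := by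
        rw [rv_sub_of_le (by omega), rv_PP]
        have := le_rv_mU ah bh
        nlinarith [mul_le_mul Aah Sbh (sq_nonneg S) (rv_nonneg ah)]
      rw [sq (1 - A * S ^ 2)]
      exact mul_le_mul this this (rv_nonneg _) ((rv_nonneg _).trans this)
    · have hb : 1 - S ^ 2 ≤ rv (PP - b1l) := by
        refine le_trans ?_ (le_rv_sub _ _); rw [rv_PP]; linarith
      refine le_trans (mul_le_mul Aah (le_trans ?_ (le_rv_mU _ _)) (sq_nonneg _) (rv_nonneg _)) (le_rv_mU _ _)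
      rw [sq]; exact mul_le_mul hb hb (by linarith) (rv_nonneg _)

lemma dn_sound {t0 t1 s0 s1 : ℕ} {t s : ℝ} (gal : 1 ≤ mD t0 t0) (gah : mU t1 t1 + 1 ≤ PP) (gs1 : s1 ≤ PP)
    (g11 : 1 ≤ PP - mU (mU t1 t1) (mU s1 s1)) (gp : 1 ≤ pLo t1)
    (ht0 : rv t0 ≤ t) (ht1 : t ≤ rv t1) (hs0 : rv s0 ≤ s) (hs1 : s ≤ rv s1)
    (spos : 0 < s) (slt : s < 1) :
    rv (dnLo (mD t0 t0) (mU t1 t1) (mD s0 s0) (mU s1 s1) (mD t1 t1) (mD s1 s1) (PP - mD (mD t0 t0) (mD s0 s0)) (PP - mU (mU t1 t1) (mU s1 s1)) t1)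
      ≤ max 0 (gyR (t ^ 2) (s ^ 2)) / 2 * max 0 (log ((1 + (t ^ 2) * (s ^ 2)) / (1 - (t ^ 2) * (s ^ 2)) * phiR (t ^ 2) (s ^ 2) * log 2
        / (xz (At t) / (1 - (t ^ 2))))) := by
  set al := mD t0 t0
  set ah := mU t1 t1
  set bl := mD s0 s0
  set bh := mU s1 s1
  set a1l := mD t1 t1
  set b1l := mD s1 s1
  set A := t ^ 2 with hA
  set B := s ^ 2 with hB
  have tn : 0 ≤ rv t0 := rv_nonneg _
  have sn : 0 ≤ rv s0 := rv_nonneg _
  have tnn : 0 ≤ t := tn.trans ht0
  have alA : rv al ≤ A := by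
    refine (rv_mD_le t0 t0).trans ?_; rw [hA, sq]; exact mul_le_mul ht0 ht0 tn tnn
  have Aah : A ≤ rv ah := by
    refine le_trans ?_ (le_rv_mU t1 t1); rw [hA, sq]; exact mul_le_mul ht1 ht1 tnn (tnn.trans ht1)
  have blB : rv bl ≤ B := by
    refine (rv_mD_le s0 s0).trans ?_; rw [hB, sq]; exact mul_le_mul hs0 hs0 sn spos.le
  have Bbh : B ≤ rv bh := by
    refine le_trans ?_ (le_rv_mU s1 s1); rw [hB, sq]; exact mul_le_mul hs1 hs1 spos.le (spos.le.trans hs1)
  have al0 : 0 < rv al := one_le_rv gal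
  have A0 : 0 < A := al0.trans_le alA
  have ah1 : rv ah < 1 := rv_lt_one gah
  have A1 : A < 1 := Aah.trans_lt ah1
  have B0 : 0 < B := by rw [hB]; positivity
  have B1 : B < 1 := by rw [hB]; nlinarith
  have t1lt : t1 + 1 ≤ PP := by
    by_contra h
    have h1 : (1:ℝ) ≤ rv t1 := by rw [← rv_PP]; exact rv_le (by omega)
    nlinarith [le_rv_mU t1 t1]
  have tlt : t < 1 := ht1.trans_lt (rv_lt_one t1lt)
  have tpos : 0 < t := tnn.lt_of_ne fun e => by rw [hA, ← e] at A0; simp at A0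
  have hd11 : rv (PP - mU ah bh) ≤ 1 - A * B := by
    rw [rv_sub_of_le (by omega), rv_PP]
    have := le_rv_mU ah bh
    nlinarith [mul_le_mul Aah Bbh B0.le (rv_nonneg ah)]
  have d11p : 0 < rv (PP - mU ah bh) := one_le_rv g11
  have Dpos : 0 < 1 - A * B := d11p.trans_le hd11
  have hd00 : 1 - A * B ≤ rv (PP - mD al bl) := by
    refine le_trans ?_ (le_rv_sub _ _)
    rw [rv_PP]
    have := rv_mD_le al bl
    have := mul_le_mul alA blB (rv_nonneg _) A0.le
    linarith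
  have d00p : 0 < rv (PP - mD al bl) := Dpos.trans_le hd00
  have d11one : rv (PP - mU ah bh) ≤ 1 := hd11.trans (by nlinarith)
  have hAB : A * B ≤ rv (mU ah bh) :=
    (mul_le_mul Aah Bbh B0.le (rv_nonneg _)).trans (le_rv_mU _ _)
  have eps : 1 - A ≤ rv (PP - al) := by
    refine le_trans ?_ (le_rv_sub _ _); rw [rv_PP]; linarith
  have eps1 : rv (PP - ah) = 1 - rv ah := by rw [rv_sub_of_le (by omega), rv_PP]
  have hQ : Qz (At t) ≤ rv (qHi t1) := (Qz_monotone (Set.mem_Ici.2 (At_pos tpos tlt).le)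
    (Set.mem_Ici.2 (At_pos (tpos.trans_le ht1) (rv_lt_one t1lt)).le)
    (At_mono (by linarith) ht1 (rv_lt_one t1lt))).trans (le_qHi t1lt gp)
  simp only [dnLo]
  set T := rv t1 with hT'
  set S := rv s1 with hS'
  have T1 : T < 1 := rv_lt_one t1lt
  have S1 : S ≤ 1 := by rw [hS', ← rv_PP]; exact rv_le gs1
  have AT : A ≤ T ^ 2 := by rw [hA]; exact pow_le_pow_left₀ tnn ht1 2
  have BS : B ≤ S ^ 2 := by rw [hB]; exact pow_le_pow_left₀ spos.le hs1 2
  have T21 : T ^ 2 < 1 := by nlinarith [rv_nonneg t1]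
  have S21 : S ^ 2 ≤ 1 := by nlinarith [rv_nonneg s1]
  set ph := 3 * PP / 4 + mD (PP - ah) (PP - bh) * PP / (4 * (PP - mD a1l b1l))
  have hph : rv ph ≤ phiR A B := phi_sound A0 B0 AT BS gah T21 S21
  have phpos : 0 < phiR A B := by
    have : 0 ≤ (1 - A) * (1 - B) / (4 * (1 - A * B)) :=
      div_nonneg (mul_nonneg (by linarith) (by linarith)) (by linarith)
    simp only [phiR]; linarith
  have hgy : rv (2 * ph - (mU ((PP + mU ah bh) * PP / (PP - mU ah bh) + 1) (mU (PP - al) (PP - al)) * PP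
      / (4 * al) + 1)) ≤ max 0 (gyR A B) := by
    rw [rv_sub]
    refine max_le_max le_rfl ?_
    rw [rv_two_mul, gyR]
    refine sub_le_sub (by linarith) (le_trans ?_ (le_rv_mulPP_div _ _))
    rw [cast_div_cast, rv_four_mul]
    refine div_le_div₀ (rv_nonneg _) (le_trans ?_ (le_rv_mU _ _)) (by positivity) (by linarith)
    refine mul_le_mul ?_ (le_trans ?_ (le_rv_mU _ _)) (sq_nonneg _) (rv_nonneg _)
    · refine le_trans ?_ (le_rv_mulPP_div _ _)
      rw [cast_div_cast, rv_add, rv_PP]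
      exact div_le_div₀ (add_nonneg zero_le_one (rv_nonneg _)) (by linarith) d11p hd11
    · rw [sq]; exact mul_le_mul eps eps (by linarith) (rv_nonneg _)
  have hy : rv (mD ((PP + mD al bl) * PP / (PP - mD al bl)) (mD ph l2Lo) * PP / xiHi t1)
      ≤ (1 + A * B) / (1 - A * B) * phiR A B * log 2 / (xz (At t) / (1 - A)) := by
    refine (rv_mulPP_div_le _ _).trans ?_
    rw [cast_div_cast, mul_assoc]
    have hxi : xz (At t) / (1 - A) ≤ rv (xiHi t1) := by
      refine le_trans ?_ (le_xiHi t1lt)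
      have h1 := At_pos tpos tlt
      have h2 := At_mono (by linarith : -1 < t) ht1 T1
      have := xz_cosh_sq_monotone' (Set.mem_Ici.2 h1.le) (Set.mem_Ici.2 (h1.le.trans h2)) h2
      simp only [cosh_At_sq (by linarith : -1 < t) tlt, cosh_At_sq (by linarith [rv_nonneg t1] : -1 < T) T1,
        mul_one_div] at this
      exact this
    refine div_le_div₀ (mul_nonneg (div_nonneg (by positivity) Dpos.le)
      (mul_nonneg phpos.le (log_pos one_lt_two).le)) ((rv_mD_le _ _).trans ?_)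
      (div_pos (xz_pos_of_nonneg (At_pos tpos tlt).le) (by linarith)) hxi
    refine mul_le_mul ((rv_mulPP_div_le _ _).trans ?_) ((rv_mD_le _ _).trans ?_) (rv_nonneg _)
      (div_nonneg (by positivity) Dpos.le)
    · rw [cast_div_cast, rv_add, rv_PP]
      refine div_le_div₀ (by positivity) ?_ Dpos hd00
      have := (rv_mD_le al bl).trans (mul_le_mul alA blB (rv_nonneg _) A0.le)
      linarith
    · exact mul_le_mul hph l2Lo_le (rv_nonneg _) phpos.le
  set yn := mD ((PP + mD al bl) * PP / (PP - mD al bl)) (mD ph l2Lo) * PP / xiHi t1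
  have hl : rv (lLo yn PP) ≤ max 0 (log ((1 + A * B) / (1 - A * B) * phiR A B * log 2
      / (xz (At t) / (1 - A)))) := by
    refine (lLo_le one_le_PP).trans (max_le (le_max_left _ _) ?_)
    rw [cast_div_cast, rv_PP, div_one]
    rcases eq_or_lt_of_le (rv_nonneg yn) with h | h
    · rw [← h, log_zero]; exact le_max_left _ _
    · exact (log_le_log h hy).trans (le_max_right _ _)
  refine (rv_div_le _ 2).trans ?_
  push_cast
  rw [div_mul_eq_mul_div]
  exact div_le_div_of_nonneg_right ((rv_mD_le _ _).trans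
    (mul_le_mul hgy hl (rv_nonneg _) (le_max_left _ _))) (by norm_num)

lemma cell_sound {t0 t1 s0 s1 : ℕ} (hc : cellOk t0 t1 s0 s1 = true) {t s : ℝ}
    (ht0 : rv t0 ≤ t) (ht1 : t ≤ rv t1) (hs0 : rv s0 ≤ s) (hs1 : s ≤ rv s1)
    (spos : 0 < s) (slt : s < 1) : Goal t s := by
  simp only [cellOk, Bool.and_eq_true, Nat.ble_eq] at hc
  obtain ⟨⟨⟨⟨⟨gal, gah⟩, gs1⟩, g11⟩, gp⟩, hmain⟩ := hc
  have hmainR := rv_le hmain
  rw [rv_add] at hmainR
  have h1 := up_sound gal gah gs1 g11 gp ht0 ht1 hs0 hs1 spos slt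
  have h2 := t_sound gal gah gs1 g11 gp ht0 ht1 hs0 hs1 spos slt
  have h3 := dn_sound gal gah gs1 g11 gp ht0 ht1 hs0 hs1 spos slt
  unfold Goal
  linarith

lemma CT.sound : ∀ (tr : CT) (t0 t1 s0 s1 : ℕ), tr.check t0 t1 s0 s1 = true → ∀ t s : ℝ,
    rv t0 ≤ t → t ≤ rv t1 → rv s0 ≤ s → s ≤ rv s1 → 0 < s → s < 1 → Goal t s := by
  intro tr
  induction tr with
  | leaf => intro t0 t1 s0 s1 h t s a b c d e f; exact cell_sound h a b c d e f
  | ct m l r ihl ihr =>
    intro t0 t1 s0 s1 h t s a b c d e f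
    simp only [CT.check, Bool.and_eq_true] at h
    rcases le_total t (rv m) with hm | hm
    · exact ihl _ _ _ _ h.1 t s a hm c d e f
    · exact ihr _ _ _ _ h.2 t s hm b c d e f
  | cs m l r ihl ihr =>
    intro t0 t1 s0 s1 h t s a b c d e f
    simp only [CT.check, Bool.and_eq_true] at h
    rcases le_total s (rv m) with hm | hm
    · exact ihl _ _ _ _ h.1 t s a b c hm e f
    · exact ihr _ _ _ _ h.2 t s a b hm d e f

end Vale.Agent.P322.Cert

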