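import Vale.Agent.P322.Cell

namespace Vale.Agent.P322.Cert

def tree5 : CT :=
(.ct 79184587024865408952878235648
(.cs 39614081257132168796771975168
.leaf (.cs 59421121885698253195157962752
.leaf (.cs 69324642199981295394350956544
.leaf (.cs 74276402357122816493947453440
(.ct 79166760688299670653882073088
.leaf .leaf) (.cs 76752282435693577043745701888
(.ct 79166760688299670653882073088
.leaf .leaf) (.cs 77990222474978957318644826112
(.ct 79166760688299670653882073088
.leaf .leaf) (.cs 78609192494621647456094388224
(.ct 79166760688299670653882073088
.leaf .leaf) (.cs 78918677504442992524819169280
(.ct 79166760688299670653882073088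
.leaf .leaf) (.cs 79073420009353665059181559808
(.ct 79166760688299670653882073088
.leaf .leaf) (.cs 79150791261809001326362755072
.leaf .leaf)))))))))) (.ct 79202413361431147251874398208
(.cs 39614081257132168796771975168
.leaf (.cs 59421121885698253195157962752
.leaf (.cs 69324642199981295394350956544
.leaf (.cs 74276402357122816493947453440
.leaf (.cs 76752282435693577043745701888
.leaf (.cs 77990222474978957318644826112
.leaf (.cs 78609192494621647456094388224
(.ct 79193500193148278102376316928
.leaf .leaf) (.cs 78918677504442992524819169280
(.ct 79193500193148278102376316928
.leaf .leaf) (.cs 79073420009353665059181559808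
.leaf (.cs 79150791261809001326362755072
.leaf (.cs 79189476888036669459953352704
.leaf .leaf))))))))))) (.cs 39614081257132168796771975168
.leaf (.cs 59421121885698253195157962752
.leaf (.cs 69324642199981295394350956544
.leaf (.cs 74276402357122816493947453440
.leaf (.cs 76752282435693577043745701888
(.ct 79211326529714016401372479488
.leaf .leaf) (.cs 77990222474978957318644826112
(.ct 79211326529714016401372479488
.leaf .leaf) (.cs 78609192494621647456094388224
(.ct 79211326529714016401372479488
.leaf .leaf) (.cs 78918677504442992524819169280
(.ct 79211326529714016401372479488
.leaf .leaf) (.cs 79073420009353665059181559808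
(.ct 79211326529714016401372479488
.leaf (.ct 79215783113855450976121520128
.leaf .leaf)) (.cs 79150791261809001326362755072
(.ct 79211326529714016401372479488
.leaf (.ct 79215783113855450976121520128
.leaf .leaf)) (.cs 79189476888036669459953352704
(.ct 79211326529714016401372479488
.leaf .leaf) (.cs 79208819701150503526748651520
(.ct 79211326529714016401372479488
.leaf .leaf) (.cs 79218491107707420560146300928
.leaf .leaf)))))))))))))))

lemma tree5_ok : tree5.check 79148934351733932354885910528 79220239697996885550870560768 0 PP = true := by decide +kernel

end Vale.Agent.P322.Cert
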