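import Vale.Agent.P322.Cell

namespace Vale.Agent.P322.Cert

def tree7 : CT :=
(.ct 79228118938731379849307357184
(.cs 39614081257132168796771975168
.leaf (.cs 59421121885698253195157962752
.leaf (.cs 69324642199981295394350956544
.leaf (.cs 74276402357122816493947453440
.leaf (.cs 76752282435693577043745701888
.leaf (.cs 77990222474978957318644826112
.leaf (.cs 78609192494621647456094388224
.leaf (.cs 78918677504442992524819169280
.leaf (.cs 79073420009353665059181559808
.leaf (.cs 79150791261809001326362755072
.leaf (.cs 79189476888036669459953352704
.leaf (.cs 79208819701150503526748651520
.leaf (.cs 79218491107707420560146300928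
.leaf (.cs 79223326810985879076845125632
.leaf (.cs 79225744662625108335194537984
.leaf (.cs 79226953588444722964369244160
.leaf (.cs 79227558051354530278956597248
.leaf .leaf))))))))))))))))) (.ct 79228136765059568892299444224
(.cs 39614081257132168796771975168
.leaf (.cs 59421121885698253195157962752
.leaf (.cs 69324642199981295394350956544
.leaf (.cs 74276402357122816493947453440
.leaf (.cs 76752282435693577043745701888
.leaf (.cs 77990222474978957318644826112
.leaf (.cs 78609192494621647456094388224
.leaf (.cs 78918677504442992524819169280
.leaf (.cs 79073420009353665059181559808
.leaf (.cs 79150791261809001326362755072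
.leaf (.cs 79189476888036669459953352704
.leaf (.cs 79208819701150503526748651520
.leaf (.cs 79218491107707420560146300928
.leaf (.cs 79223326810985879076845125632
.leaf (.cs 79225744662625108335194537984
.leaf (.cs 79226953588444722964369244160
.leaf (.cs 79227558051354530278956597248
.leaf (.cs 79227860282809433936250273792
.leaf .leaf)))))))))))))))))) (.cs 39614081257132168796771975168
.leaf (.cs 59421121885698253195157962752
.leaf (.cs 69324642199981295394350956544
.leaf (.cs 74276402357122816493947453440
.leaf (.cs 76752282435693577043745701888
.leaf (.cs 77990222474978957318644826112
.leaf (.cs 78609192494621647456094388224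
.leaf (.cs 78918677504442992524819169280
.leaf (.cs 79073420009353665059181559808
.leaf (.cs 79150791261809001326362755072
.leaf (.cs 79189476888036669459953352704
.leaf (.cs 79208819701150503526748651520
.leaf (.cs 79218491107707420560146300928
.leaf (.cs 79223326810985879076845125632
.leaf (.cs 79225744662625108335194537984
.leaf (.cs 79226953588444722964369244160
.leaf (.cs 79227558051354530278956597248
.leaf (.cs 79227860282809433936250273792
.leaf (.cs 79228011398536885764897112064
.leaf .leaf)))))))))))))))))))))

lemma tree7_ok : tree7.check 79228083286075001763323183104 79228154591387757935291531264 0 PP = true := by decide +kernel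

end Vale.Agent.P322.Cert
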