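import Vale.Agent.P322.Tree0
import Vale.Agent.P322.Tree1
import Vale.Agent.P322.Tree2
import Vale.Agent.P322.Tree3
import Vale.Agent.P322.Tree4
import Vale.Agent.P322.Tree5
import Vale.Agent.P322.Tree6
import Vale.Agent.P322.Tree7
import Vale.Agent.P322.Tree8

namespace Vale.Agent.P322.Cert
open Real

/-- the certified range. -/
theorem goal_of_certificate {t s : ℝ} (hlo : rv 34860391506244603199782649856 ≤ t) (hhi : t ≤ rv 79228161721919033552488366080)
    (spos : 0 < s) (slt : s < 1) : Goal t s := by
  have hs0 : rv 0 ≤ s := by simp [rv]; exact spos.le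
  have hs1 : s ≤ rv PP := by rw [rv_PP]; exact slt.le
  rcases le_total t (rv 55459713759970624796673179648) with h0 | h0
  · exact tree0.sound _ _ _ _ tree0_ok t s hlo h0 hs0 hs1 spos slt
  rcases le_total t (rv 67343938137081452398089601024) with h1 | h1
  · exact tree1.sound _ _ _ _ tree1_ok t s h0 h1 hs0 hs1 spos slt
  rcases le_total t (rv 75266754388536709195059167232) with h2 | h2
  · exact tree2.sound _ _ _ _ tree2_ok t s h1 h2 hs0 hs1 spos slt
  rcases le_total t (rv 78435880889104400395039408128) with h3 | h3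
  · exact tree3.sound _ _ _ _ tree3_ok t s h2 h3 hs0 hs1 spos slt
  rcases le_total t (rv 79148934351733932354885910528) with h4 | h4
  · exact tree4.sound _ _ _ _ tree4_ok t s h3 h4 hs0 hs1 spos slt
  rcases le_total t (rv 79220239697996885550870560768) with h5 | h5
  · exact tree5.sound _ _ _ _ tree5_ok t s h4 h5 hs0 hs1 spos slt
  rcases le_total t (rv 79228083286075001763323183104) with h6 | h6
  · exact tree6.sound _ _ _ _ tree6_ok t s h5 h6 hs0 hs1 spos slt
  rcases le_total t (rv 79228154591387757935291531264) with h7 | h7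
  · exact tree7.sound _ _ _ _ tree7_ok t s h6 h7 hs0 hs1 spos slt
  exact tree8.sound _ _ _ _ tree8_ok t s h7 hhi hs0 hs1 spos slt

end Vale.Agent.P322.Cert
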