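import Vale.Agent.P322.Pair

noncomputable section
namespace Vale.Agent.P322
open Real Set Finset

abbrev Cube (n : ℕ) := Fin n → Bool

/-- uniform expectation. -/
def Ex {n : ℕ} (g : Cube n → ℝ) : ℝ := (∑ x, g x) / 2 ^ n

def flipAt {n : ℕ} (i : Fin n) (x : Cube n) : Cube n := Function.update x i (!(x i))

def Dis {n : ℕ} (g : Cube n → ℝ) : ℝ := ∑ i, Ex (fun x => dd (g x) (g (flipAt i x)))

lemma Ex_add {n : ℕ} (f g : Cube n → ℝ) : Ex (fun x => f x + g x) = Ex f + Ex g := by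
  simp [Ex, Finset.sum_add_distrib, add_div]

lemma Ex_mul_left {n : ℕ} (c : ℝ) (f : Cube n → ℝ) : Ex (fun x => c * f x) = c * Ex f := by
  simp [Ex, ← Finset.mul_sum, mul_div_assoc]

lemma Ex_const (n : ℕ) (c : ℝ) : Ex (fun _ : Cube n => c) = c := by
  simp [Ex, mul_comm c]

lemma Ex_sub {n : ℕ} (f g : Cube n → ℝ) : Ex (fun x => f x - g x) = Ex f - Ex g := by
  simp [Ex, Finset.sum_sub_distrib, sub_div]

lemma Ex_le {n : ℕ} {f g : Cube n → ℝ} (h : ∀ x, f x ≤ g x) : Ex f ≤ Ex g :=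
  div_le_div_of_nonneg_right (Finset.sum_le_sum fun x _ => h x) (by positivity)

lemma Ex_mem {n : ℕ} {f : Cube n → ℝ} {a b : ℝ} (h : ∀ x, a < f x ∧ f x < b) :
    a < Ex f ∧ Ex f < b := by
  have hp : (0:ℝ) < 2 ^ n := by positivity
  constructor
  · rw [Ex, lt_div_iff₀ hp]
    calc a * 2 ^ n = ∑ _x : Cube n, a := by simp [mul_comm]
      _ < ∑ x, f x := Finset.sum_lt_sum_of_nonempty univ_nonempty fun x _ => (h x).1
  · rw [Ex, div_lt_iff₀ hp]
    calc ∑ x, f x < ∑ _x : Cube n, b := Finset.sum_lt_sum_of_nonempty univ_nonempty fun x _ => (h x).2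
      _ = b * 2 ^ n := by simp [mul_comm]

lemma Ex_pos {n : ℕ} {f : Cube n → ℝ} (h : ∀ x, 0 < f x) : 0 < Ex f :=
  div_pos (Finset.sum_pos (fun x _ => h x) univ_nonempty) (by positivity)

lemma Ex_succ {n : ℕ} (g : Cube (n + 1) → ℝ) :
    Ex g = (Ex (fun x => g (Fin.cons false x)) + Ex (fun x => g (Fin.cons true x))) / 2 := by
  have : ∑ x, g x = ∑ x, g (Fin.cons false x) + ∑ x, g (Fin.cons true x) := by
    rw [← (Fin.consEquiv fun _ : Fin (n + 1) => Bool).sum_comp, Fintype.sum_prod_type,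
      Fintype.sum_bool, add_comm]
    rfl
  rw [Ex, this, Ex, Ex, pow_succ]
  field_simp

lemma flipAt_zero {n : ℕ} (b : Bool) (x : Cube n) :
    flipAt 0 (Fin.cons b x : Cube (n + 1)) = Fin.cons (!b) x := by
  simp [flipAt, Fin.update_cons_zero]

lemma flipAt_succ {n : ℕ} (b : Bool) (x : Cube n) (i : Fin n) :
    flipAt i.succ (Fin.cons b x : Cube (n + 1)) = Fin.cons b (flipAt i x) := by
  simp [flipAt, Fin.cons_update]

lemma dd_comm (u v : ℝ) : dd u v = dd v u := by simp only [dd]; ring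

lemma Dis_succ {n : ℕ} (g : Cube (n + 1) → ℝ) :
    Dis g = Ex (fun x => dd (g (Fin.cons true x)) (g (Fin.cons false x)))
      + (Dis (fun x => g (Fin.cons false x)) + Dis (fun x => g (Fin.cons true x))) / 2 := by
  rw [Dis, Fin.sum_univ_succ]
  congr 1
  · rw [Ex_succ]
    simp only [flipAt_zero, Bool.not_false, Bool.not_true]
    simp only [dd_comm (g (Fin.cons false _))]
    ring
  · simp only [Dis, ← Finset.sum_add_distrib, Finset.sum_div]
    refine Finset.sum_congr rfl fun i _ => ?_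
    rw [Ex_succ]
    simp only [flipAt_succ]

/-- the weight. -/
def Wt (m : ℝ) : ℝ := (1 - m ^ 2) * (1 - m ^ 2 / 4)

lemma Wt_pos {m : ℝ} (h1 : -1 < m) (h2 : m < 1) : 0 < Wt m :=
  mul_pos (by nlinarith) (by nlinarith)

lemma Wt_le {m : ℝ} (h1 : -1 < m) (h2 : m < 1) : Wt m ≤ 1 - m ^ 2 := by
  have h : (0:ℝ) ≤ 1 - m ^ 2 := by nlinarith
  unfold Wt; nlinarith [mul_nonneg h (sq_nonneg m)]

/-- strengthened lower bound for the dissipation. -/
def Psi (m η : ℝ) : ℝ := 2 * (hh m - η) + Pi2 (Wt m) η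

/-- Scalar two point inequality. -/
def TwoPoint : Prop :=
  ∀ mu mv η C : ℝ, -1 < mu → mu < 1 → -1 < mv → mv < 1 → 0 < η → η ≤ (hh mu + hh mv) / 2 →
    dd mu mv ≤ C →
    (∀ z, 0 < z → |mu - mv| / 2 * (z + sg z * gz z) - sg z * η ≤ C) →
    2 * hh ((mu + mv) / 2) - (hh mu + hh mv) + Pi2 (Wt ((mu + mv) / 2)) η
      ≤ C + Pi2 ((Wt mu + Wt mv) / 2) η

lemma hh_pos {u : ℝ} (h1 : -1 < u) (h2 : u < 1) : 0 < hh u :=
  lt_of_lt_of_le (mul_pos (by nlinarith) (log_pos one_lt_two)) (log_two_mul_le_hh h1 h2)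

lemma Ex_dd_ge_mean {n : ℕ} (U V : Cube n → ℝ) (hU : ∀ x, -1 < U x ∧ U x < 1)
    (hV : ∀ x, -1 < V x ∧ V x < 1) : dd (Ex U) (Ex V) ≤ Ex (fun x => dd (U x) (V x)) := by
  obtain ⟨p1, p2⟩ := Ex_mem hU
  obtain ⟨q1, q2⟩ := Ex_mem hV
  set p := Ex U with hp
  set q := Ex V with hq
  set a := At p with ha
  set b := At q with hb
  have h := Ex_le (n := n) (fun x => dd_tangent (hU x).1 (hU x).2 (hV x).1 (hV x).2 p1 p2 q1 q2)
  refine le_trans (le_of_eq ?_) h
  set k1 := (p - q) / (1 - p ^ 2)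
  set k2 := (q - p) / (1 - q ^ 2)
  have e : (fun x => ((U x - V x) * a + (V x - U x) * b) / 4 + ((U x - p) * k1 + (V x - q) * k2) / 4)
      = fun x => ((a - b + k1) / 4 * U x + (b - a + k2) / 4 * V x) + (-(p * k1 + q * k2) / 4) := by
    funext x; ring
  rw [e, Ex_add, Ex_add, Ex_mul_left, Ex_mul_left, Ex_const, ← hp, ← hq, dd, ← ha, ← hb]
  ring

lemma hh_concave_mem {n : ℕ} (U : Cube n → ℝ) (hU : ∀ x, -1 < U x ∧ U x < 1) :
    Ex (fun x => hh (U x)) ≤ hh (Ex U) := by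
  obtain ⟨p1, p2⟩ := Ex_mem hU
  set p := Ex U with hp
  have key : ∀ x, hh (U x) ≤ hh p + (-At p) * (U x - p) := by
    intro x
    obtain ⟨u1, u2⟩ := hU x
    have a1 := mul_log_div_ge (x := 1 + U x) (y := 1 + p) (r := 1) (by linarith) (by linarith) one_pos
    have a2 := mul_log_div_ge (x := 1 - U x) (y := 1 - p) (r := 1) (by linarith) (by linarith) one_pos
    rw [log_div] at a1 a2 <;> try linarith
    simp only [log_one, mul_zero, zero_add, one_mul] at a1 a2
    simp only [hh, phi, At]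
    linarith
  calc Ex (fun x => hh (U x)) ≤ Ex (fun x => hh p + (-At p) * (U x - p)) := Ex_le key
    _ = hh p := by rw [Ex_add, Ex_const, Ex_mul_left, Ex_sub, Ex_const, ← hp]; ring

lemma Ex_dd_ge_line {n : ℕ} (U V : Cube n → ℝ) (hU : ∀ x, -1 < U x ∧ U x < 1)
    (hV : ∀ x, -1 < V x ∧ V x < 1) {z : ℝ} (hz : 0 < z) :
    |Ex U - Ex V| / 2 * (z + sg z * gz z) - sg z * ((Ex (fun x => hh (U x)) + Ex (fun x => hh (V x))) / 2)
      ≤ Ex (fun x => dd (U x) (V x)) := by
  have one : ∀ (U V : Cube n → ℝ), (∀ x, -1 < U x ∧ U x < 1) → (∀ x, -1 < V x ∧ V x < 1) →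
      (Ex U - Ex V) / 2 * (z + sg z * gz z)
        - sg z * ((Ex (fun x => hh (U x)) + Ex (fun x => hh (V x))) / 2)
      ≤ Ex (fun x => dd (U x) (V x)) := by
    intro U V hU hV
    set A := z + sg z * gz z
    set s := sg z
    have h := Ex_le (n := n) (fun x => dd_linear (hU x).1 (hU x).2 (hV x).1 (hV x).2 hz)
    refine le_trans (le_of_eq ?_) h
    have e : (fun x => (U x - V x) / 2 * A - s * ((hh (U x) + hh (V x)) / 2))
        = fun x => A / 2 * (U x - V x) - s / 2 * (hh (U x) + hh (V x)) := by funext x; ring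
    rw [e, Ex_sub, Ex_mul_left, Ex_mul_left, Ex_sub, Ex_add]; ring
  rcases abs_choice (Ex U - Ex V) with h | h <;> rw [h]
  · exact one U V hU hV
  · have := one V U hV hU
    simp only [dd_comm (V _)] at this
    linarith

/-- tensorisation. -/
theorem dis_ge_Psi (hK : TwoPoint) : ∀ (n : ℕ) (g : Cube n → ℝ), (∀ x, -1 < g x ∧ g x < 1) →
    Psi (Ex g) (Ex (fun x => hh (g x))) ≤ Dis g := by
  intro n
  induction n with
  | zero =>
    intro g hg
    have hx : ∀ x : Cube 0, x = default := fun x => Subsingleton.elim _ _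
    have e1 : Ex g = g default := by simp [Ex]; exact congrArg g (Subsingleton.elim _ _)
    have e2 : Ex (fun x => hh (g x)) = hh (g default) := by
      simp [Ex]; exact congrArg (fun y => hh (g y)) (Subsingleton.elim _ _)
    obtain ⟨a, b⟩ := hg default
    rw [e1, e2, Psi, Pi2_of_le (Wt_pos a b)]
    · simp [Dis]
    · exact le_trans (mul_le_mul_of_nonneg_right (Wt_le a b) (log_pos one_lt_two).le)
        (log_two_mul_le_hh a b)
  | succ n ih =>
    intro g hg
    set U := fun x => g (Fin.cons true x) with hUdef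
    set V := fun x => g (Fin.cons false x) with hVdef
    have hU : ∀ x, -1 < U x ∧ U x < 1 := fun x => hg _
    have hV : ∀ x, -1 < V x ∧ V x < 1 := fun x => hg _
    obtain ⟨a1, a2⟩ := Ex_mem hU
    obtain ⟨b1, b2⟩ := Ex_mem hV
    set eu := Ex (fun x => hh (U x)) with heu
    set ev := Ex (fun x => hh (V x)) with hev
    have eu0 : 0 < eu := Ex_pos fun x => hh_pos (hU x).1 (hU x).2
    have ev0 : 0 < ev := Ex_pos fun x => hh_pos (hV x).1 (hV x).2
    have hh1 := hh_concave_mem U hU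
    have hh2 := hh_concave_mem V hV
    have key := hK (Ex U) (Ex V) ((eu + ev) / 2) (Ex (fun x => dd (U x) (V x))) a1 a2 b1 b2
      (by linarith) (by linarith) (Ex_dd_ge_mean U V hU hV) (fun z hz => Ex_dd_ge_line U V hU hV hz)
    have mid := Pi2_midpoint (Wt_pos a1 a2) (Wt_pos b1 b2) eu0 ev0
    have i1 := ih U hU
    have i2 := ih V hV
    have em : Ex g = (Ex U + Ex V) / 2 := by rw [Ex_succ, hUdef, hVdef]; ring
    have ee : Ex (fun x => hh (g x)) = (eu + ev) / 2 := by rw [Ex_succ, heu, hev]; ring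
    rw [Dis_succ, em, ee]
    simp only [Psi] at i1 i2 ⊢
    rw [← heu] at i1; rw [← hev] at i2
    linarith

end Vale.Agent.P322
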