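import Vale.Agent.P322.Pair

/-!
Growth of the profile `Qz` and the slope of `Pi2` in the weight.
-/

noncomputable section
namespace Vale.Agent.P322
open Real Filter Topology Set

lemma hasDerivAt_Pi2_fst {Y η : ℝ} (hY : 0 < Y) (hη : 0 < η) :
    HasDerivAt (fun y => Pi2 y η) (Qz (Zi (η / Y))) Y := by
  set S := fun y => Qz (Zi (η / y)) with hS
  have hSc : ContinuousAt S Y := by
    have : ContinuousAt (fun y => Zi (η / y)) Y :=
      (continuousOn_Zi.continuousAt (Ioi_mem_nhds (div_pos hη hY))).comp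
        (f := fun y => η / y) (continuousAt_const.div continuousAt_id hY.ne')
    exact continuous_Qz.continuousAt.comp this
  rw [hasDerivAt_iff_isLittleO, Asymptotics.isLittleO_iff]
  intro c hc
  have h1 : ∀ᶠ y in 𝓝 Y, |S y - S Y| ≤ c :=
    (Metric.tendsto_nhds.1 hSc c hc).mono fun y hy => le_of_lt (by simpa [Real.dist_eq] using hy)
  filter_upwards [h1, eventually_gt_nhds hY] with y hy hy0
  have u1 : Pi2 Y η + (y - Y) * S Y ≤ Pi2 y η := by
    have := le_Pi2 hy0 hη (Zi_nonneg (η / Y)); simp only [Pi2, hS] at *; linarith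
  have u2 : Pi2 y η + (Y - y) * S y ≤ Pi2 Y η := by
    have := le_Pi2 hY hη (Zi_nonneg (η / y)); simp only [Pi2, hS] at *; linarith
  simp only [smul_eq_mul, norm_eq_abs]
  change |Pi2 y η - Pi2 Y η - (y - Y) * S Y| ≤ c * |y - Y|
  rw [abs_of_nonneg (by linarith)]
  calc Pi2 y η - Pi2 Y η - (y - Y) * S Y ≤ (y - Y) * (S y - S Y) := by nlinarith
    _ ≤ |(y - Y) * (S y - S Y)| := le_abs_self _
    _ ≤ c * |y - Y| := by
        rw [abs_mul, mul_comm]; exact mul_le_mul_of_nonneg_right hy (abs_nonneg _)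

lemma hasDerivAt_log_xz {z : ℝ} (hz : 0 ≤ z) :
    HasDerivAt (fun x => log (xz x)) (-(z / cosh z ^ 2) / xz z) z :=
  (hasDerivAt_xz z).log (xz_pos_of_nonneg hz).ne'

lemma continuousOn_Qz_add_log (c : ℝ) : ContinuousOn (fun z => Qz z + c * log (xz z)) (Ici 0) :=
  continuous_Qz.continuousOn.add (continuousOn_const.mul
    (fun _ hz => (hasDerivAt_log_xz hz).continuousAt.continuousWithinAt))

lemma Qz_sub_le_log {z0 z : ℝ} (h0 : 0 ≤ z0) (h : z0 ≤ z) :
    Qz z - Qz z0 ≤ log 2 * log (xz z0 / xz z) := by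
  have hd : ∀ x, 0 < x → HasDerivAt (fun x => Qz x + log 2 * log (xz x))
      (xz x * Sd x + log 2 * (-(x / cosh x ^ 2) / xz x)) x := fun x hx =>
    (hasDerivAt_Qz hx).add ((hasDerivAt_log_xz hx.le).const_mul _)
  have hm : AntitoneOn (fun x => Qz x + log 2 * log (xz x)) (Ici 0) := by
    refine antitoneOn_of_deriv_nonpos (convex_Ici 0) (continuousOn_Qz_add_log _) ?_ ?_ <;>
      intro x hx <;> rw [interior_Ici] at hx <;> have hx' : (0:ℝ) < x := hx
    · exact (hd x hx').differentiableAt.differentiableWithinAt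
    · rw [(hd x hx').deriv]
      have hxz := xz_pos_of_nonneg hx'.le
      have k := xz_mul_Sd_le hx'
      have hE := Ez_le_log_two hx'.le
      have eE : xz x * tanh x * cosh x ^ 2 = Ez x * x := by
        rw [Ez, Sz_of_ne hx'.ne', sinh_two_mul, tanh_eq_sinh_div_cosh]; field_simp; ring
      rw [neg_div, mul_neg, ← sub_eq_add_neg, sub_nonpos, div_div, ← mul_div_assoc,
        le_div_iff₀ (by positivity)]
      nlinarith [mul_le_mul_of_nonneg_left k (mul_nonneg hxz.le (sq_nonneg (cosh x))),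
        mul_le_mul_of_nonneg_right hE hx'.le]
  have := hm h0 (show (0:ℝ) ≤ z from h0.trans h) h
  rw [log_div (xz_pos_of_nonneg h0).ne' (xz_pos_of_nonneg (h0.trans h)).ne']
  linarith

/-- `exp v ≤ (6 + 4 v + v ^ 2) / (6 - 2 v)` in product form. -/
lemma exp_mul_le_pade {v : ℝ} (h0 : 0 ≤ v) : exp v * (6 - 2 * v) ≤ 6 + 4 * v + v ^ 2 := by
  have hd : ∀ x : ℝ, HasDerivAt (fun x => (6 + 4 * x + x ^ 2) * exp (-x) + 2 * x)
      ((4 + 2 * x) * exp (-x) + (6 + 4 * x + x ^ 2) * (-exp (-x)) + 2) x := by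
    intro x
    have a := (((hasDerivAt_id x).const_mul 4).const_add 6).add (hasDerivAt_pow 2 x)
    have b := (hasDerivAt_id x).neg.exp
    refine ((a.mul b).add ((hasDerivAt_id x).const_mul 2)).congr_deriv ?_
    simp
  have hm : MonotoneOn (fun x : ℝ => (6 + 4 * x + x ^ 2) * exp (-x) + 2 * x) (Ici 0) := by
    refine monotoneOn_of_deriv_nonneg (convex_Ici 0)
      (fun x _ => (hd x).continuousAt.continuousWithinAt)
      (fun x _ => (hd x).differentiableAt.differentiableWithinAt) fun x hx => ?_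
    rw [interior_Ici] at hx
    have hx' : (0:ℝ) < x := hx
    rw [(hd x).deriv]
    have h := quadratic_le_exp_of_nonneg hx'.le
    have e : exp x * exp (-x) = 1 := by rw [← exp_add]; simp
    nlinarith [exp_pos (-x), mul_le_mul_of_nonneg_left h (exp_pos (-x)).le]
  have h := hm self_mem_Ici h0 h0
  simp at h
  have e : exp v * exp (-v) = 1 := by rw [← exp_add]; simp
  nlinarith [mul_le_mul_of_nonneg_left h (exp_pos v).le]

/-- `2 * (v cosh v - sinh v)` dominates its first two Taylor terms. -/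
lemma cosh_sinh_taylor {v : ℝ} (h0 : 0 ≤ v) :
    v ^ 3 / 3 + v ^ 5 / 30 ≤ v * cosh v - sinh v := by
  have hs : ∀ x : ℝ, 0 ≤ x → x + x ^ 3 / 6 ≤ sinh x := by
    intro x hx
    have hd : ∀ t : ℝ, HasDerivAt (fun t => sinh t - (t + t ^ 3 / 6)) (cosh t - (1 + t ^ 2 / 2)) t := by
      intro t
      refine ((hasDerivAt_sinh t).sub ((hasDerivAt_id t).add
        ((hasDerivAt_pow 3 t).div_const 6))).congr_deriv ?_
      simp; ring
    have hm : MonotoneOn (fun t : ℝ => sinh t - (t + t ^ 3 / 6)) (Ici 0) := by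
      refine monotoneOn_of_deriv_nonneg (convex_Ici 0)
        (fun t _ => (hd t).continuousAt.continuousWithinAt)
        (fun t _ => (hd t).differentiableAt.differentiableWithinAt) fun t ht => ?_
      rw [interior_Ici] at ht
      rw [(hd t).deriv]
      have h2 := self_le_sinh_iff.2 (show (0:ℝ) ≤ t / 2 by linarith [show (0:ℝ) < t from ht])
      have e : cosh t = 1 + 2 * sinh (t / 2) ^ 2 := by
        rw [show cosh t = cosh (2 * (t / 2)) by ring_nf, cosh_two_mul]
        linarith [cosh_sq_sub_sinh_sq (t / 2)]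
      nlinarith [show (0:ℝ) < t from ht]
    have := hm self_mem_Ici hx hx
    simp at this
    linarith
  have hd : ∀ t : ℝ, HasDerivAt (fun t => t * cosh t - sinh t - (t ^ 3 / 3 + t ^ 5 / 30))
      (t * sinh t - (t ^ 2 + t ^ 4 / 6)) t := by
    intro t
    refine ((((hasDerivAt_id t).mul (hasDerivAt_cosh t)).sub (hasDerivAt_sinh t)).sub
      (((hasDerivAt_pow 3 t).div_const 3).add ((hasDerivAt_pow 5 t).div_const 30))).congr_deriv ?_
    simp; ring
  have hm : MonotoneOn (fun t : ℝ => t * cosh t - sinh t - (t ^ 3 / 3 + t ^ 5 / 30)) (Ici 0) := by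
    refine monotoneOn_of_deriv_nonneg (convex_Ici 0)
      (fun t _ => (hd t).continuousAt.continuousWithinAt)
      (fun t _ => (hd t).differentiableAt.differentiableWithinAt) fun t ht => ?_
    rw [interior_Ici] at ht
    rw [(hd t).deriv]
    have ht' : (0:ℝ) < t := ht
    nlinarith [mul_le_mul_of_nonneg_left (hs t ht'.le) ht'.le]
  have := hm self_mem_Ici h0 h0
  simp at this
  linarith

/-- the comparison behind `half_log_le_Qz`. -/
lemma growth_core {v u : ℝ} (hv : 0 < v) (hu : u = exp (-v)) :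
    v ^ 3 ≤ (1 + v + u / (2 + u)) ^ 2 * ((v - 1) + (v + 1) * u ^ 2) := by
  have u0 : 0 < u := hu ▸ exp_pos _
  have u1 : u < 1 := by rw [hu, exp_lt_one_iff]; linarith
  rcases le_or_gt (13 / 8) v with hv2 | hv2
  · have a : v - 1 ≤ (v - 1) + (v + 1) * u ^ 2 := le_add_of_nonneg_right (by positivity)
    have b : (1 + v) ^ 2 ≤ (1 + v + u / (2 + u)) ^ 2 :=
      pow_le_pow_left₀ (by linarith) (le_add_of_nonneg_right (by positivity)) 2
    calc v ^ 3 ≤ (1 + v) ^ 2 * (v - 1) := by nlinarith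
      _ ≤ _ := mul_le_mul b a (by linarith) (by positivity)
  have hB : u * (2 * v ^ 3 / 3 + v ^ 5 / 15) ≤ (v - 1) + (v + 1) * u ^ 2 := by
    have h := mul_le_mul_of_nonneg_left (cosh_sinh_taylor hv.le) (mul_nonneg two_pos.le u0.le)
    have e : exp v * u = 1 := by rw [hu, ← exp_add]; simp
    have e2 : 2 * u * (v * cosh v - sinh v) = (v - 1) * (exp v * u) + (v + 1) * u ^ 2 := by
      rw [cosh_eq, sinh_eq, hu]; ring
    rw [e2, e] at h
    linarith
  set D := 6 + 4 * v + v ^ 2 with hD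
  set N := 6 - 2 * v with hN
  have D0 : 0 < D := by positivity
  have N0 : 0 < N := by rw [hN]; linarith
  have huN : N / D ≤ u := by
    rw [div_le_iff₀ D0, hu, exp_neg, inv_mul_eq_div, le_div_iff₀ (exp_pos v)]
    linarith [exp_mul_le_pade hv.le]
  have hA : 1 + v + N / D / 3 ≤ 1 + v + u / (2 + u) := by
    have : u / 3 ≤ u / (2 + u) := div_le_div_of_nonneg_left u0.le (by linarith) (by linarith)
    linarith
  have hP : 135 * D ^ 3 ≤ (3 * (1 + v) * D + N) ^ 2 * N * (10 + v ^ 2) := by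
    have p5 : v ^ 5 ≤ 13 / 8 * v ^ 4 := by
      nlinarith [mul_nonneg (sub_nonneg.2 hv2.le) (pow_nonneg hv.le 4)]
    have p4 : v ^ 4 ≤ 13 / 8 * v ^ 3 := by
      nlinarith [mul_nonneg (sub_nonneg.2 hv2.le) (pow_nonneg hv.le 3)]
    have p3 : v ^ 3 ≤ 13 / 8 * v ^ 2 := by
      nlinarith [mul_nonneg (sub_nonneg.2 hv2.le) (pow_nonneg hv.le 2)]
    have p6 : v ^ 6 ≤ 13 / 8 * v ^ 5 := by
      nlinarith [mul_nonneg (sub_nonneg.2 hv2.le) (pow_nonneg hv.le 5)]
    have p7 : v ^ 7 ≤ 13 / 8 * v ^ 6 := by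
      nlinarith [mul_nonneg (sub_nonneg.2 hv2.le) (pow_nonneg hv.le 6)]
    have p8 : v ^ 8 ≤ 13 / 8 * v ^ 7 := by
      nlinarith [mul_nonneg (sub_nonneg.2 hv2.le) (pow_nonneg hv.le 7)]
    have p9 : v ^ 9 ≤ 13 / 8 * v ^ 8 := by
      nlinarith [mul_nonneg (sub_nonneg.2 hv2.le) (pow_nonneg hv.le 8)]
    have e : (3 * (1 + v) * D + N) ^ 2 * N * (10 + v ^ 2) - 135 * D ^ 3
        = 5400 + 10800 * v + 13356 * v ^ 2 + 7792 * v ^ 3 + 1326 * v ^ 4 - 1184 * v ^ 5
          - 1005 * v ^ 6 - 426 * v ^ 7 - 126 * v ^ 8 - 18 * v ^ 9 := by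
      rw [hD, hN]; ring
    nlinarith [sq_nonneg v]
  calc v ^ 3 ≤ (1 + v + N / D / 3) ^ 2 * (N / D * (2 * v ^ 3 / 3 + v ^ 5 / 15)) := by
        have e : (1 + v + N / D / 3) ^ 2 * (N / D * (2 * v ^ 3 / 3 + v ^ 5 / 15))
            = v ^ 3 * ((3 * (1 + v) * D + N) ^ 2 * N * (10 + v ^ 2) / (135 * D ^ 3)) := by
          field_simp
          ring
        rw [e]
        exact le_mul_of_one_le_right (by positivity) ((one_le_div (by positivity)).2 hP)
    _ ≤ _ := mul_le_mul (pow_le_pow_left₀ (by positivity) hA 2)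
        ((mul_le_mul_of_nonneg_right huN (by positivity)).trans hB) (by positivity) (by positivity)

lemma half_log_le_Qz {z : ℝ} (hz : 0 ≤ z) : log (log 2 / xz z) / 2 ≤ Qz z := by
  have hd : ∀ x, 0 < x → HasDerivAt (fun x => Qz x + 1 / 2 * log (xz x))
      (xz x * Sd x + 1 / 2 * (-(x / cosh x ^ 2) / xz x)) x := fun x hx =>
    (hasDerivAt_Qz hx).add ((hasDerivAt_log_xz hx.le).const_mul _)
  have hm : MonotoneOn (fun x => Qz x + 1 / 2 * log (xz x)) (Ici 0) := by
    refine monotoneOn_of_deriv_nonneg (convex_Ici 0) (continuousOn_Qz_add_log _) ?_ ?_ <;>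
      intro x hx <;> rw [interior_Ici] at hx <;> have hx' : (0:ℝ) < x := hx
    · exact (hd x hx').differentiableAt.differentiableWithinAt
    rw [(hd x hx').deriv]
    set v := 2 * x with hv
    set u := exp (-v) with hu
    have v0 : 0 < v := by positivity
    have u0 : 0 < u := exp_pos _
    have hxz := xz_pos_of_nonneg hx'.le
    have hc := growth_core v0 hu
    have et : 1 - tanh x = 2 * u / (1 + u) := by
      rw [one_sub_tanh, cosh_eq, hu, hv, show -(2 * x) = -x + -x by ring, exp_add]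
      have : exp x * exp (-x) = 1 := by rw [← exp_add]; simp
      field_simp
      linear_combination -1 * this
    have hlog : 2 * u / (2 + u) ≤ log (1 + u) := by
      have := le_log_one_add_of_nonneg u0.le
      rwa [add_comm u 2] at this
    have ex : u / (1 + u) * (1 + v + u / (2 + u)) ≤ xz x := by
      rw [xz_eq_exp, et, ← hv, ← hu]
      have e : u / (1 + u) * (1 + v + u / (2 + u)) = 2 * u / (2 + u) + x * (2 * u / (1 + u)) := by
        rw [hv]; field_simp; ring
      linarith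
    have eS : Sd x = ((v - 1) + (v + 1) * u ^ 2) / (u * v ^ 2) := by
      rw [Sd, hu, ← hv, cosh_eq, sinh_eq, exp_neg, show x = v / 2 by rw [hv]; ring]
      field_simp
      ring
    have ec : cosh x ^ 2 = (1 + u) ^ 2 / (4 * u) := by
      rw [cosh_eq, hu, hv, show -(2 * x) = -x + -x by ring, exp_add]
      have : exp x * exp (-x) = 1 := by rw [← exp_add]; simp
      field_simp
      linear_combination (4 * (exp x * exp (-x) + 1 + 2 * exp (-x) ^ 2)) * this
    have hB : 0 ≤ (v - 1) + (v + 1) * u ^ 2 := by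
      have := (Sd_pos hx').le
      rw [eS] at this
      exact (div_nonneg_iff.1 this).elim (fun h => h.1)
        (fun h => absurd h.2 (not_le.2 (by positivity)))
    have key : x / cosh x ^ 2 ≤ 2 * (xz x * xz x * Sd x) := by
      calc x / cosh x ^ 2 = 2 * v * u / (1 + u) ^ 2 := by rw [ec, hv]; field_simp; ring
        _ ≤ 2 * v * u / (1 + u) ^ 2 *
            ((1 + v + u / (2 + u)) ^ 2 * ((v - 1) + (v + 1) * u ^ 2) / v ^ 3) :=
          le_mul_of_one_le_right (by positivity) ((one_le_div (by positivity)).2 hc)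
        _ = 2 * ((u / (1 + u) * (1 + v + u / (2 + u))) * (u / (1 + u) * (1 + v + u / (2 + u)))
            * Sd x) := by rw [eS]; field_simp
        _ ≤ _ := by
          have := Sd_pos hx'
          gcongr
    have e : xz x * Sd x + 1 / 2 * (-(x / cosh x ^ 2) / xz x)
        = (2 * (xz x * xz x * Sd x) - x / cosh x ^ 2) / (2 * xz x) := by
      field_simp; ring
    rw [e]
    exact div_nonneg (sub_nonneg.2 key) (by positivity)
  have h := hm self_mem_Ici hz hz
  simp only [Qz_zero, xz_zero, zero_add] at h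
  rw [log_div (log_pos one_lt_two).ne' (xz_pos_of_nonneg hz).ne']
  linarith

lemma xz_cosh_sq_monotone : MonotoneOn (fun z => xz z * cosh z ^ 2) (Ici 0) := by
  refine monotoneOn_of_deriv_nonneg (convex_Ici 0)
    (continuous_xz.mul (continuous_cosh.pow 2)).continuousOn ?_ ?_ <;>
    intro x hx <;> rw [interior_Ici] at hx
  · exact ((hasDerivAt_xz x).mul ((hasDerivAt_cosh x).pow 2)).differentiableAt.differentiableWithinAt
  · have hd : deriv (fun x => xz x * cosh x ^ 2) x = _ :=
      ((hasDerivAt_xz x).mul ((hasDerivAt_cosh x).pow 2)).deriv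
    rw [hd]
    have hx' : (0:ℝ) < x := hx
    have := mul_le_mul_of_nonneg_left (half_le_Ez hx') hx'.le
    rw [Ez, Sz_of_ne hx'.ne', sinh_two_mul] at this
    have e1 : x * (xz x * (1 + (2 * sinh x * cosh x / (2 * x) - 1))) = xz x * sinh x * cosh x := by
      field_simp; ring
    rw [e1] at this
    simp only [Pi.pow_apply, Nat.cast_ofNat]
    have e2 : -(x / cosh x ^ 2) * cosh x ^ 2 = -x := by field_simp
    nlinarith

end Vale.Agent.P322
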