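import Vale.Agent.P322.Cube

noncomputable section
namespace Vale.Agent.P322
open Real

/-- The two point inequality on the curve of equality (`p` the artanh distance). -/
def EdgeIneq : Prop :=
  ∀ mu mv : ℝ, -1 < mv → mv < mu → mu < 1 →
    let d := (mu - mv) / 2
    let p := (At mu - At mv) / 2
    let m := (mu + mv) / 2
    2 * hh m - (hh mu + hh mv) ≤ d * p ∧
    2 * hh m - (hh mu + hh mv) + Pi2 (Wt m) (d * gz p)
      ≤ d * p + Pi2 ((Wt mu + Wt mv) / 2) (d * gz p)

end Vale.Agent.P322
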