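import Vale.Agent.P322.GoalDef
import Vale.Agent.P322.Growth
import Vale.Agent.P322.Stmt

/-!
The inequality on the curve of equality from the derivative inequality.
-/

noncomputable section
namespace Vale.Agent.P322
open Real Set
open Cert

/-- the defect on the edge in the coordinates `t = tanh p`, `s = tanh q`. -/
def Ne (t s : ℝ) : ℝ :=
  (1 - t ^ 2 * s ^ 2) / (1 - s ^ 2)
      * (-log (1 - t ^ 2) + log (1 - (t ^ 2) ^ 2 * s ^ 2) - log (1 - t ^ 2 * s ^ 2))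
    - 2 * (1 - t ^ 2) * (s * At (t ^ 2 * s)) / (1 - s ^ 2) - At t * t

/-- `r` in the edge coordinates. -/
def Re (t s : ℝ) : ℝ := (1 - (t ^ 2) ^ 2 * s ^ 2) / (1 - t ^ 2 * s ^ 2)

/-- normalised weight at the middle. -/
def Xe (t s : ℝ) : ℝ :=
  Re t s * (1 - s ^ 2 * (1 - t ^ 2) ^ 2 / (4 * (1 - t ^ 2 * s ^ 2) ^ 2))

/-- lower bound for the normalised average weight. -/
def Ye (t s : ℝ) : ℝ :=
  (1 - t ^ 2) * ((1 + t ^ 2 * s ^ 2) / (1 - t ^ 2 * s ^ 2)) * phiR (t ^ 2) (s ^ 2)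

structure Box (t s : ℝ) : Prop where
  t0 : 0 < t
  t1 : t < 1
  s0 : 0 ≤ s
  s1 : s < 1

namespace Box
variable {t s : ℝ} (h : Box t s)
include h

lemma A0 : 0 < t ^ 2 := pow_pos h.t0 2
lemma A1 : t ^ 2 < 1 := pow_lt_one₀ h.t0.le h.t1 two_ne_zero
lemma B1 : s ^ 2 < 1 := pow_lt_one₀ h.s0 h.s1 two_ne_zero

lemma D0 : 0 < 1 - t ^ 2 * s ^ 2 := by
  nlinarith [mul_le_mul_of_nonneg_right h.A1.le (sq_nonneg s), h.B1]

lemma D1 : 0 < 1 - (t ^ 2) ^ 2 * s ^ 2 := by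
  nlinarith [mul_le_mul_of_nonneg_right (pow_le_one₀ (sq_nonneg t) h.A1.le : (t ^ 2) ^ 2 ≤ 1)
    (sq_nonneg s), h.B1]

lemma as1 : -1 < t ^ 2 * s ∧ t ^ 2 * s < 1 := by
  have := mul_lt_mul'' h.A1 h.s1 (sq_nonneg t) h.s0
  have := mul_nonneg (sq_nonneg t) h.s0
  constructor <;> linarith

lemma phiR_pos : 0 < phiR (t ^ 2) (s ^ 2) := by
  have : 0 ≤ (1 - t ^ 2) * (1 - s ^ 2) / (4 * (1 - t ^ 2 * s ^ 2)) :=
    div_nonneg (mul_nonneg (sub_nonneg.2 h.A1.le) (sub_nonneg.2 h.B1.le)) (by linarith [h.D0])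
  unfold phiR; linarith

lemma Ye_pos : 0 < Ye t s := by
  have := h.D0; have := sub_pos.2 h.A1; have := h.phiR_pos
  unfold Ye; positivity

lemma Re_eq : Re t s = 1 + t ^ 2 * s ^ 2 * (1 - t ^ 2) / (1 - t ^ 2 * s ^ 2) := by
  have := h.D0.ne'
  rw [Re]; field_simp; ring

lemma one_le_Re : 1 ≤ Re t s := by
  rw [h.Re_eq, le_add_iff_nonneg_right]
  exact div_nonneg (mul_nonneg (by positivity) (sub_nonneg.2 h.A1.le)) h.D0.le

lemma Xe_pos_le : 0 < Xe t s ∧ Xe t s ≤ Re t s := by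
  have hr := h.one_le_Re
  have hD : (1 - t ^ 2) ^ 2 ≤ (1 - t ^ 2 * s ^ 2) ^ 2 :=
    pow_le_pow_left₀ (sub_nonneg.2 h.A1.le)
      (by linarith [mul_le_mul_of_nonneg_left h.B1.le (sq_nonneg t)]) 2
  have h2 : 0 < (1 - t ^ 2 * s ^ 2) ^ 2 := pow_pos h.D0 2
  have hc : s ^ 2 * (1 - t ^ 2) ^ 2 / (4 * (1 - t ^ 2 * s ^ 2) ^ 2) < 1 := by
    rw [div_lt_one (by positivity)]
    have := mul_le_mul h.B1.le hD (sq_nonneg _) zero_le_one
    linarith
  have hc0 : 0 ≤ s ^ 2 * (1 - t ^ 2) ^ 2 / (4 * (1 - t ^ 2 * s ^ 2) ^ 2) := by positivity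
  unfold Xe
  exact ⟨mul_pos (by linarith) (by linarith),
    mul_le_of_le_one_right (by linarith) (by linarith)⟩

lemma hasDerivAt_D : HasDerivAt (fun x => 1 - t ^ 2 * x ^ 2) (-(t ^ 2 * (2 * s))) s := by
  simpa using (((hasDerivAt_pow 2 s).const_mul (t ^ 2)).const_sub 1)

lemma hasDerivAt_Ne (hs : 0 < s) : HasDerivAt (Ne t)
    (2 * s * t ^ 2 * (1 - t ^ 2) / (1 - t ^ 2 * s ^ 2) ^ 2 * TTt (t ^ 2) s) s := by
  have hD := h.D0; have hD' := h.D1; have hB := sub_pos.2 h.B1; have hA := h.A0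
  have hE : HasDerivAt (fun x => 1 - x ^ 2) (-(2 * s)) s := by
    simpa using ((hasDerivAt_pow 2 s).const_sub 1)
  have hE' : HasDerivAt (fun x => 1 - (t ^ 2) ^ 2 * x ^ 2) (-((t ^ 2) ^ 2 * (2 * s))) s := by
    simpa using (((hasDerivAt_pow 2 s).const_mul ((t ^ 2) ^ 2)).const_sub 1)
  have a := (h.hasDerivAt_D.div hE hB.ne').mul
    (((hE'.log hD'.ne').const_add (-log (1 - t ^ 2))).sub (h.hasDerivAt_D.log hD.ne'))
  have b := (((hasDerivAt_id s).mul ((hasDerivAt_At h.as1.1 h.as1.2).comp s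
    (h := fun x => t ^ 2 * x) ((hasDerivAt_id s).const_mul (t ^ 2)))).const_mul
      (2 * (1 - t ^ 2))).div hE hB.ne'
  refine ((a.sub b).sub_const (At t * t)).congr_deriv ?_
  simp only [id, Pi.mul_apply, Pi.sub_apply, Pi.div_apply, Function.comp_apply, TTt, TT]
  have e : 1 - (t ^ 2 * s) ^ 2 = 1 - (t ^ 2) ^ 2 * s ^ 2 := by ring
  rw [e]
  have := h.t0.ne'
  have : 1 - t ^ 4 * s ^ 2 ≠ 0 := by rw [show t ^ 4 = (t ^ 2) ^ 2 by ring]; exact hD'.ne'
  have : 1 - s ^ 2 * t ^ 4 ≠ 0 := by rw [mul_comm, show t ^ 4 = (t ^ 2) ^ 2 by ring]; exact hD'.ne'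
  field_simp
  ring

lemma hasDerivAt_Xe : HasDerivAt (Xe t)
    (2 * s * t ^ 2 * (1 - t ^ 2) / (1 - t ^ 2 * s ^ 2) ^ 2 * (1 - kapR (t ^ 2) (s ^ 2) / 4)) s := by
  have hD := h.D0; have hA := h.A0
  have hE' : HasDerivAt (fun x => 1 - (t ^ 2) ^ 2 * x ^ 2) (-((t ^ 2) ^ 2 * (2 * s))) s := by
    simpa using (((hasDerivAt_pow 2 s).const_mul ((t ^ 2) ^ 2)).const_sub 1)
  have a := hE'.div h.hasDerivAt_D hD.ne'
  have b := (((hasDerivAt_pow 2 s).mul_const ((1 - t ^ 2) ^ 2)).div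
    ((h.hasDerivAt_D.pow 2).const_mul 4) (mul_ne_zero four_ne_zero (pow_ne_zero 2 hD.ne'))).const_sub 1
  refine (a.mul b).congr_deriv ?_
  simp only [Pi.div_apply, Pi.pow_apply, kapR, Nat.cast_ofNat, Nat.add_one_sub_one, pow_one]
  have := h.t0.ne'
  have := hD.ne'
  field_simp
  ring

lemma hasDerivAt_Ye : HasDerivAt (Ye t)
    (2 * s * t ^ 2 * (1 - t ^ 2) / (1 - t ^ 2 * s ^ 2) ^ 2 * gyR (t ^ 2) (s ^ 2)) s := by
  have hD := h.D0; have hA := h.A0
  have a := (((((hasDerivAt_pow 2 s).const_mul (t ^ 2)).const_add 1).div h.hasDerivAt_D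
    hD.ne').const_mul (1 - t ^ 2)).mul
    (((((hasDerivAt_pow 2 s).const_sub 1).const_mul (1 - t ^ 2)).div
      (h.hasDerivAt_D.const_mul 4) (mul_ne_zero four_ne_zero hD.ne')).const_add (3 / 4))
  refine a.congr_deriv ?_
  simp only [Pi.div_apply, gyR, phiR, Nat.cast_ofNat, Nat.add_one_sub_one, pow_one]
  have := h.t0.ne'
  have := hD.ne'
  field_simp
  ring

lemma kapR_ge (h5 : t ^ 2 ≤ 1 / 5) : 4 ≤ kapR (t ^ 2) (s ^ 2) := by
  have hD := h.D0; have hA := h.A0; have hA1 := sub_pos.2 h.A1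
  rw [kapR, le_div_iff₀ (by positivity)]
  have hD1 : 1 - t ^ 2 * s ^ 2 ≤ 1 := sub_le_self _ (by positivity)
  have hD' : 1 - t ^ 2 * s ^ 2 ≤ 1 - (t ^ 2) ^ 2 * s ^ 2 := by
    have h1 := mul_le_mul_of_nonneg_right h.A1.le (mul_nonneg hA.le (sq_nonneg s))
    linarith
  calc 4 * (t ^ 2 * (1 - t ^ 2 * s ^ 2) ^ 2) ≤ 4 * t ^ 2 * (1 - t ^ 2 * s ^ 2) := by
        rw [← mul_assoc]
        exact mul_le_mul_of_nonneg_left (by nlinarith) (by positivity)
    _ ≤ (1 - t ^ 2) * (1 - t ^ 2 * s ^ 2) := mul_le_mul_of_nonneg_right (by linarith) hD.le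
    _ ≤ _ := by
        refine mul_le_mul_of_nonneg_left ?_ hA1.le
        have : 0 ≤ s ^ 2 * (1 - t ^ 2) * t ^ 2 := by positivity
        have : (1 - (t ^ 2) ^ 2 * s ^ 2) * 1 ≤ (1 - (t ^ 2) ^ 2 * s ^ 2) * (1 + t ^ 2 * s ^ 2) :=
          mul_le_mul_of_nonneg_left (by nlinarith) h.D1.le
        linarith

lemma gyR_nonneg (h5 : 19 / 100 ≤ t ^ 2) : 0 ≤ gyR (t ^ 2) (s ^ 2) := by
  have hD := h.D0; have hA := h.A0; have hA1 := sub_pos.2 h.A1
  have hp : 3 / 4 ≤ phiR (t ^ 2) (s ^ 2) := by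
    have : 0 ≤ (1 - t ^ 2) * (1 - s ^ 2) / (4 * (1 - t ^ 2 * s ^ 2)) :=
      div_nonneg (mul_nonneg hA1.le (sub_nonneg.2 h.B1.le)) (by linarith)
    unfold phiR; linarith
  have hq : (1 + t ^ 2 * s ^ 2) / (1 - t ^ 2 * s ^ 2) ≤ (1 + t ^ 2) / (1 - t ^ 2) := by
    rw [div_le_div_iff₀ hD hA1]
    nlinarith [mul_le_mul_of_nonneg_left h.B1.le hA.le]
  have hb : (1 + t ^ 2 * s ^ 2) / (1 - t ^ 2 * s ^ 2) * (1 - t ^ 2) ^ 2 / (4 * t ^ 2) ≤ 3 / 2 := by
    rw [div_le_iff₀ (by positivity)]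
    calc _ ≤ (1 + t ^ 2) / (1 - t ^ 2) * (1 - t ^ 2) ^ 2 :=
          mul_le_mul_of_nonneg_right hq (sq_nonneg _)
      _ = 1 - (t ^ 2) ^ 2 := by field_simp; ring
      _ ≤ _ := by nlinarith
  unfold gyR; linarith

end Box

lemma Pi2_homog {k Y x : ℝ} (hk : k ≠ 0) : Pi2 (k * Y) (k * x) = k * Pi2 Y x := by
  simp only [Pi2, mul_div_mul_left _ _ hk]; ring

lemma edge_start {t : ℝ} (h : Box t 0) :
    Ne t 0 = Pi2 (Xe t 0) (xz (At t)) ∧ Pi2 (Ye t 0) (xz (At t)) = 0 := by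
  have hX : Xe t 0 = 1 := by simp [Xe, Re]
  have hA := sub_pos.2 h.A1
  have hp := At_pos h.t0 h.t1
  refine ⟨?_, Pi2_of_le h.Ye_pos ?_⟩
  · have e := Pi2_eq_param (Y := 1) one_pos hp.le
    simp only [one_mul] at e
    rw [hX, e, Qz, tanh_At (by linarith [h.t0]) h.t1, xz_At (by linarith [h.t0]) h.t1, one_div,
      log_inv]
    simp [Ne]
    ring
  · have h2 := log_two_mul_le_hh (by linarith [h.t0] : -1 < t) h.t1
    rw [← hh_tanh, tanh_At (by linarith [h.t0]) h.t1]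
    refine le_trans ?_ h2
    refine mul_le_mul_of_nonneg_right ?_ (log_pos one_lt_two).le
    simp only [Ye, phiR]
    simp
    nlinarith [h.A0]

lemma continuousAt_Pi2_fst {f : ℝ → ℝ} {s x f' : ℝ} (hf : HasDerivAt f f' s) (h0 : 0 < f s)
    (hx : 0 < x) : HasDerivAt (fun s => Pi2 (f s) x) (Qz (Zi (x / f s)) * f') s :=
  (hasDerivAt_Pi2_fst h0 hx).comp s hf

lemma Ne_ge_Pi2_small {t s : ℝ} (h : Box t s) (h5 : t ^ 2 ≤ 1 / 5) :
    Pi2 (Xe t s) (xz (At t)) ≤ Ne t s := by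
  have hx := xz_pos_of_nonneg (At_pos h.t0 h.t1).le
  have bx : ∀ u, 0 ≤ u → u < 1 → Box t u := fun u a b => ⟨h.t0, h.t1, a, b⟩
  have hc : ∀ u, 0 ≤ u → u < 1 → ContinuousAt (fun u => Ne t u - Pi2 (Xe t u) (xz (At t))) u := by
    intro u a b
    refine ContinuousAt.sub ?_
      (continuousAt_Pi2_fst (bx u a b).hasDerivAt_Xe (bx u a b).Xe_pos_le.1 hx).continuousAt
    have hh := bx u a b
    have hAt : ContinuousAt (fun x => At (t ^ 2 * x)) u :=
      ((hasDerivAt_At hh.as1.1 hh.as1.2).comp u (h := fun x => t ^ 2 * x)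
        ((hasDerivAt_id u).const_mul (t ^ 2))).continuousAt
    have := hh.D0.ne'; have := hh.D1.ne'; have := (sub_pos.2 hh.B1).ne'
    unfold Ne; fun_prop (disch := assumption)
  have hm : MonotoneOn (fun u => Ne t u - Pi2 (Xe t u) (xz (At t))) (Icc 0 s) := by
    refine monotoneOn_of_deriv_nonneg (convex_Icc _ _)
      (fun u hu => (hc u hu.1 (lt_of_le_of_lt hu.2 h.s1)).continuousWithinAt) ?_ ?_ <;>
      intro u hu <;> rw [interior_Icc] at hu <;> have b := bx u hu.1.le (hu.2.trans h.s1) <;>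
      have hd := (b.hasDerivAt_Ne hu.1).sub (continuousAt_Pi2_fst b.hasDerivAt_Xe b.Xe_pos_le.1 hx)
    · exact hd.differentiableAt.differentiableWithinAt
    · change 0 ≤ deriv (Ne t - fun s => Pi2 (Xe t s) (xz (At t))) u
      rw [hd.deriv]
      have hT : 0 ≤ TTt (t ^ 2) u := div_nonneg
        (mul_nonneg (sq_nonneg _) (TT_nonneg b.A0.le b.A1 hu.1 b.s1))
        (mul_nonneg b.A0.le (sq_nonneg _))
      have hQ := Qz_nonneg (Zi_nonneg (xz (At t) / Xe t u))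
      have hk := b.kapR_ge h5
      have hc : 0 ≤ 2 * u * t ^ 2 * (1 - t ^ 2) / (1 - t ^ 2 * u ^ 2) ^ 2 := by
        have := sub_pos.2 b.A1; have := b.s0; positivity
      nlinarith [mul_nonneg hc hT, mul_nonneg (mul_nonneg hc hQ) (sub_nonneg.2 hk)]
  have h0 := hm ⟨le_rfl, h.s0⟩ ⟨h.s0, le_rfl⟩ h.s0
  have := (edge_start (bx 0 le_rfl zero_lt_one)).1
  simp only at h0
  linarith

lemma edge_deriv_nonneg {t u : ℝ} (b : Box t u) (h44 : 11 / 25 ≤ t) (hG : Goal t u) :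
    0 ≤ TTt (t ^ 2) u - (1 - kapR (t ^ 2) (u ^ 2) / 4) * Qz (Zi (xz (At t) / Xe t u))
      + gyR (t ^ 2) (u ^ 2) * Qz (Zi (xz (At t) / Ye t u)) := by
  set x := xz (At t) with hxd
  have hp := (At_pos b.t0 b.t1).le
  have hx : 0 < x := xz_pos_of_nonneg hp
  have hX := b.Xe_pos_le
  have hr := b.one_le_Re
  have hr0 : 0 < Re t u := by linarith
  have hg := b.gyR_nonneg (by nlinarith)
  -- above
  have hQ : Qz (Zi (x / Xe t u)) ≤ Qz (At t) + log 2 * log (Re t u) := by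
    have h1 : Zi (x / Xe t u) ≤ Zi (x / Re t u) :=
      Zi_antitone (show (0:ℝ) < x / Re t u from div_pos hx hr0)
        (show (0:ℝ) < x / Xe t u from div_pos hx hX.1) (div_le_div_of_nonneg_left hx.le hX.1 hX.2)
    have h2 := Qz_monotone (Zi_nonneg _) (Zi_nonneg _) h1
    have h3 : xz (Zi (x / Re t u)) = x / Re t u :=
      xz_Zi (div_pos hx hr0) ((div_le_self hx.le hr).trans (xz_le_log_two hp))
    have h4 : At t ≤ Zi (x / Re t u) := by
      have := Zi_antitone (show (0:ℝ) < x / Re t u from div_pos hx hr0) (show (0:ℝ) < x from hx)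
        (div_le_self hx.le hr)
      rwa [hxd, Zi_xz hp] at this
    have h5 := Qz_sub_le_log hp h4
    rw [h3, ← hxd, div_div_cancel₀ hx.ne'] at h5
    linarith
  -- below
  have hY := b.Ye_pos
  have hQY : max 0 (log (Ye t u * log 2 / x)) / 2 ≤ Qz (Zi (x / Ye t u)) := by
    have hz := Zi_nonneg (x / Ye t u)
    rcases le_or_gt (x / Ye t u) (log 2) with hc | hc
    · have h1 := half_log_le_Qz hz
      have e : log 2 / (x / Ye t u) = Ye t u * log 2 / x := by field_simp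
      rw [xz_Zi (div_pos hx hY) hc, e] at h1
      rcases max_choice 0 (log (Ye t u * log 2 / x)) with e' | e' <;> rw [e'] <;>
        linarith [Qz_nonneg hz]
    · have : log (Ye t u * log 2 / x) ≤ 0 := by
        refine log_nonpos (by positivity) ?_
        rw [div_le_one hx]
        rw [lt_div_iff₀ hY] at hc
        linarith
      rw [max_eq_left this]
      linarith [Qz_nonneg hz]
  unfold Goal at hG
  have e : (1 + t ^ 2 * u ^ 2) / (1 - t ^ 2 * u ^ 2) * phiR (t ^ 2) (u ^ 2) * log 2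
      / (xz (At t) / (1 - t ^ 2)) = Ye t u * log 2 / x := by
    have := (sub_pos.2 b.A1).ne'
    rw [Ye, hxd]; field_simp
  rw [e, max_eq_right hg, ← b.Re_eq] at hG
  have h1 : (1 - kapR (t ^ 2) (u ^ 2) / 4) * Qz (Zi (x / Xe t u))
      ≤ max 0 (1 - kapR (t ^ 2) (u ^ 2) / 4) * (Qz (At t) + log 2 * log (Re t u)) :=
    (mul_le_mul_of_nonneg_right (le_max_right 0 _) (Qz_nonneg (Zi_nonneg _))).trans
      (mul_le_mul_of_nonneg_left hQ (le_max_left _ _))
  have h2 := mul_le_mul_of_nonneg_left hQY hg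
  linarith

lemma Ne_ge_Pi2_large {t s : ℝ} (h : Box t s) (h44 : 11 / 25 ≤ t)
    (H : ∀ u, 0 < u → u < 1 → Goal t u) :
    Pi2 (Xe t s) (xz (At t)) ≤ Ne t s + Pi2 (Ye t s) (xz (At t)) := by
  have hx := xz_pos_of_nonneg (At_pos h.t0 h.t1).le
  have bx : ∀ u, 0 ≤ u → u < 1 → Box t u := fun u a b => ⟨h.t0, h.t1, a, b⟩
  have hm : MonotoneOn (fun u => Ne t u - Pi2 (Xe t u) (xz (At t)) + Pi2 (Ye t u) (xz (At t)))
      (Icc 0 s) := by
    refine monotoneOn_of_deriv_nonneg (convex_Icc _ _) ?_ ?_ ?_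
    · intro u hu
      have hh := bx u hu.1 (lt_of_le_of_lt hu.2 h.s1)
      refine ContinuousAt.continuousWithinAt (ContinuousAt.add (ContinuousAt.sub ?_
        (continuousAt_Pi2_fst hh.hasDerivAt_Xe hh.Xe_pos_le.1 hx).continuousAt)
        (continuousAt_Pi2_fst hh.hasDerivAt_Ye hh.Ye_pos hx).continuousAt)
      have hAt : ContinuousAt (fun x => At (t ^ 2 * x)) u :=
        ((hasDerivAt_At hh.as1.1 hh.as1.2).comp u (h := fun x => t ^ 2 * x)
          ((hasDerivAt_id u).const_mul (t ^ 2))).continuousAt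
      have := hh.D0.ne'; have := hh.D1.ne'; have := (sub_pos.2 hh.B1).ne'
      unfold Ne; fun_prop (disch := assumption)
    all_goals
      intro u hu; rw [interior_Icc] at hu
      have b := bx u hu.1.le (hu.2.trans h.s1)
      have hd : HasDerivAt (fun u => Ne t u - Pi2 (Xe t u) (xz (At t)) + Pi2 (Ye t u) (xz (At t)))
          _ u := ((b.hasDerivAt_Ne hu.1).sub
        (continuousAt_Pi2_fst b.hasDerivAt_Xe b.Xe_pos_le.1 hx)).add
        (continuousAt_Pi2_fst b.hasDerivAt_Ye b.Ye_pos hx)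
    · exact hd.differentiableAt.differentiableWithinAt
    · rw [hd.deriv]
      have hc : 0 ≤ 2 * u * t ^ 2 * (1 - t ^ 2) / (1 - t ^ 2 * u ^ 2) ^ 2 := by
        have := sub_pos.2 b.A1; have := b.s0; positivity
      have := mul_nonneg hc (edge_deriv_nonneg b h44 (H u hu.1 b.s1))
      linarith
  have h0 := hm ⟨le_rfl, h.s0⟩ ⟨h.s0, le_rfl⟩ h.s0
  have e := edge_start (bx 0 le_rfl zero_lt_one)
  simp only at h0
  rw [e.1, e.2] at h0
  linarith

lemma Ne_nonneg {t s : ℝ} (h : Box t s) : 0 ≤ Ne t s := by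
  have bx : ∀ u, 0 ≤ u → u < 1 → Box t u := fun u a b => ⟨h.t0, h.t1, a, b⟩
  have hm : MonotoneOn (Ne t) (Icc 0 s) := by
    refine monotoneOn_of_deriv_nonneg (convex_Icc _ _) ?_ ?_ ?_
    · intro u hu
      have hh := bx u hu.1 (lt_of_le_of_lt hu.2 h.s1)
      refine ContinuousAt.continuousWithinAt ?_
      have hAt : ContinuousAt (fun x => At (t ^ 2 * x)) u :=
        ((hasDerivAt_At hh.as1.1 hh.as1.2).comp u (h := fun x => t ^ 2 * x)
          ((hasDerivAt_id u).const_mul (t ^ 2))).continuousAt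
      have := hh.D0.ne'; have := hh.D1.ne'; have := (sub_pos.2 hh.B1).ne'
      unfold Ne; fun_prop (disch := assumption)
    all_goals intro u hu; rw [interior_Icc] at hu; have b := bx u hu.1.le (hu.2.trans h.s1)
    · exact (b.hasDerivAt_Ne hu.1).differentiableAt.differentiableWithinAt
    · rw [(b.hasDerivAt_Ne hu.1).deriv]
      have := sub_pos.2 b.A1; have := hu.1
      refine mul_nonneg (by positivity) (div_nonneg
        (mul_nonneg (sq_nonneg _) (TT_nonneg b.A0.le b.A1 hu.1 b.s1))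
        (mul_nonneg b.A0.le (sq_nonneg _)))
  have h0 := hm ⟨le_rfl, h.s0⟩ ⟨h.s0, le_rfl⟩ h.s0
  rw [(edge_start (bx 0 le_rfl zero_lt_one)).1] at h0
  exact (Pi2_nonneg (bx 0 le_rfl zero_lt_one).Xe_pos_le.1
    (xz_pos_of_nonneg (At_pos h.t0 h.t1).le)).trans h0

lemma phi_eq_At {u : ℝ} (h1 : -1 < u) (h2 : u < 1) :
    phi u = u * At u + (log (1 + u) + log (1 - u)) / 2 := by
  simp only [phi, At]; ring

lemma Wt_avg_ge (mu mv : ℝ) :
    ((1 - mu ^ 2 + (1 - mv ^ 2)) / 2) * (3 / 4 + ((1 - mu ^ 2 + (1 - mv ^ 2)) / 2) / 4)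
      ≤ (Wt mu + Wt mv) / 2 := by
  simp only [Wt]
  nlinarith [sq_nonneg (mu ^ 2 - mv ^ 2)]

lemma Wt_mid_eq {t s m : ℝ} (h : Box t s)
    (a5 : 1 + m = (1 + s) * (1 - t ^ 2 * s) / (1 - t ^ 2 * s ^ 2))
    (a6 : 1 - m = (1 - s) * (1 + t ^ 2 * s) / (1 - t ^ 2 * s ^ 2))
    (em : m = s * (1 - t ^ 2) / (1 - t ^ 2 * s ^ 2)) :
    Wt m = (1 - s ^ 2) / (1 - t ^ 2 * s ^ 2) * Xe t s := by
  have hD := h.D0
  rw [Wt, Xe, Re, show 1 - m ^ 2 = (1 + m) * (1 - m) by ring, a5, a6, em]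
  generalize 1 - t ^ 2 * s ^ 2 = D at hD ⊢
  field_simp
  ring

lemma Ye_le_avg {t s mu mv : ℝ} (h : Box t s)
    (a1 : 1 + mu = (1 + t) * (1 + s) / (1 + s * t)) (a2 : 1 - mu = (1 - t) * (1 - s) / (1 + s * t))
    (a3 : 1 + mv = (1 - t) * (1 + s) / (1 - s * t)) (a4 : 1 - mv = (1 + t) * (1 - s) / (1 - s * t)) :
    (1 - s ^ 2) / (1 - t ^ 2 * s ^ 2) * Ye t s
      ≤ (1 - mu ^ 2 + (1 - mv ^ 2)) / 2 * (3 / 4 + (1 - mu ^ 2 + (1 - mv ^ 2)) / 2 / 4) := by
  have hD := h.D0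
  have hA := sub_pos.2 h.A1
  have hB := sub_pos.2 h.B1
  have hst := mul_lt_mul'' h.t1 h.s1 h.t0.le h.s0
  have p1 : 0 < 1 + s * t := by linarith [mul_nonneg h.s0 h.t0.le]
  have p2 : 0 < 1 - s * t := by linarith
  have ew : (1 - mu ^ 2 + (1 - mv ^ 2)) / 2
      = (1 - t ^ 2) * (1 - s ^ 2) * (1 + t ^ 2 * s ^ 2) / (1 - t ^ 2 * s ^ 2) ^ 2 := by
    rw [show 1 - mu ^ 2 = (1 + mu) * (1 - mu) by ring,
      show 1 - mv ^ 2 = (1 + mv) * (1 - mv) by ring, a1, a2, a3, a4,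
      show 1 + t ^ 2 * s ^ 2 = ((1 + s * t) ^ 2 + (1 - s * t) ^ 2) / 2 by ring,
      show 1 - t ^ 2 * s ^ 2 = (1 + s * t) * (1 - s * t) by ring]
    generalize 1 + s * t = u at p1 ⊢
    generalize 1 - s * t = v at p2 ⊢
    field_simp
    ring
  rw [ew, Ye, phiR]
  have h1 : 1 ≤ (1 + t ^ 2 * s ^ 2) / (1 - t ^ 2 * s ^ 2) := by
    rw [one_le_div hD]; linarith [mul_nonneg (sq_nonneg t) (sq_nonneg s)]
  generalize 1 + t ^ 2 * s ^ 2 = P at h1 ⊢
  generalize 1 - t ^ 2 * s ^ 2 = D at hD h1 ⊢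
  generalize 1 - t ^ 2 = a at hA ⊢
  generalize 1 - s ^ 2 = b at hB ⊢
  have hP : 0 ≤ P / D := zero_le_one.trans h1
  calc b / D * (a * (P / D) * (3 / 4 + a * b / (4 * D)))
      ≤ b / D * (a * (P / D) * (3 / 4 + a * b / (4 * D) * (P / D))) := by
        gcongr
        exact le_mul_of_one_le_right (by positivity) h1
    _ = _ := by field_simp

/-- the edge inequality in coordinates, for nonnegative mean. -/
lemma edge_of_coord (H : ∀ t s : ℝ, 11 / 25 ≤ t → t < 1 → 0 < s → s < 1 → Goal t s)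
    {t s mu mv : ℝ} (h : Box t s) (hmu : mu = (s + t) / (1 + s * t))
    (hmv : mv = (s - t) / (1 - s * t)) :
    2 * hh ((mu + mv) / 2) - (hh mu + hh mv) ≤ (mu - mv) / 2 * At t ∧
    2 * hh ((mu + mv) / 2) - (hh mu + hh mv) + Pi2 (Wt ((mu + mv) / 2)) ((mu - mv) / 2 * gz (At t))
      ≤ (mu - mv) / 2 * At t + Pi2 ((Wt mu + Wt mv) / 2) ((mu - mv) / 2 * gz (At t)) := by
  obtain ⟨t0, t1, s0, s1⟩ := h
  have h : Box t s := ⟨t0, t1, s0, s1⟩
  have hD := h.D0; have hD' := h.D1; have hA := sub_pos.2 h.A1; have hB := sub_pos.2 h.B1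
  have hst : s * t < 1 := by nlinarith
  have hst0 : 0 ≤ s * t := by positivity
  have p1 : 0 < 1 + s * t := by linarith
  have p2 : 0 < 1 - s * t := by linarith
  set k := (1 - s ^ 2) / (1 - t ^ 2 * s ^ 2) with hk
  have k0 : 0 < k := div_pos hB hD
  have eD : (1 - t ^ 2 * s ^ 2) = (1 + s * t) * (1 - s * t) := by ring
  have em : (mu + mv) / 2 = s * (1 - t ^ 2) / (1 - t ^ 2 * s ^ 2) := by
    rw [hmu, hmv, eD]; field_simp; ring
  have ed : (mu - mv) / 2 = k * t := by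
    rw [hk, hmu, hmv, eD]; field_simp; ring
  have a1 : 1 + mu = (1 + t) * (1 + s) / (1 + s * t) := by rw [hmu]; field_simp; ring
  have a2 : 1 - mu = (1 - t) * (1 - s) / (1 + s * t) := by rw [hmu]; field_simp; ring
  have a3 : 1 + mv = (1 - t) * (1 + s) / (1 - s * t) := by rw [hmv]; field_simp; ring
  have a4 : 1 - mv = (1 + t) * (1 - s) / (1 - s * t) := by rw [hmv]; field_simp; ring
  have q1 : (0:ℝ) < 1 + s := by linarith
  have q2 : (0:ℝ) < 1 - s := by linarith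
  have q3 : (0:ℝ) < 1 + t := by linarith
  have q4 : (0:ℝ) < 1 - t := by linarith
  have q5 : 0 < 1 + t ^ 2 * s := by linarith [h.as1.1]
  have q6 : 0 < 1 - t ^ 2 * s := by linarith [h.as1.2]
  set m := (mu + mv) / 2 with hm
  have a5 : 1 + m = (1 + s) * (1 - t ^ 2 * s) / (1 - t ^ 2 * s ^ 2) := by
    rw [em, eq_div_iff hD.ne', add_mul, div_mul_cancel₀ _ hD.ne']; ring
  have a6 : 1 - m = (1 - s) * (1 + t ^ 2 * s) / (1 - t ^ 2 * s ^ 2) := by
    rw [em, eq_div_iff hD.ne', sub_mul, div_mul_cancel₀ _ hD.ne']; ring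
  have hmu1 : -1 < mu ∧ mu < 1 := by
    constructor
    · have : 0 < 1 + mu := a1 ▸ by positivity
      linarith
    · have : 0 < 1 - mu := a2 ▸ by positivity
      linarith
  have hmv1 : -1 < mv ∧ mv < 1 := by
    constructor
    · have : 0 < 1 + mv := a3 ▸ by positivity
      linarith
    · have : 0 < 1 - mv := a4 ▸ by positivity
      linarith
  have hm1 : -1 < m ∧ m < 1 := by constructor <;> linarith [hm]
  have Amu : At mu = At t + At s := by
    simp only [At]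
    rw [a1, a2, log_div (by positivity) p1.ne', log_div (by positivity) p1.ne',
      log_mul q3.ne' q1.ne', log_mul q4.ne' q2.ne']
    ring
  have Amv : At mv = At s - At t := by
    simp only [At]
    rw [a3, a4, log_div (by positivity) p2.ne', log_div (by positivity) p2.ne',
      log_mul q4.ne' q1.ne', log_mul q3.ne' q2.ne']
    ring
  have Am : At m = At s - At (t ^ 2 * s) := by
    simp only [At]
    rw [a5, a6, log_div (by positivity) hD.ne', log_div (by positivity) hD.ne',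
      log_mul q1.ne' q6.ne', log_mul q2.ne' q5.ne']
    ring
  have key : (mu - mv) / 2 * At t - (2 * hh m - (hh mu + hh mv)) = k * Ne t s := by
    have lm : log (1 + m) + log (1 - m)
        = log (1 - s ^ 2) + log (1 - (t ^ 2) ^ 2 * s ^ 2) - 2 * log (1 - t ^ 2 * s ^ 2) := by
      rw [a5, a6, log_div (by positivity) hD.ne', log_div (by positivity) hD.ne',
        log_mul q1.ne' q6.ne', log_mul q2.ne' q5.ne',
        show 1 - s ^ 2 = (1 + s) * (1 - s) by ring, log_mul q1.ne' q2.ne',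
        show 1 - (t ^ 2) ^ 2 * s ^ 2 = (1 + t ^ 2 * s) * (1 - t ^ 2 * s) by ring,
        log_mul q5.ne' q6.ne']
      ring
    have ls : log (1 + mu) + log (1 - mu) + (log (1 + mv) + log (1 - mv))
        = 2 * (log (1 - t ^ 2) + log (1 - s ^ 2) - log (1 - t ^ 2 * s ^ 2)) := by
      rw [a1, a2, a3, a4, log_div (by positivity) p1.ne', log_div (by positivity) p1.ne',
        log_div (by positivity) p2.ne', log_div (by positivity) p2.ne', log_mul q3.ne' q1.ne',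
        log_mul q4.ne' q2.ne', log_mul q4.ne' q1.ne', log_mul q3.ne' q2.ne',
        show 1 - s ^ 2 = (1 + s) * (1 - s) by ring, log_mul q1.ne' q2.ne',
        show 1 - t ^ 2 = (1 + t) * (1 - t) by ring, log_mul q3.ne' q4.ne',
        eD, log_mul p1.ne' p2.ne']
      ring
    simp only [hh, phi_eq_At hm1.1 hm1.2, phi_eq_At hmu1.1 hmu1.2, phi_eq_At hmv1.1 hmv1.2,
      Amu, Amv, Am]
    have e1 : mu = m + k * t := by rw [← ed, hm]; ring
    have e2 : mv = m - k * t := by rw [← ed, hm]; ring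
    rw [lm]
    have e3 : k * Ne t s
        = (-log (1 - t ^ 2) + log (1 - (t ^ 2) ^ 2 * s ^ 2) - log (1 - t ^ 2 * s ^ 2))
          - 2 * m * At (t ^ 2 * s) - k * t * At t := by
      rw [hk, Ne, em]
      generalize 1 - t ^ 2 * s ^ 2 = D at hD ⊢
      generalize 1 - s ^ 2 = E at hB ⊢
      field_simp
    rw [e3, ed, e1, e2]
    rw [e1, e2] at ls
    linear_combination (-(1 / 2) : ℝ) * ls
  have hN := Ne_nonneg h
  refine ⟨by linarith [mul_nonneg k0.le hN], ?_⟩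
  have eη : (mu - mv) / 2 * gz (At t) = k * xz (At t) := by
    rw [ed, gz, tanh_At (by linarith) t1]; field_simp
  have eX : Wt m = k * Xe t s := by
    rw [hk]; exact Wt_mid_eq h a5 a6 em
  have eY : k * Ye t s ≤ (Wt mu + Wt mv) / 2 := by
    rw [hk]; exact (Ye_le_avg h a1 a2 a3 a4).trans (Wt_avg_ge mu mv)
  have hx := xz_pos_of_nonneg (At_pos t0 t1).le
  have main : Pi2 (Xe t s) (xz (At t)) ≤ Ne t s + Pi2 (Ye t s) (xz (At t)) := by
    rcases le_or_gt (11 / 25) t with h44 | h44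
    · exact Ne_ge_Pi2_large h h44 fun u a b => H t u h44 t1 a b
    · have := Ne_ge_Pi2_small h (by nlinarith)
      linarith [Pi2_nonneg h.Ye_pos hx]
  have hmono := Pi2_mono (mul_pos k0 h.Ye_pos) (mul_pos k0 hx) eY
  have e5 : Pi2 (k * Xe t s) (k * xz (At t)) = k * Pi2 (Xe t s) (xz (At t)) := Pi2_homog k0.ne'
  rw [eη, eX, e5]
  rw [Pi2_homog k0.ne'] at hmono
  linarith [mul_le_mul_of_nonneg_left main k0.le]

lemma hh_neg (u : ℝ) : hh (-u) = hh u := by
  simp only [hh, phi]; ring_nf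

theorem edgeIneq_of_goal
    (H : ∀ t s : ℝ, 11 / 25 ≤ t → t < 1 → 0 < s → s < 1 → Cert.Goal t s) : EdgeIneq := by
  have key : ∀ mu mv : ℝ, -1 < mv → mv < mu → mu < 1 → 0 ≤ mu + mv →
      2 * hh ((mu + mv) / 2) - (hh mu + hh mv) ≤ (mu - mv) / 2 * ((At mu - At mv) / 2) ∧
      2 * hh ((mu + mv) / 2) - (hh mu + hh mv)
          + Pi2 (Wt ((mu + mv) / 2)) ((mu - mv) / 2 * gz ((At mu - At mv) / 2))
        ≤ (mu - mv) / 2 * ((At mu - At mv) / 2)
          + Pi2 ((Wt mu + Wt mv) / 2) ((mu - mv) / 2 * gz ((At mu - At mv) / 2)) := by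
    intro mu mv a1 a2 a3 hs
    set p := (At mu - At mv) / 2 with hp
    set q := (At mu + At mv) / 2 with hq
    have p0 : 0 < p := by
      have h1 := log_lt_log (show 0 < 1 + mv by linarith) (show 1 + mv < 1 + mu by linarith)
      have h2 := log_lt_log (show 0 < 1 - mu by linarith) (show 1 - mu < 1 - mv by linarith)
      simp only [hp, At]; linarith
    have q0 : 0 ≤ q := by
      have h1 := At_mono (show -1 < -mv by linarith) (show -mv ≤ mu by linarith) a3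
      have h2 : At (-mv) = -At mv := by simp only [At]; ring_nf
      rw [hq]; linarith
    have hb : Box (tanh p) (tanh q) := ⟨tanh_pos' p0, tanh_lt_one' p, by
      rcases q0.eq_or_lt with e | e
      · simp [← e]
      · exact (tanh_pos' e).le, tanh_lt_one' q⟩
    have hadd : ∀ a b : ℝ, tanh (a + b) = (tanh a + tanh b) / (1 + tanh a * tanh b) := fun a b => by
      have := cosh_pos a; have := cosh_pos b; have := cosh_pos (a + b)
      simp only [tanh_eq_sinh_div_cosh, sinh_add, cosh_add]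
      field_simp
    have e1 : mu = (tanh q + tanh p) / (1 + tanh q * tanh p) := by
      rw [← hadd, show q + p = At mu by rw [hp, hq]; ring, tanh_At (by linarith) a3]
    have e2 : mv = (tanh q - tanh p) / (1 - tanh q * tanh p) := by
      have := hadd q (-p)
      rw [tanh_neg, show q + -p = At mv by rw [hp, hq]; ring, tanh_At a1 (by linarith)] at this
      rw [this]; ring_nf
    have := edge_of_coord H hb e1 e2
    rwa [At_tanh] at this
  intro mu mv a1 a2 a3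
  rcases le_total 0 (mu + mv) with hs | hs
  · exact key mu mv a1 a2 a3 hs
  · have := key (-mv) (-mu) (by linarith) (by linarith) (by linarith) (by linarith)
    have eA : ∀ u : ℝ, At (-u) = -At u := fun u => by simp only [At]; ring_nf
    have eW : ∀ u : ℝ, Wt (-u) = Wt u := fun u => by simp [Wt]
    rw [show (-mv + -mu) / 2 = -((mu + mv) / 2) by ring, hh_neg, hh_neg, hh_neg, eW, eW, eW, eA,
      eA, show -mv - -mu = mu - mv by ring, show -At mv - -At mu = At mu - At mv by ring,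
      add_comm (hh mv), add_comm (Wt mv)] at this
    exact this

end Vale.Agent.P322
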