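import Vale.Agent.P322.Persp

noncomputable section
namespace Vale.Agent.P322
open Real Set

lemma half_le_Ez {z : ℝ} (hz : 0 < z) : 1 / 2 ≤ Ez z := by
  set x := 2 * z with hx
  set y := exp (-x) with hy
  have y0 : 0 < y := exp_pos _
  have x0 : 0 < x := by positivity
  have y1 : y < 1 := by rw [hy]; exact exp_lt_one_iff.2 (by linarith)
  have key : (x + 1) * y ≤ 1 := by
    rw [hy, exp_neg, ← div_eq_mul_inv, div_le_one (exp_pos x)]
    linarith [add_one_le_exp x]
  have et : 1 - tanh z = 2 * y / (1 + y) := by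
    rw [one_sub_tanh, cosh_eq, hy, hx, show -(2 * z) = -z + -z by ring, exp_add]
    have : exp z * exp (-z) = 1 := by rw [← exp_add]; simp
    field_simp
    linear_combination -1 * this
  have l1 : y / (1 + y) ≤ log (1 + y) := by
    have := one_sub_inv_le_log_of_pos (show 0 < 1 + y by positivity)
    rw [div_eq_mul_inv]; 
    have e : (1 : ℝ) - (1 + y)⁻¹ = y * (1 + y)⁻¹ := by field_simp; ring
    linarith
  have ex : y * (x + 1) / (1 + y) ≤ xz z := by
    rw [xz_eq_exp, et, ← hx]
    have : z * (2 * y / (1 + y)) = x * y / (1 + y) := by rw [hx]; ring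
    rw [this]
    have : y * (x + 1) / (1 + y) = x * y / (1 + y) + y / (1 + y) := by ring
    linarith
  have es : 1 + Sz z = (1 - y ^ 2) / (2 * x * y) := by
    rw [Sz_of_ne hz.ne', sinh_eq, ← hx, hy, exp_neg]
    field_simp
    ring
  rw [Ez]
  refine le_trans ?_ (mul_le_mul_of_nonneg_right ex (by linarith [Sz_nonneg hz.le]))
  rw [es]
  have : y * (x + 1) / (1 + y) * ((1 - y ^ 2) / (2 * x * y)) = (x + 1) * (1 - y) / (2 * x) := by
    field_simp; ring
  rw [this, div_le_div_iff₀ two_pos (by positivity)]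
  nlinarith

lemma log_two_mul_le_hh {u : ℝ} (h1 : -1 < u) (h2 : u < 1) : (1 - u ^ 2) * log 2 ≤ hh u := by
  obtain ⟨z, rfl⟩ : ∃ z, tanh z = u := ⟨At u, tanh_At h1 h2⟩
  rw [hh_tanh]
  have hc := cosh_pos z
  have e : 1 - tanh z ^ 2 = 1 / cosh z ^ 2 := by
    rw [tanh_eq_sinh_div_cosh]; field_simp; linarith [cosh_sq_sub_sinh_sq z]
  rw [e, div_mul_eq_mul_div, one_mul, div_le_iff₀ (by positivity)]
  -- evenness
  have heven : xz z = xz |z| ∧ cosh z = cosh |z| := by
    rcases abs_choice z with h | h <;> rw [h]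
    · exact ⟨rfl, rfl⟩
    · simp [xz, Lc, tanh_neg]
  rw [heven.1, heven.2]
  have hm : MonotoneOn (fun x => xz x * cosh x ^ 2) (Ici 0) := by
    refine monotoneOn_of_deriv_nonneg (convex_Ici 0)
      (continuous_xz.mul (continuous_cosh.pow 2)).continuousOn ?_ ?_ <;>
      intro x hx <;> rw [interior_Ici] at hx
    · exact ((hasDerivAt_xz x).mul ((hasDerivAt_cosh x).pow 2)).differentiableAt.differentiableWithinAt
    · have hd : deriv (fun x => xz x * cosh x ^ 2) x = _ :=
        ((hasDerivAt_xz x).mul ((hasDerivAt_cosh x).pow 2)).deriv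
      rw [hd]
      have hx' : (0:ℝ) < x := hx
      have := mul_le_mul_of_nonneg_left (half_le_Ez hx') hx'.le
      rw [Ez, Sz_of_ne hx'.ne', sinh_two_mul] at this
      have e1 : x * (xz x * (1 + (2 * sinh x * cosh x / (2 * x) - 1))) = xz x * sinh x * cosh x := by
        field_simp; ring
      rw [e1] at this
      simp only [Pi.pow_apply, Nat.cast_ofNat]
      have e2 : -(x / cosh x ^ 2) * cosh x ^ 2 = -x := by field_simp
      nlinarith
  have := hm self_mem_Ici (abs_nonneg z) (abs_nonneg z)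
  simpa [xz_zero] using this

/-- `x log (x/y) ≥ x log r + x - r y`. -/
lemma mul_log_div_ge {x y r : ℝ} (hx : 0 < x) (hy : 0 < y) (hr : 0 < r) :
    x * log r + x - r * y ≤ x * log (x / y) := by
  have h := one_sub_inv_le_log_of_pos (show 0 < x / y / r by positivity)
  rw [log_div (by positivity) hr.ne'] at h
  have e : x * (x / y / r)⁻¹ = r * y := by field_simp
  nlinarith [mul_le_mul_of_nonneg_left h hx.le]

/-- tangent inequality for the pair dissipation. -/
lemma dd_tangent {u v p q : ℝ} (hu : -1 < u) (hu' : u < 1) (hv : -1 < v) (hv' : v < 1)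
    (hp : -1 < p) (hp' : p < 1) (hq : -1 < q) (hq' : q < 1) :
    ((u - v) * At p + (v - u) * At q) / 4
      + ((u - p) * ((p - q) / (1 - p ^ 2)) + (v - q) * ((q - p) / (1 - q ^ 2))) / 4
      ≤ dd u v := by
  have a1 := mul_log_div_ge (x := 1 + u) (y := 1 + v) (r := (1 + p) / (1 + q))
    (by linarith) (by linarith) (by apply div_pos <;> linarith)
  have a2 := mul_log_div_ge (x := 1 + v) (y := 1 + u) (r := (1 + q) / (1 + p))
    (by linarith) (by linarith) (by apply div_pos <;> linarith)
  have a3 := mul_log_div_ge (x := 1 - u) (y := 1 - v) (r := (1 - p) / (1 - q))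
    (by linarith) (by linarith) (by apply div_pos <;> linarith)
  have a4 := mul_log_div_ge (x := 1 - v) (y := 1 - u) (r := (1 - q) / (1 - p))
    (by linarith) (by linarith) (by apply div_pos <;> linarith)
  rw [log_div, log_div] at a1 a2 a3 a4 <;> try linarith
  simp only [dd, At]
  have hp2 : 1 - p ^ 2 = (1 - p) * (1 + p) := by ring
  have hq2 : 1 - q ^ 2 = (1 - q) * (1 + q) := by ring
  have e : (u - p) * ((p - q) / (1 - p ^ 2)) + (v - q) * ((q - p) / (1 - q ^ 2))
    = ((2 + u + v) - (1 + p) / (1 + q) * (1 + v) - (1 + q) / (1 + p) * (1 + u)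
      + (2 - u - v) - (1 - p) / (1 - q) * (1 - v) - (1 - q) / (1 - p) * (1 - u)) / 2 := by
    rw [hp2, hq2]
    have : (1 + p) ≠ 0 := by linarith
    have : (1 + q) ≠ 0 := by linarith
    have : (1 - p) ≠ 0 := by linarith
    have : (1 - q) ≠ 0 := by linarith
    field_simp
    ring
  rw [e]
  linarith

lemma hh_two_pair (z c : ℝ) :
    tanh (c + z) - tanh (c - z) = 2 * sinh (2 * z) / (cosh (2 * z) + cosh (2 * c)) := by
  rw [tanh_eq_sinh_div_cosh, tanh_eq_sinh_div_cosh, div_sub_div _ _ (cosh_ne _) (cosh_ne _)]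
  have h1 : cosh (c + z) * cosh (c - z) = (cosh (2 * z) + cosh (2 * c)) / 2 := by
    rw [cosh_add, cosh_sub, cosh_two_mul, cosh_two_mul]
    nlinarith [cosh_sq_sub_sinh_sq c, cosh_sq_sub_sinh_sq z]
  have h2 : sinh (c + z) * cosh (c - z) - cosh (c + z) * sinh (c - z) = sinh (2 * z) := by
    rw [← sinh_sub]; ring_nf
  rw [h2, h1]
  have := cosh_pos (2 * z); have := cosh_pos (2 * c)
  field_simp

/-- `q coth q ≤ log (2 + 2 cosh q)`. -/
lemma q_coth_le {q : ℝ} (hq : 0 < q) : q * cosh q ≤ sinh q * log (2 + 2 * cosh q) := by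
  set y := exp (-q) with hy
  have y0 : 0 < y := exp_pos _
  have e : log (2 + 2 * cosh q) = q + 2 * log (1 + y) := by
    have : 2 + 2 * cosh q = exp q * (1 + y) ^ 2 := by
      rw [cosh_eq, hy]
      have : exp q * exp (-q) = 1 := by rw [← exp_add]; simp
      linear_combination (-2 - exp (-q)) * this
    rw [this, log_mul (exp_pos q).ne' (by positivity), log_exp, log_pow]; push_cast; ring
  rw [e]
  have hs : cosh q - sinh q = y := cosh_sub_sinh q
  have l : 2 * y / (2 + y) ≤ log (1 + y) := by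
    have := Real.le_log_one_add_of_nonneg y0.le; linarith [show 2*y/(y+2) = 2*y/(2+y) by ring]
  have hs0 : 0 < sinh q := sinh_pos_iff.2 hq
  suffices h : q * y ≤ 2 * sinh q * (2 * y / (2 + y)) by
    nlinarith [mul_le_mul_of_nonneg_left l (by positivity : (0:ℝ) ≤ 2 * sinh q)]
  rw [← mul_div_assoc, le_div_iff₀ (by positivity)]
  have : q ≤ sinh q := self_le_sinh_iff.2 hq.le
  have : y ≤ 1 := exp_le_one_iff.2 (by linarith)
  nlinarith [mul_le_mul_of_nonneg_right ‹q ≤ sinh q› (mul_nonneg y0.le (by linarith : (0:ℝ) ≤ 2 + y)),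
    mul_nonneg (mul_nonneg hs0.le y0.le) (sub_nonneg.2 ‹y ≤ 1›)]

/-- centring lemma. -/
lemma sum_hh_ge (z c : ℝ) (hz : 0 < z) :
    (tanh (c + z) - tanh (c - z)) / tanh z * xz z ≤ xz (c + z) + xz (c - z) := by
  set P := cosh (2 * z) with hP
  let Φ : ℝ → ℝ := fun q => (P + cosh q) * log (2 * (P + cosh q)) - q * sinh q
  have hPpos : 1 ≤ P := one_le_cosh _
  have hd : ∀ q, HasDerivAt Φ (sinh q * log (2 * (P + cosh q)) - q * cosh q) q := by
    intro q
    have h0 : 0 < P + cosh q := by linarith [cosh_pos q]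
    have a := (hasDerivAt_cosh q).const_add P
    have b := (a.const_mul 2).log (by positivity)
    refine ((a.mul b).sub ((hasDerivAt_id q).mul (hasDerivAt_sinh q))).congr_deriv ?_
    simp only [id]; field_simp; ring
  have hm : MonotoneOn Φ (Ici 0) := by
    refine monotoneOn_of_deriv_nonneg (convex_Ici 0)
      (fun q _ => (hd q).continuousAt.continuousWithinAt)
      (fun q _ => (hd q).differentiableAt.differentiableWithinAt) ?_
    intro q hq
    rw [interior_Ici] at hq
    rw [(hd q).deriv]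
    have := q_coth_le hq
    have h2 : log (2 + 2 * cosh q) ≤ log (2 * (P + cosh q)) :=
      log_le_log (by linarith [cosh_pos q]) (by linarith)
    nlinarith [mul_le_mul_of_nonneg_left h2 (sinh_pos_iff.2 (show (0:ℝ) < q from hq)).le]
  have he : ∀ q, Φ (-q) = Φ q := by intro q; simp [Φ]
  have key : Φ 0 ≤ Φ (2 * c) := by
    rcases le_total 0 (2 * c) with h | h
    · exact hm self_mem_Ici h h
    · rw [← he (2 * c)]; exact hm self_mem_Ici (show (0:ℝ) ≤ -(2*c) by linarith) (by linarith)
  have hC : 0 < P + cosh (2 * c) := by linarith [cosh_pos (2 * c)]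
  have e1 : xz (c + z) + xz (c - z) = (Φ (2 * c) - 2 * z * sinh (2 * z)) / (P + cosh (2 * c)) := by
    have l : Lc (c + z) + Lc (c - z) = log (2 * (P + cosh (2 * c))) := by
      rw [Lc, Lc, ← log_mul (by positivity [cosh_pos (c+z)]) (by positivity [cosh_pos (c-z)])]
      congr 1
      rw [hP, cosh_add, cosh_sub, cosh_two_mul, cosh_two_mul]
      nlinarith [cosh_sq_sub_sinh_sq c, cosh_sq_sub_sinh_sq z]
    have h1 : tanh (c + z) + tanh (c - z) = 2 * sinh (2 * c) / (P + cosh (2 * c)) := by
      have := hh_two_pair c z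
      rw [add_comm z c, show z - c = -(c - z) by ring, tanh_neg] at this
      rw [hP, add_comm (cosh (2*z))]; linarith
    have h2 := hh_two_pair z c
    rw [← hP] at h2
    have : xz (c + z) + xz (c - z) = (Lc (c + z) + Lc (c - z))
        - c * (tanh (c + z) + tanh (c - z)) - z * (tanh (c + z) - tanh (c - z)) := by
      simp only [xz]; ring
    rw [this, l, h1, h2]; simp only [Φ]; field_simp
  have e2 : (tanh (c + z) - tanh (c - z)) / tanh z * xz z
      = (Φ 0 - 2 * z * sinh (2 * z)) / (P + cosh (2 * c)) := by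
    rw [hh_two_pair z c, ← hP]
    simp only [Φ, cosh_zero, sinh_zero, mul_zero, sub_zero]
    have hc2 : cosh z ≠ 0 := cosh_ne z
    have l : log (2 * (P + 1)) = 2 * Lc z := by
      rw [Lc, ← log_rpow (by positivity [cosh_pos z])]
      congr 1
      rw [hP, cosh_two_mul, show ((2 * cosh z) ^ (2:ℝ)) = (2 * cosh z) ^ (2:ℕ) by norm_cast]
      nlinarith [cosh_sq_sub_sinh_sq z]
    rw [l, xz, tanh_eq_sinh_div_cosh, sinh_two_mul, hP, cosh_two_mul]
    have : sinh z ≠ 0 := (sinh_pos_iff.2 hz).ne'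
    field_simp
    linear_combination Lc z * cosh_sq_sub_sinh_sq z
  rw [e1, e2]
  gcongr

/-- convexity tangent of `gz`. -/
lemma gz_tangent {z y : ℝ} (hz : 0 < z) (hy : 0 < y) :
    z + sg z * gz z ≤ y + sg z * gz y := by
  have hd : ∀ x, 0 < x → HasDerivAt (fun x => x + sg z * gz x) (1 - sg z / sg x) x := by
    intro x hx
    have ht := (tanh_pos' hx).ne'
    have := (hasDerivAt_id x).add (((hasDerivAt_xz x).div (hasDerivAt_tanh x) ht).const_mul (sg z))
    refine this.congr_deriv ?_
    have hs : sinh x ≠ 0 := (sinh_pos_iff.2 hx).ne'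
    have hL := (Lc_pos x).ne'
    rw [show sg x = sinh x ^ 2 / Lc x from rfl, xz, tanh_eq_sinh_div_cosh]
    field_simp
    ring
  have hsp : ∀ x, 0 < x → 0 < sg x := fun x hx =>
    div_pos (pow_pos (sinh_pos_iff.2 hx) 2) (Lc_pos x)
  have hcont : ∀ s ⊆ Ioi (0:ℝ), ContinuousOn (fun x => x + sg z * gz x) s :=
    fun s hs x hx => (hd x (hs hx)).continuousAt.continuousWithinAt
  rcases le_total y z with h | h
  · have hm : AntitoneOn (fun x => x + sg z * gz x) (Icc y z) := by
      refine antitoneOn_of_deriv_nonpos (convex_Icc _ _)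
        (hcont _ fun x hx => lt_of_lt_of_le hy hx.1) ?_ ?_ <;>
        intro x hx <;> rw [interior_Icc] at hx
      · exact (hd x (hy.trans hx.1)).differentiableAt.differentiableWithinAt
      · rw [(hd x (hy.trans hx.1)).deriv, sub_nonpos, one_le_div (hsp x (hy.trans hx.1))]
        exact sg_monotone (hy.trans hx.1).le hz.le hx.2.le
    exact hm ⟨le_rfl, h⟩ ⟨h, le_rfl⟩ h
  · have hm : MonotoneOn (fun x => x + sg z * gz x) (Ici z) := by
      refine monotoneOn_of_deriv_nonneg (convex_Ici _)
        (hcont _ fun x hx => lt_of_lt_of_le hz hx) ?_ ?_ <;>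
        intro x hx <;> rw [interior_Ici] at hx <;> have hx' : (0:ℝ) < x := hz.trans hx
      · exact (hd x hx').differentiableAt.differentiableWithinAt
      · rw [(hd x hx').deriv, sub_nonneg, div_le_one (hsp x hx')]
        exact sg_monotone hz.le hx'.le (le_of_lt hx)
    exact hm self_mem_Ici h h

/-- pointwise linear minorant of the dissipation. -/
lemma dd_linear {u v z : ℝ} (hu : -1 < u) (hu' : u < 1) (hv : -1 < v) (hv' : v < 1) (hz : 0 < z) :
    (u - v) / 2 * (z + sg z * gz z) - sg z * ((hh u + hh v) / 2) ≤ dd u v := by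
  have hs : 0 < sg z := div_pos (pow_pos (sinh_pos_iff.2 hz) 2) (Lc_pos z)
  have hg : 0 < gz z := div_pos (xz_pos_of_nonneg hz.le) (tanh_pos' hz)
  have hh0 : ∀ t, -1 < t → t < 1 → 0 ≤ hh t := fun t a b => by
    have := log_two_mul_le_hh a b
    have : 0 ≤ (1 - t ^ 2) * log 2 := mul_nonneg (by nlinarith) (log_pos one_lt_two).le
    linarith
  have hη : 0 ≤ (hh u + hh v) / 2 := by linarith [hh0 u hu hu', hh0 v hv hv']
  wlog huv : v < u generalizing u v
  · have hle : u ≤ v := not_lt.1 huv
    have hd : 0 ≤ dd u v := by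
      rcases hle.eq_or_lt with h | h
      · simp [dd, h]
      · have := dd_tangent hu hu' hv hv' (p := 0) (q := 0) (by norm_num) (by norm_num) (by norm_num) (by norm_num)
        simp [At] at this; linarith
    have : (u - v) / 2 * (z + sg z * gz z) ≤ 0 :=
      mul_nonpos_of_nonpos_of_nonneg (by linarith) (by positivity)
    nlinarith
  obtain ⟨y, hy, c, rfl, rfl⟩ : ∃ y, 0 < y ∧ ∃ c, tanh (c + y) = u ∧ tanh (c - y) = v := by
    refine ⟨(At u - At v) / 2, ?_, (At u + At v) / 2, ?_, ?_⟩
    · have : At v < At u := by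
        unfold At
        have := log_lt_log (show 0 < 1 + v by linarith) (show 1 + v < 1 + u by linarith)
        have := log_lt_log (show 0 < 1 - u by linarith) (show 1 - u < 1 - v by linarith)
        linarith
      linarith
    · rw [show (At u + At v) / 2 + (At u - At v) / 2 = At u by ring, tanh_At hu hu']
    · rw [show (At u + At v) / 2 - (At u - At v) / 2 = At v by ring, tanh_At hv hv']
  rw [hh_tanh, hh_tanh, dd, At_tanh, At_tanh]
  have h1 := sum_hh_ge y c hy
  have h2 := gz_tangent hz hy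
  have hδ : 0 ≤ (tanh (c + y) - tanh (c - y)) / 2 := by linarith
  have h3 := mul_le_mul_of_nonneg_left h2 hδ
  have h4 := mul_le_mul_of_nonneg_left h1 hs.le
  have : (tanh (c + y) - tanh (c - y)) / tanh y * xz y = (tanh (c + y) - tanh (c - y)) * gz y := by
    rw [gz]; ring
  rw [this] at h4
  linarith

end Vale.Agent.P322
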