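import Vale.Agent.P322.Special
import Vale.Agent.P322.Pair

noncomputable section
namespace Vale.Agent.P322
open Real Set

/-- rate function on the edge; `A = tanh p ^ 2`, `s = tanh q`. -/
def TT (A s : ℝ) : ℝ :=
  -log (1 - A) + log (1 - A ^ 2 * s ^ 2) - log (1 - A * s ^ 2) - (1 + s ^ 2) * At (A * s) / s

def TTt (A s : ℝ) : ℝ := (1 - A * s ^ 2) ^ 2 * TT A s / (A * (1 - s ^ 2) ^ 2)

lemma hasDerivAt_At {t : ℝ} (h1 : -1 < t) (h2 : t < 1) : HasDerivAt At (1 / (1 - t ^ 2)) t := by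
  have a : (1 : ℝ) + t ≠ 0 := by linarith
  have b : (1 : ℝ) - t ≠ 0 := by linarith
  have c : (1 : ℝ) - t ^ 2 ≠ 0 := by nlinarith
  have h := ((((hasDerivAt_id t).const_add 1).log a).sub (((hasDerivAt_id t).const_sub 1).log b)).div_const 2
  refine h.congr_deriv ?_
  simp only [id]
  field_simp
  ring

lemma At_zero : At 0 = 0 := by simp [At]

lemma At_mono {a b : ℝ} (h1 : -1 < a) (h : a ≤ b) (h2 : b < 1) : At a ≤ At b := by
  have l1 := log_le_log (by linarith : (0:ℝ) < 1 + a) (by linarith : 1 + a ≤ 1 + b)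
  have l2 := log_le_log (by linarith : (0:ℝ) < 1 - b) (by linarith : 1 - b ≤ 1 - a)
  simp only [At]; linarith

lemma At_pos {a : ℝ} (h1 : 0 < a) (h2 : a < 1) : 0 < At a := by
  have l1 := log_pos (by linarith : (1:ℝ) < 1 + a)
  have l2 := log_neg (by linarith : (0:ℝ) < 1 - a) (by linarith)
  simp only [At]; linarith

lemma hasDerivAt_TT {A s : ℝ} (hA0 : 0 ≤ A) (hA1 : A < 1) (hs0 : 0 < s) (hs1 : s < 1) :
    HasDerivAt (fun x => TT x s)
      (A * (1 - s ^ 2) ^ 2 / ((1 - A) * (1 - A ^ 2 * s ^ 2) * (1 - A * s ^ 2))) A := by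
  have s2 : s ^ 2 < 1 := by nlinarith
  have b1 : (0:ℝ) < 1 - A ^ 2 * s ^ 2 := by
    nlinarith [mul_le_mul (show A ^ 2 ≤ 1 by nlinarith) s2.le (sq_nonneg s) zero_le_one]
  have b2 : (0:ℝ) < 1 - A * s ^ 2 := by nlinarith
  have as : A * s < 1 := by nlinarith
  have d1 := ((hasDerivAt_id A).const_sub 1).log (by simp only [id]; linarith)
  have d2 := ((((hasDerivAt_id A).pow 2).mul_const (s ^ 2)).const_sub 1).log (by simp only [Pi.pow_apply, id]; exact b1.ne')
  have d3 := (((hasDerivAt_id A).mul_const (s ^ 2)).const_sub 1).log (by simp only [id]; exact b2.ne')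
  have d4 := (((hasDerivAt_At (by nlinarith : -1 < A * s) as).comp A (h := fun x => x * s)
    ((hasDerivAt_id A).mul_const s)).const_mul (1 + s ^ 2)).div_const s
  refine ((d1.neg.add d2).sub d3 |>.sub d4).congr_deriv ?_
  simp only [id, Pi.pow_apply, mul_pow]
  have : (1:ℝ) - A ≠ 0 := by linarith
  field_simp
  ring

lemma TT_zero (s : ℝ) : TT 0 s = 0 := by simp [TT, At_zero]

lemma TT_monotoneOn {s : ℝ} (hs0 : 0 < s) (hs1 : s < 1) : MonotoneOn (fun x => TT x s) (Ico 0 1) := by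
  refine monotoneOn_of_deriv_nonneg (convex_Ico 0 1)
    (fun x hx => (hasDerivAt_TT hx.1 hx.2 hs0 hs1).continuousAt.continuousWithinAt) ?_ ?_ <;>
    intro x hx <;> rw [interior_Ico] at hx
  · exact (hasDerivAt_TT hx.1.le hx.2 hs0 hs1).differentiableAt.differentiableWithinAt
  · rw [(hasDerivAt_TT hx.1.le hx.2 hs0 hs1).deriv]
    have s2 : s ^ 2 < 1 := by nlinarith
    have := hx.1
    refine div_nonneg (by positivity) (mul_nonneg (mul_nonneg ?_ ?_) ?_)
    · linarith [hx.2]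
    · nlinarith [mul_le_mul (show x ^ 2 ≤ 1 by nlinarith [hx.2]) s2.le (sq_nonneg s) zero_le_one]
    · nlinarith [hx.2]

lemma TT_nonneg {A s : ℝ} (hA0 : 0 ≤ A) (hA1 : A < 1) (hs0 : 0 < s) (hs1 : s < 1) : 0 ≤ TT A s := by
  have := TT_monotoneOn hs0 hs1 ⟨le_rfl, zero_lt_one⟩ ⟨hA0, hA1⟩ hA0
  simpa [TT_zero] using this

/-- `TTt` decreases in the second variable. -/
lemma TTt_anti {A s s' : ℝ} (hA0 : 0 < A) (hA1 : A < 1) (hs0 : 0 < s) (hss : s ≤ s') (hs1 : s' < 1) :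
    TTt A s' ≤ TTt A s := by
  set B := s ^ 2 with hB
  set B' := s' ^ 2 with hB'
  have hBB : B ≤ B' := by simp only [hB, hB']; nlinarith
  have hB0 : 0 ≤ B := sq_nonneg s
  have hB1 : B' < 1 := by simp only [hB']; nlinarith
  have hs01 : s < 1 := by linarith
  have hs0' : 0 < s' := by linarith
  let k : ℝ := (1 - A * B) ^ 2 / (1 - B) ^ 2
  let k' : ℝ := (1 - A * B') ^ 2 / (1 - B') ^ 2
  let h : ℝ → ℝ := fun x => k * TT x s - k' * TT x s'
  have hd : ∀ x, 0 ≤ x → x < 1 → HasDerivAt h (k * (x * (1 - B) ^ 2 / ((1 - x) * (1 - x ^ 2 * B) * (1 - x * B)))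
      - k' * (x * (1 - B') ^ 2 / ((1 - x) * (1 - x ^ 2 * B') * (1 - x * B')))) x := fun x a b =>
    ((hasDerivAt_TT a b hs0 hs01).const_mul k).sub ((hasDerivAt_TT a b hs0' hs1).const_mul k')
  have hm : MonotoneOn h (Icc 0 A) := by
    refine monotoneOn_of_deriv_nonneg (convex_Icc _ _)
      (fun x hx => (hd x hx.1 (by linarith [hx.2])).continuousAt.continuousWithinAt) ?_ ?_ <;>
      intro x hx <;> rw [interior_Icc] at hx <;> obtain ⟨x0, xA⟩ := hx
    · exact (hd x x0.le (by linarith)).differentiableAt.differentiableWithinAt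
    · rw [(hd x x0.le (by linarith)).deriv, sub_nonneg]
      have x2 : x ^ 2 ≤ x := by nlinarith
      have n1 : ∀ b, 0 ≤ b → b < 1 → 0 < 1 - x * b ∧ 0 < 1 - x ^ 2 * b ∧ 0 < 1 - A * b := fun b b0 b1 =>
        ⟨by nlinarith, by nlinarith, by nlinarith⟩
      obtain ⟨p1, p2, p3⟩ := n1 B hB0 (by linarith)
      obtain ⟨q1, q2, q3⟩ := n1 B' (hB0.trans hBB) hB1
      have c1 : (1 - A * B') * (1 - x * B) ≤ (1 - A * B) * (1 - x * B') := by
        nlinarith [mul_nonneg (sub_nonneg.2 xA.le) (sub_nonneg.2 hBB)]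
      have c2 : (1 - A * B') * (1 - x ^ 2 * B) ≤ (1 - A * B) * (1 - x ^ 2 * B') := by
        nlinarith [mul_nonneg (sub_nonneg.2 (x2.trans xA.le)) (sub_nonneg.2 hBB)]
      have c := mul_le_mul c1 c2 (by positivity) (by positivity)
      have e : ∀ b, b ≠ 1 → (1 - A * b) ^ 2 / (1 - b) ^ 2 * (x * (1 - b) ^ 2 / ((1 - x) * (1 - x ^ 2 * b) * (1 - x * b)))
          = x / (1 - x) * ((1 - A * b) ^ 2 / ((1 - x ^ 2 * b) * (1 - x * b))) := by
        intro b hb
        have hb' : (1:ℝ) - b ≠ 0 := sub_ne_zero.2 hb.symm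
        generalize (1 - x) = u, (1 - A * b) = v, (1 - x ^ 2 * b) = w, (1 - x * b) = w'
        field_simp
      simp only [k, k']
      rw [e B (by linarith), e B' (by linarith)]
      refine mul_le_mul_of_nonneg_left ?_ (div_nonneg x0.le (by linarith))
      rw [div_le_div_iff₀ (by positivity) (by positivity)]
      linarith
  have := hm ⟨le_rfl, hA0.le⟩ ⟨hA0.le, le_rfl⟩ hA0.le
  simp only [h, TT_zero, mul_zero, sub_zero] at this
  simp only [TTt, ← hB, ← hB']
  have e : ∀ a b c : ℝ, a * b / (A * c) = a / c * b / A := fun a b c => by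
    rw [mul_comm A c, ← div_div, mul_div_right_comm]
  rw [e, e]
  exact div_le_div_of_nonneg_right (by simp only [k, k'] at this; linarith) hA0.le

lemma Sz_eq_At {t : ℝ} (h0 : 0 < t) (h1 : t < 1) :
    1 + Sz (At t) = t / ((1 - t ^ 2) * At t) := by
  have hp := At_pos h0 h1
  set p := At t with hp'
  have ht : tanh p = t := tanh_At (by linarith) h1
  have hc : 1 - t ^ 2 = 1 / cosh p ^ 2 := by
    rw [← ht, tanh_eq_sinh_div_cosh]; have := cosh_pos p; field_simp; linarith [cosh_sq_sub_sinh_sq p]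
  rw [Sz_of_ne hp.ne', hc, ← ht, tanh_eq_sinh_div_cosh, sinh_two_mul]
  have := cosh_pos p
  field_simp
  ring

lemma xz_At {t : ℝ} (h1 : -1 < t) (h2 : t < 1) :
    xz (At t) = log 2 + log (1 / (1 - t ^ 2)) / 2 - At t * t := by
  set p := At t
  have ht : tanh p = t := tanh_At h1 h2
  have hc : 1 / (1 - t ^ 2) = cosh p ^ 2 := by
    rw [← ht, tanh_eq_sinh_div_cosh]
    have := cosh_pos p
    have e : 1 - (sinh p / cosh p) ^ 2 = 1 / cosh p ^ 2 := by field_simp; linarith [cosh_sq_sub_sinh_sq p]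
    rw [e, one_div_one_div]
  rw [xz, Lc, ht, log_mul two_ne_zero (cosh_ne p), hc, log_pow]
  push_cast; ring

lemma Qz_At {t : ℝ} (h0 : 0 < t) (h1 : t < 1) :
    Qz (At t) = At t * t + xz (At t) * (1 + t / ((1 - t ^ 2) * At t)) - 2 * log 2 := by
  rw [Qz, tanh_At (by linarith) h1, ← Sz_eq_At h0 h1]; ring

end Vale.Agent.P322
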