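import Vale.Agent.P322.Stmt

/-!
The two point inequality follows from its case on the curve of equality.
-/

noncomputable section
namespace Vale.Agent.P322
open Real Filter Topology Set

lemma hasDerivAt_gz {z : ℝ} (hz : 0 < z) : HasDerivAt gz (-(1 / sg z)) z := by
  have ht := tanh_pos' hz
  have hs : sinh z ≠ 0 := (sinh_pos_iff.2 hz).ne'
  have hL : Lc z ≠ 0 := (Lc_pos z).ne'
  refine ((hasDerivAt_xz z).div (hasDerivAt_tanh z) ht.ne').congr_deriv ?_
  rw [sg, xz, tanh_eq_sinh_div_cosh]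
  field_simp
  ring

lemma gz_tendsto : Tendsto gz atTop (𝓝 0) := by
  have h : Tendsto (fun z => xz z / tanh 1) atTop (𝓝 0) := by simpa using xz_tendsto.div_const (tanh 1)
  refine squeeze_zero' (eventually_atTop.2 ⟨1, fun z hz =>
    (div_pos (xz_pos_of_nonneg (by linarith)) (tanh_pos' (by linarith))).le⟩)
    (eventually_atTop.2 ⟨1, fun z hz => ?_⟩) h
  refine div_le_div_of_nonneg_left (xz_pos_of_nonneg (by linarith)).le (tanh_pos' one_pos) ?_
  refine (monotoneOn_of_deriv_nonneg (convex_Ici (0:ℝ))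
    (fun x _ => (hasDerivAt_tanh x).continuousAt.continuousWithinAt)
    (fun x _ => (hasDerivAt_tanh x).differentiableAt.differentiableWithinAt) fun x _ => ?_)
    (show (0:ℝ) ≤ 1 by norm_num) (show (0:ℝ) ≤ z by linarith) hz
  rw [(hasDerivAt_tanh x).deriv]; positivity

lemma Lc_div_antitone : AntitoneOn (fun z => Lc z / z) (Ioi 0) := by
  have hd : ∀ x : ℝ, 0 < x → HasDerivAt (fun z => Lc z / z) (-(xz x / x ^ 2)) x := fun x hx =>
    ((hasDerivAt_Lc x).div (hasDerivAt_id x) hx.ne').congr_deriv (by simp only [id, xz]; ring)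
  refine antitoneOn_of_deriv_nonpos (convex_Ioi 0)
    (fun x hx => (hd x hx).continuousAt.continuousWithinAt) ?_ ?_ <;>
    intro x hx <;> rw [interior_Ioi] at hx
  · exact (hd x hx).differentiableAt.differentiableWithinAt
  · rw [(hd x hx).deriv]
    have := xz_pos_of_nonneg (le_of_lt hx)
    exact neg_nonpos.2 (by positivity)

/-- the loss of weight is small against the artanh distance. -/
lemma weight_gap_le {p : ℝ} (hp : 0 < p) :
    (5 / 4 - tanh p ^ 2 / 4) * tanh p * Lc p ≤ p := by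
  set t := tanh p with ht
  have t0 : 0 < t := tanh_pos' hp
  have t1 : t < 1 := tanh_lt_one' p
  have e1 : t * Lc p = p * (Ez p * (1 - t ^ 2) + t ^ 2) := by
    have hc := cosh_ne p
    have h2 := cosh_sq_sub_sinh_sq p
    have e2 : 1 - t ^ 2 = 1 / cosh p ^ 2 := by
      rw [ht, tanh_eq_sinh_div_cosh]; field_simp; linarith
    rw [e2, ht, Ez, Sz_of_ne hp.ne', sinh_two_mul, tanh_eq_sinh_div_cosh, xz, tanh_eq_sinh_div_cosh]
    field_simp
    ring
  have hE := Ez_le_log_two hp.le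
  have hl := log_two_lt_d9
  set x := t ^ 2 with hx
  have x1 : x < 1 := by rw [hx]; nlinarith
  have x0 : 0 ≤ x := sq_nonneg t
  have key : (5 / 4 - x / 4) * (Ez p * (1 - x) + x) ≤ 1 := by
    have h : Ez p * (1 - x) + x ≤ 0.694 * (1 - x) + x := by nlinarith
    calc _ ≤ (5 / 4 - x / 4) * (0.694 * (1 - x) + x) :=
          mul_le_mul_of_nonneg_left h (by linarith)
      _ ≤ 1 := by nlinarith [mul_nonneg (sub_nonneg.2 x1.le) x0]
  calc _ = p * ((5 / 4 - x / 4) * (Ez p * (1 - x) + x)) := by rw [mul_assoc, e1]; ring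
    _ ≤ p * 1 := mul_le_mul_of_nonneg_left key hp.le
    _ = p := mul_one p

/-- the two artanh coordinates of a pair control its half distance. -/
lemma half_diff_le_tanh {mu mv : ℝ} (a1 : -1 < mv) (h : mv < mu) (b2 : mu < 1) :
    0 < (At mu - At mv) / 2 ∧ (mu - mv) / 2 ≤ tanh ((At mu - At mv) / 2) := by
  have hz : 0 < (At mu - At mv) / 2 := by
    have h1 := log_lt_log (show 0 < 1 + mv by linarith) (show 1 + mv < 1 + mu by linarith)
    have h2 := log_lt_log (show 0 < 1 - mu by linarith) (show 1 - mu < 1 - mv by linarith)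
    simp only [At]; linarith
  refine ⟨hz, ?_⟩
  set z := (At mu - At mv) / 2 with hzd
  set c := (At mu + At mv) / 2 with hc
  have e := hh_two_pair z c
  rw [show c + z = At mu by rw [hzd, hc]; ring, show c - z = At mv by rw [hzd, hc]; ring,
    tanh_At (by linarith) b2, tanh_At a1 (by linarith)] at e
  rw [e, tanh_eq_sinh_div_cosh, div_right_comm, mul_div_cancel_left₀ _ (two_ne_zero' ℝ),
    div_le_div_iff₀ (by positivity [cosh_pos (2 * z), cosh_pos (2 * c)]) (cosh_pos z), sinh_two_mul]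
  have h1 : cosh (2 * z) + 1 = 2 * cosh z ^ 2 := by
    rw [cosh_two_mul]; linarith [cosh_sq_sub_sinh_sq z]
  have hs := sinh_pos_iff.2 hz
  nlinarith [mul_nonneg hs.le (sub_nonneg.2 (one_le_cosh (2 * c)))]

lemma cubic_le {d t : ℝ} (h0 : 0 ≤ d) (h : d ≤ t) (h1 : t ≤ 1) :
    (5 / 4 - d ^ 2 / 4) * d ≤ (5 / 4 - t ^ 2 / 4) * t := by
  have h2 : 0 ≤ 5 - (d ^ 2 + d * t + t ^ 2) := by nlinarith
  nlinarith [mul_nonneg (sub_nonneg.2 h) h2]

/-- the loss of weight at the middle. -/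
lemma Wt_mid_sub_le (mu mv : ℝ) :
    Wt ((mu + mv) / 2) - (Wt mu + Wt mv) / 2
      ≤ (5 / 4 - ((mu - mv) / 2) ^ 2 / 4) * ((mu - mv) / 2) * ((mu - mv) / 2) := by
  simp only [Wt]
  nlinarith [sq_nonneg ((mu + mv) * (mu - mv))]

/-- the slope of the gain stays below `sg`. -/
lemma slope_gap_le {W V d x : ℝ} (hV0 : 0 < V) (hWV : V < W) (hd0 : 0 < d) (hx0 : 0 < x)
    (hgap : (W - V) * Lc x ≤ d * x) :
    Sz (Zi (d * gz x / W)) - Sz (Zi (d * gz x / V)) ≤ sg x := by
  have hW0 : 0 < W := hV0.trans hWV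
  set y := d * gz x with hy
  have y0 : 0 < y := mul_pos hd0 (div_pos (xz_pos_of_nonneg hx0.le) (tanh_pos' hx0))
  set Z1 := Zi (y / W) with hZ1
  set Z2 := Zi (y / V) with hZ2
  rcases le_or_gt Z1 x with h1 | h1
  · have := Sz_strictMono.monotoneOn (show Z1 ∈ Ici (0:ℝ) from Zi_nonneg _) hx0.le h1
    have := Sz_le_sg hx0
    have := Sz_nonneg (show 0 ≤ Z2 from Zi_nonneg _)
    linarith
  have hW2 : y / W ≤ log 2 := by
    by_contra hh
    have : Z1 = 0 := by rw [hZ1]; unfold Zi; rw [dif_neg fun hh' => hh hh'.2]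
    linarith
  have x1e : xz Z1 = y / W := xz_Zi (div_pos y0 hW0) hW2
  have x2e : xz Z2 ≤ y / V := by rw [hZ2, xz_Zi' (div_pos y0 hV0)]; exact min_le_left _ _
  have hS1 := Sz_nonneg (show 0 ≤ Z1 from Zi_nonneg _)
  have hS2 := Sz_nonneg (show 0 ≤ Z2 from Zi_nonneg _)
  have hZ : Z2 ≤ Z1 := Zi_antitone (show (0:ℝ) < y / W from div_pos y0 hW0)
    (show (0:ℝ) < y / V from div_pos y0 hV0) (div_le_div_of_nonneg_left y0.le hV0 hWV.le)
  have hE12 : Ez Z1 ≤ Ez Z2 := Ez_antitone (Zi_nonneg _) (Zi_nonneg _) hZ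
  have hE1x : Ez Z1 ≤ Ez x := Ez_antitone hx0.le (Zi_nonneg _) h1.le
  have hE2 : V * Ez Z1 ≤ y * (1 + Sz Z2) := by
    calc V * Ez Z1 ≤ V * (xz Z2 * (1 + Sz Z2)) := mul_le_mul_of_nonneg_left hE12 hV0.le
      _ ≤ V * (y / V * (1 + Sz Z2)) :=
        mul_le_mul_of_nonneg_left (mul_le_mul_of_nonneg_right x2e (by linarith)) hV0.le
      _ = y * (1 + Sz Z2) := by field_simp
  have hE1 : W * Ez Z1 = y * (1 + Sz Z1) := by rw [Ez, x1e]; field_simp
  have hdiff : y * (Sz Z1 - Sz Z2) ≤ (W - V) * Ez x := by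
    have := mul_le_mul_of_nonneg_left hE1x (sub_nonneg.2 hWV.le)
    linarith
  have hEx : Ez x * (d * x) = y * sinh x ^ 2 := by
    rw [hy, gz, Ez, Sz_of_ne hx0.ne', sinh_two_mul, tanh_eq_sinh_div_cosh]
    have := (sinh_pos_iff.2 hx0).ne'
    field_simp
    ring
  refine le_of_mul_le_mul_left ?_ y0
  rw [sg, mul_div_assoc', le_div_iff₀ (Lc_pos x)]
  have hEpos : 0 ≤ Ez x := mul_nonneg (xz_pos_of_nonneg hx0.le).le (by linarith [Sz_nonneg hx0.le])
  calc y * (Sz Z1 - Sz Z2) * Lc x ≤ (W - V) * Ez x * Lc x :=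
        mul_le_mul_of_nonneg_right hdiff (Lc_pos x).le
    _ = Ez x * ((W - V) * Lc x) := by ring
    _ ≤ Ez x * (d * x) := mul_le_mul_of_nonneg_left hgap hEpos
    _ = y * sinh x ^ 2 := hEx

lemma twoPoint_lt (hE : EdgeIneq) {mu mv η C : ℝ} (a1 : -1 < mv) (hlt : mv < mu) (b2 : mu < 1)
    (hη : 0 < η) (hdd : dd mu mv ≤ C)
    (hC : ∀ z, 0 < z → |mu - mv| / 2 * (z + sg z * gz z) - sg z * η ≤ C) :
    2 * hh ((mu + mv) / 2) - (hh mu + hh mv) + Pi2 (Wt ((mu + mv) / 2)) η
      ≤ C + Pi2 ((Wt mu + Wt mv) / 2) η := by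
  obtain ⟨e1, e2⟩ := hE mu mv a1 hlt b2
  obtain ⟨hp, hdp⟩ := half_diff_le_tanh a1 hlt b2
  set d := (mu - mv) / 2 with hd
  set p := (At mu - At mv) / 2 with hpd
  set W := Wt ((mu + mv) / 2) with hW
  set V := (Wt mu + Wt mv) / 2 with hV
  have hddp : dd mu mv = d * p := by simp only [dd, hd, hpd]; ring
  have hd0 : 0 < d := by rw [hd]; linarith
  have hW0 : 0 < W := Wt_pos (by linarith) (by linarith)
  have hV0 : 0 < V := by
    have := Wt_pos (m := mu) (by linarith) b2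
    have := Wt_pos (m := mv) a1 (by linarith)
    rw [hV]; linarith
  rcases le_or_gt W V with hWV | hWV
  · have := Pi2_mono hW0 hη hWV
    linarith
  let D : ℝ → ℝ := fun x => Pi2 W x - Pi2 V x
  have hDd : ∀ x, 0 < x → HasDerivAt D (Sz (Zi (x / V)) - Sz (Zi (x / W))) x := fun x hx =>
    ((hasDerivAt_Pi2 hW0 hx).sub (hasDerivAt_Pi2 hV0 hx)).congr_deriv (by ring)
  have hZ : ∀ x, 0 < x → Zi (x / V) ≤ Zi (x / W) := fun x hx =>
    Zi_antitone (show (0:ℝ) < x / W from div_pos hx hW0) (show (0:ℝ) < x / V from div_pos hx hV0)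
      (div_le_div_of_nonneg_left hx.le hV0 hWV.le)
  have hgp : ∀ z, 0 < z → 0 < gz z := fun z hz =>
    div_pos (xz_pos_of_nonneg hz.le) (tanh_pos' hz)
  have hDanti : AntitoneOn D (Ioi 0) := by
    refine antitoneOn_of_deriv_nonpos (convex_Ioi 0)
      (fun x hx => (hDd x hx).continuousAt.continuousWithinAt) ?_ ?_ <;>
      intro x hx <;> rw [interior_Ioi] at hx
    · exact (hDd x hx).differentiableAt.differentiableWithinAt
    · rw [(hDd x hx).deriv, sub_nonpos]
      exact Sz_strictMono.monotoneOn (Zi_nonneg _) (Zi_nonneg _) (hZ x hx)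
  rcases le_or_gt (d * gz p) η with hη0 | hη0
  · have : D η ≤ D (d * gz p) := hDanti (mul_pos hd0 (hgp p hp)) hη hη0
    simp only [D] at this
    linarith
  -- below the curve of equality
  obtain ⟨z, hpz, hz⟩ : ∃ z, p ≤ z ∧ d * gz z = η := by
    obtain ⟨b, hb, hb'⟩ := ((gz_tendsto.eventually (gt_mem_nhds (div_pos hη hd0))).and
      (eventually_ge_atTop p)).exists
    obtain ⟨z, hz, hz'⟩ := intermediate_value_Icc' hb'
      (fun x hx => (hasDerivAt_gz (hp.trans_le hx.1)).continuousAt.continuousWithinAt)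
      (show η / d ∈ Icc (gz b) (gz p) from
        ⟨hb.le, (div_le_iff₀ hd0).2 (by linarith [mul_comm d (gz p)])⟩)
    exact ⟨z, hz.1, by rw [hz']; field_simp⟩
  have hz0 : 0 < z := hp.trans_le hpz
  have hCz : d * z ≤ C := by
    have h := hC z hz0
    rw [abs_of_pos (by linarith : 0 < mu - mv), ← hd, ← hz] at h
    linarith
  have hq : (5 / 4 - d ^ 2 / 4) * d * Lc p ≤ p :=
    (mul_le_mul_of_nonneg_right (cubic_le hd0.le hdp (tanh_lt_one' p).le) (Lc_pos p).le).trans
      (weight_gap_le hp)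
  let F : ℝ → ℝ := fun x => d * x - D (d * gz x)
  have hFd : ∀ x, 0 < x → HasDerivAt F
      (d * (1 - (Sz (Zi (d * gz x / W)) - Sz (Zi (d * gz x / V))) / sg x)) x := fun x hx => by
    have h1 := (hDd (d * gz x) (mul_pos hd0 (hgp x hx))).comp x ((hasDerivAt_gz hx).const_mul d)
    have h2 := ((hasDerivAt_id x).const_mul d).sub h1
    exact h2.congr_deriv (by ring)
  have hF : MonotoneOn F (Ici p) := by
    refine monotoneOn_of_deriv_nonneg (convex_Ici p)
      (fun x hx => (hFd x (hp.trans_le hx)).continuousAt.continuousWithinAt) ?_ ?_ <;>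
      intro x hx <;> rw [interior_Ici] at hx <;> have hx0 : 0 < x := hp.trans hx
    · exact (hFd x hx0).differentiableAt.differentiableWithinAt
    rw [(hFd x hx0).deriv]
    have hsg : 0 < sg x := div_pos (pow_pos (sinh_pos_iff.2 hx0) 2) (Lc_pos x)
    refine mul_nonneg hd0.le ?_
    rw [sub_nonneg, div_le_one hsg]
    refine slope_gap_le hV0 hWV hd0 hx0 ?_
    have hL : Lc x * p ≤ Lc p * x := by
      have h := Lc_div_antitone (show p ∈ Ioi (0:ℝ) from hp) (show x ∈ Ioi (0:ℝ) from hx0) hx.le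
      simpa [div_le_div_iff₀ hx0 hp] using h
    refine le_of_mul_le_mul_right ?_ hp
    calc (W - V) * Lc x * p = (W - V) * (Lc x * p) := by ring
      _ ≤ (W - V) * (Lc p * x) := mul_le_mul_of_nonneg_left hL (sub_nonneg.2 hWV.le)
      _ ≤ (5 / 4 - d ^ 2 / 4) * d * d * (Lc p * x) :=
        mul_le_mul_of_nonneg_right (Wt_mid_sub_le mu mv) (mul_nonneg (Lc_pos p).le hx0.le)
      _ = d * x * ((5 / 4 - d ^ 2 / 4) * d * Lc p) := by ring
      _ ≤ d * x * p := mul_le_mul_of_nonneg_left hq (by positivity)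
  have := hF self_mem_Ici hpz hpz
  simp only [F, D, hz] at this
  linarith

/-- the two point inequality. -/
theorem twoPoint_of_edge (hE : EdgeIneq) : TwoPoint := by
  intro mu mv η C a1 a2 b1 b2 hη _ hdd hC
  rcases lt_trichotomy mu mv with h | h | h
  · have hdd' : dd mv mu ≤ C := by rwa [dd_comm]
    have hC' : ∀ z, 0 < z → |mv - mu| / 2 * (z + sg z * gz z) - sg z * η ≤ C := by
      intro z hz; rw [abs_sub_comm]; exact hC z hz
    have := twoPoint_lt hE a1 h b2 hη hdd' hC'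
    rwa [add_comm mu mv, add_comm (hh mu), add_comm (Wt mu)]
  · subst h
    simp only [dd, sub_self, zero_mul, zero_div] at hdd
    rw [show (mu + mu) / 2 = mu by ring, show (Wt mu + Wt mu) / 2 = Wt mu by ring]
    linarith
  · exact twoPoint_lt hE b1 h a2 hη hdd hC

end Vale.Agent.P322
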