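import Vale.Agent.P322.GoalDef

namespace Vale.Agent.P322.Cert
open Real

lemma At_eq {t : ℝ} (h0 : -1 < t) (h1 : t < 1) :
    At t = log (1 + t) - log (1 - t ^ 2) / 2 := by
  rw [show 1 - t ^ 2 = (1 + t) * (1 - t) by ring, log_mul (by linarith) (by linarith), At]; ring

lemma log_one_add_le {s : ℝ} (h0 : 0 ≤ s) : log (1 + s) ≤ log 2 - (1 - s) / 2 := by
  have := log_le_sub_one_of_pos (show 0 < (1 + s) / 2 by linarith)
  rw [log_div (by linarith) two_ne_zero] at this
  linarith

lemma neg_log_le {B : ℝ} (h1 : B < 1) : -log (1 - B) ≤ B / (1 - B) := by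
  have := log_le_sub_one_of_pos (show 0 < 1 / (1 - B) by positivity [sub_pos.2 h1])
  rw [one_div, log_inv] at this
  have e : (1 - B)⁻¹ - 1 = B / (1 - B) := by
    have : (1:ℝ) - B ≠ 0 := by linarith
    field_simp; ring
  linarith

lemma coth_At_le {s : ℝ} (h0 : 0 < s) (h1 : s < 1) :
    (1 + s ^ 2) * At s / s ≤ -log (1 - s ^ 2) + 2 * log 2 := by
  have hb : s ^ 2 < 1 := by nlinarith
  have hw0 : 0 ≤ -log (1 - s ^ 2) := by
    linarith [log_nonpos (by linarith : (0:ℝ) ≤ 1 - s ^ 2) (by nlinarith)]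
  have hL := log_two_gt_d9
  have hL' := log_two_lt_d9
  have hws := neg_log_le hb
  rw [div_le_iff₀ h0, At_eq (by linarith) h1]
  set w := -log (1 - s ^ 2) with hw
  have e : log (1 - s ^ 2) = -w := by simp [hw]
  rw [e]
  have hex : (1 - s) ^ 2 * w ≤ s ^ 2 * (1 - s) / (1 + s) := by
    refine (mul_le_mul_of_nonneg_left hws (sq_nonneg _)).trans_eq ?_
    rw [show 1 - s ^ 2 = (1 - s) * (1 + s) by ring]
    have : (1:ℝ) - s ≠ 0 := by linarith
    have : (1:ℝ) + s ≠ 0 := by linarith
    field_simp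
  have main : (1 + s ^ 2) * log (1 + s) + s ^ 2 * (1 - s) / (2 * (1 + s)) ≤ 2 * log 2 * s := by
    rcases le_or_gt s (3 / 10) with hs | hs
    · have := log_le_sub_one_of_pos (show 0 < 1 + s by linarith)
      have h2 : s ^ 2 * (1 - s) / (2 * (1 + s)) ≤ s ^ 2 / 2 := by
        rw [div_le_div_iff₀ (by positivity) two_pos]; nlinarith [sq_nonneg s]
      nlinarith
    · have := log_one_add_le h0.le
      have h3 : s ^ 2 / (1 + s) ≤ s ^ 2 / (13 / 10) := by gcongr; linarith
      have h4 : 2 * log 2 * (1 - s) + s ^ 2 / (1 + s) ≤ 1 + s ^ 2 := by nlinarith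
      have h5 : s ^ 2 * (1 - s) / (2 * (1 + s)) = s ^ 2 / (1 + s) * ((1 - s) / 2) := by
        field_simp
      nlinarith [mul_le_mul_of_nonneg_left h4 (by linarith : (0:ℝ) ≤ (1 - s) / 2)]
  have : s ^ 2 * (1 - s) / (2 * (1 + s)) = s ^ 2 * (1 - s) / (1 + s) / 2 := by field_simp
  nlinarith

lemma xz_small {p : ℝ} (hp : 949 / 100 ≤ p) : xz p ≤ 1 / 1000 := by
  set v := 2 * p with hv
  have hv1 : 1898 / 100 ≤ v := by linarith
  have h1 : log (1 + exp (-v)) ≤ exp (-v) := by
    linarith [log_le_sub_one_of_pos (show 0 < 1 + exp (-v) by positivity)]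
  have h2 : 1 - tanh p ≤ 2 * exp (-v) := by
    rw [one_sub_tanh, div_le_iff₀ (cosh_pos p), cosh_eq, hv, show -(2 * p) = -p + -p by ring, exp_add]
    have e : exp p * exp (-p) = 1 := by rw [← exp_add]; simp
    nlinarith [exp_pos (-p), mul_pos (exp_pos (-p)) (exp_pos (-p))]
  have h3 : v ^ 6 / 720 ≤ exp v := by
    have := pow_div_factorial_le_exp v (by linarith : 0 ≤ v) 6
    simpa [Nat.factorial] using this
  have h4 : exp (-v) * exp v = 1 := by rw [← exp_add]; simp
  have h5 : (1898 / 100 : ℝ) ^ 5 ≤ v ^ 5 := pow_le_pow_left₀ (by norm_num) hv1 5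
  have h6 : (v + 1) * 720000 ≤ v ^ 6 := by nlinarith
  have h7 : (v + 1) * exp (-v) ≤ 1 / 1000 := by
    have := mul_le_mul_of_nonneg_left h3 (exp_pos (-v)).le
    nlinarith [mul_le_mul_of_nonneg_left h6 (exp_pos (-v)).le]
  rw [xz_eq_exp, show -(2 * p) = -v by rw [hv]]
  nlinarith [mul_le_mul_of_nonneg_left h2 (show 0 ≤ p by linarith)]

lemma lhs_bound {A B : ℝ} (A0 : 0 < A) (A1 : A < 1) (B0 : 0 < B) (B1 : B < 1) {Q p : ℝ} (Q0 : 0 ≤ Q) (hQ : Q ≤ p - log 2 + 1 / 1000) :
    max 0 (1 - kapR A B / 4) * (Q + log 2 * log (1 + A * B * (1 - A) / (1 - A * B))) ≤ p - 21 / 100 := by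
  have hL := log_two_gt_d9
  have hL' := log_two_lt_d9
  have AB1 : A * B < 1 := by nlinarith
  have D0 : 0 < 1 - A * B := by linarith
  have hr : log (1 + A * B * (1 - A) / (1 - A * B)) ≤ log 2 ∧ 0 ≤ log (1 + A * B * (1 - A) / (1 - A * B)) := by
    have h1 : A * B * (1 - A) / (1 - A * B) ≤ 1 := by
      rw [div_le_one D0]; nlinarith [mul_pos A0 B0]
    have h2 : 0 ≤ A * B * (1 - A) / (1 - A * B) :=
      div_nonneg (mul_nonneg (by positivity) (by linarith)) D0.le
    exact ⟨log_le_log (by linarith) (by linarith), log_nonneg (by linarith)⟩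
  have hk0 : 0 ≤ kapR A B := by
    refine div_nonneg (mul_nonneg (by linarith) (add_nonneg ?_ (mul_nonneg ?_ ?_))) (by positivity)
    · exact mul_nonneg (mul_nonneg B0.le (by linarith)) A0.le
    · nlinarith
    · nlinarith
  refine le_trans (mul_le_of_le_one_left (add_nonneg Q0 (mul_nonneg (by linarith) hr.2))
    (max_le zero_le_one (by linarith))) ?_
  nlinarith [mul_le_mul_of_nonneg_left hr.1 (show (0:ℝ) ≤ log 2 by linarith)]

lemma TT_le_TTt {A s : ℝ} (A0 : 0 < A) (A1 : A < 1) (s0 : 0 < s) (s1 : s < 1) : TT A s ≤ TTt A s := by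
  set B := s ^ 2 with hB
  have B0 : 0 < B := by positivity
  have B1 : B < 1 := by rw [hB]; nlinarith
  have hTT0 := TT_nonneg A0.le A1 s0 s1
  rw [TTt, le_div_iff₀ (by have : (0:ℝ) < 1 - B := by linarith
                           positivity), mul_comm]
  refine mul_le_mul_of_nonneg_right ?_ hTT0
  rw [← hB]
  have h1 : 1 - B ≤ 1 - A * B := by nlinarith
  have h2 := pow_le_pow_left₀ (by linarith) h1 2
  nlinarith

lemma TT_lower {A s : ℝ} (A0 : 0 < A) (A1 : A < 1) (s0 : 0 < s) (s1 : s < 1) :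
    -log (1 - A) - -log (1 - s ^ 2) - 2 * log 2 ≤ TT A s := by
  set B := s ^ 2 with hB
  have B0 : 0 < B := by positivity
  have B1 : B < 1 := by rw [hB]; nlinarith
  have D0 : 0 < 1 - A * B := by nlinarith
  set Lam := -log (1 - A) with hLam
  set w := -log (1 - B) with hw
  have h1 := coth_At_le s0 s1
  rw [← hB, ← hw] at h1
  have h2 : log (1 - A * B) ≤ log (1 - A ^ 2 * B) := by
    refine log_le_log D0 ?_
    nlinarith [mul_le_mul_of_nonneg_right (show A ^ 2 ≤ A by nlinarith) B0.le]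
  have h3 : (1 + B) * At (A * s) / s ≤ (1 + B) * At s / s := by
    refine div_le_div_of_nonneg_right (mul_le_mul_of_nonneg_left ?_ (by linarith)) s0.le
    exact At_mono (by nlinarith) (by nlinarith) s1
  simp only [TT, ← hB, ← hLam]
  linarith

lemma gy_lower {A B : ℝ} (A0 : 0 < A) (A1 : A < 1) (B0 : 0 < B) (B1 : B < 1) (hA' : 99 / 100 ≤ A) (heps : 1 - A ≤ 202 / 10000000000) :
    14999 / 10000 ≤ gyR A B := by
  have D0 : 0 < 1 - A * B := by nlinarith
  have hphi : 3 / 4 ≤ phiR A B :=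
    le_add_of_nonneg_right (div_nonneg (mul_nonneg (by linarith) (by linarith)) (by linarith))
  have h1 : (1 + A * B) / (1 - A * B) * (1 - A) ≤ 2 := by
    rw [div_mul_eq_mul_div, div_le_iff₀ D0]; nlinarith [mul_pos A0 B0]
  have h2 : (1 + A * B) / (1 - A * B) * (1 - A) ^ 2 / (4 * A) ≤ 1 / 10000 := by
    rw [div_le_iff₀ (by positivity), sq, ← mul_assoc]
    nlinarith
  simp only [gyR]; linarith

lemma y_lower {A B : ℝ} (A0 : 0 < A) (A1 : A < 1) (B0 : 0 < B) (B1 : B < 1) {x p : ℝ} (hx0 : 0 < x) (p0 : 0 < p)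
    (hx1 : x ≤ (2 * p + 101 / 100) / (3999 / 1000)) :
    log (1 / (1 - A * B)) + 73 / 100 - log (2 * p + 101 / 100)
      ≤ log ((1 + A * B) / (1 - A * B) * phiR A B * log 2 / x) := by
  have hL := log_two_gt_d9
  have D0 : 0 < 1 - A * B := by nlinarith
  have hphi : 3 / 4 ≤ phiR A B :=
    le_add_of_nonneg_right (div_nonneg (mul_nonneg (by linarith) (by linarith)) (by linarith))
  set y := (1 + A * B) / (1 - A * B) * phiR A B * log 2 / x with hy
  have hxp : 0 < x := hx0
  have hlow : 1 / (1 - A * B) * (3 / 4 * (6931 / 10000) * (3999 / 1000)) / (2 * p + 101 / 100) ≤ y := by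
    rw [hy]
    refine le_trans (le_of_eq ?_) (div_le_div₀
      (mul_nonneg (mul_nonneg (div_nonneg (by positivity) D0.le) (by linarith)) (by linarith))
      (mul_le_mul (mul_le_mul (div_le_div_of_nonneg_right (show (1:ℝ) ≤ 1 + A * B by nlinarith) D0.le) hphi
        (by norm_num) (div_nonneg (by positivity) D0.le)) (show 6931 / 10000 ≤ log 2 by linarith) (by norm_num)
        (mul_nonneg (div_nonneg (by positivity) D0.le) (by linarith))) hxp hx1)
    field_simp
  have hl := log_le_log (by positivity) hlow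
  rw [log_div (by positivity) (by positivity), log_mul (by positivity) (by norm_num)] at hl
  have h7 : 73 / 100 ≤ log (3 / 4 * (6931 / 10000) * (3999 / 1000) : ℝ) := by
    have h8 := log_le_sub_one_of_pos (show (0:ℝ) < 2 / (3 / 4 * (6931 / 10000) * (3999 / 1000)) by norm_num)
    rw [log_div two_ne_zero (by norm_num)] at h8
    norm_num at h8 ⊢
    linarith
  linarith

lemma log_lin {p : ℝ} (p0 : 0 < p) :
    log (2 * p + 101 / 100) ≤ 303 / 100 + (2 * p + 101 / 100 - 20) / 20 := by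
  have hL' := log_two_lt_d9
  have h1 := log_le_sub_one_of_pos (show 0 < (2 * p + 101 / 100) / 20 by positivity)
  rw [log_div (by positivity) (by norm_num)] at h1
  have h2 : log (20:ℝ) = 4 * log 2 + log (5 / 4) := by
    rw [show (20:ℝ) = 2 ^ 4 * (5 / 4) by norm_num, log_mul (by norm_num) (by norm_num), log_pow]
    norm_num
  have h3 := log_le_sub_one_of_pos (show (0:ℝ) < 5 / 4 by norm_num)
  linarith

lemma log_inv_D {A B : ℝ} (A0 : 0 < A) (A1 : A < 1) (B0 : 0 < B) (B1 : B < 1) :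
    min (-log (1 - B)) (-log (1 - A)) - log 2 ≤ log (1 / (1 - A * B)) := by
  have D0 : 0 < 1 - A * B := by nlinarith
  set w := -log (1 - B) with hw
  set Lam := -log (1 - A) with hLam
  rw [one_div, log_inv]
  have : 1 - A * B ≤ 2 * max (1 - A) (1 - B) := by
    have := le_max_left (1 - A) (1 - B); have := le_max_right (1 - A) (1 - B)
    nlinarith [mul_nonneg (show 0 ≤ 1 - A by linarith) (show 0 ≤ 1 - B by linarith)]
  have h2 := log_le_log D0 this
  rw [log_mul two_ne_zero (by have := le_max_left (1 - A) (1 - B); linarith)] at h2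
  rcases max_choice (1 - A) (1 - B) with e | e <;> rw [e] at h2
  · have := min_le_right w Lam; linarith
  · have := min_le_left w Lam; linarith

lemma tail_arith {a p Lam w T Tt c l ly d : ℝ} (hp : 949 / 100 ≤ p) (h1 : a ≤ p - 21 / 100)
    (h2 : T ≤ Tt) (h3 : Lam - w - 2 * log 2 ≤ T) (h4 : 0 ≤ T) (h5 : c + 73 / 100 - l ≤ ly)
    (h6 : l ≤ 303 / 100 + (2 * p + 101 / 100 - 20) / 20) (h7 : min w Lam - log 2 ≤ c)
    (h8 : 14999 / 20000 * ly ≤ d) (h9 : 2 * p - 2 * log 2 ≤ Lam) : a ≤ Tt + d := by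
  have hL := log_two_gt_d9
  have hL' := log_two_lt_d9
  rcases le_total w Lam with h | h
  · rw [min_eq_left h] at h7; linarith
  · rw [min_eq_right h] at h7; linarith

/-- the analytic tail. -/
theorem goal_tail {t s : ℝ} (ht : 1 - 101 / 10000000000 ≤ t) (t1 : t < 1) (s0 : 0 < s) (s1 : s < 1) :
    Goal t s := by
  have hL := log_two_gt_d9
  have hL' := log_two_lt_d9
  have t0 : 0 < t := by linarith
  unfold Goal
  set A := t ^ 2 with hA
  set B := s ^ 2 with hB
  have A0 : 0 < A := by positivity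
  have A1 : A < 1 := by rw [hA]; nlinarith
  have B0 : 0 < B := by positivity
  have B1 : B < 1 := by rw [hB]; nlinarith
  have hA' : 99 / 100 ≤ A := by rw [hA]; nlinarith
  have heps : 1 - A ≤ 202 / 10000000000 := by rw [hA]; nlinarith
  have AB1 : A * B < 1 := by nlinarith
  have D0 : 0 < 1 - A * B := by linarith
  set p := At t with hp
  set Lam := -log (1 - A) with hLam
  have hLamlow : 176 / 10 ≤ Lam := by
    have h1 : log (1 - A) ≤ log (202 / 10000000000) := log_le_log (by linarith) heps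
    have h2 : log ((2:ℝ) ^ 25 * (202 / 10000000000)) ≤ (2:ℝ) ^ 25 * (202 / 10000000000) - 1 :=
      log_le_sub_one_of_pos (by norm_num)
    rw [log_mul (by norm_num) (by norm_num), log_pow] at h2
    norm_num at h2 ⊢
    linarith
  have hpL : p = log (1 + t) + Lam / 2 := by
    rw [hp, At_eq (by linarith) t1, hLam, ← hA]; ring
  have ht2 : log 2 - 1 / 100000 ≤ log (1 + t) := by
    have := log_le_sub_one_of_pos (show 0 < 2 / (1 + t) by positivity)
    rw [log_div two_ne_zero (by linarith)] at this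
    have : 2 / (1 + t) ≤ 1 + 1 / 100000 := by rw [div_le_iff₀ (by linarith)]; linarith
    linarith
  have ht3 : log (1 + t) ≤ log 2 := log_le_log (by linarith) (by linarith)
  have hp95 : 949 / 100 ≤ p := by linarith
  have p0 : 0 < p := by linarith
  -- the entropy coordinate
  have hx : xz p = log 2 - log (1 + t) + p * (1 - t) := by
    rw [hp, xz_At (by linarith) t1, ← hA, one_div, log_inv, ← hLam, ← hp, hpL]; ring
  have hx1 : xz p / (1 - A) ≤ (2 * p + 101 / 100) / (3999 / 1000) := by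
    rw [hx, hA, show 1 - t ^ 2 = (1 - t) * (1 + t) by ring, div_le_iff₀ (by nlinarith)]
    have h2 : log 2 - log (1 + t) ≤ (1 - t) / (1 + t) := by
      have := log_le_sub_one_of_pos (show 0 < 2 / (1 + t) by positivity)
      rw [log_div two_ne_zero (by linarith)] at this
      have e : 2 / (1 + t) - 1 = (1 - t) / (1 + t) := by
        have : (1:ℝ) + t ≠ 0 := by linarith
        field_simp; ring
      linarith
    refine (add_le_add h2 le_rfl).trans ?_
    have h3 : (1 - t) / (1 + t) ≤ (1 - t) / (19999 / 10000) := by gcongr <;> linarith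
    nlinarith [mul_nonneg (sub_nonneg.2 t1.le) p0.le, mul_nonneg (mul_nonneg (sub_nonneg.2 t1.le) p0.le) (sub_nonneg.2 t1.le)]
  have hxs : xz p ≤ 1 / 1000 := xz_small hp95
  -- left side
  have hQ : Qz p ≤ p - log 2 + 1 / 1000 := by
    have hE := Ez_le_log_two p0.le
    have : p * tanh p ≤ p := by nlinarith [tanh_lt_one' p]
    simp only [Ez] at hE
    simp only [Qz]; linarith
  have lhs := lhs_bound A0 A1 B0 B1 (Qz_nonneg p0.le) hQ
  have hTTt := TT_le_TTt A0 A1 s0 s1
  set w := -log (1 - B) with hw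
  have hT : Lam - w - 2 * log 2 ≤ TT A s := TT_lower A0 A1 s0 s1
  have hTT0 := TT_nonneg A0.le A1 s0 s1
  have hgy := gy_lower A0 A1 B0 B1 hA' heps
  set y := (1 + A * B) / (1 - A * B) * phiR A B * log 2 / (xz p / (1 - A)) with hy
  have hy0 := y_lower A0 A1 B0 B1 (div_pos (xz_pos_of_nonneg p0.le) (by linarith : 0 < 1 - A)) p0 hx1
  rw [← hy] at hy0
  have hln := log_lin p0
  have hcase : min w Lam - log 2 ≤ log (1 / (1 - A * B)) := log_inv_D A0 A1 B0 B1
  have hdn : 14999 / 20000 * log y ≤ max 0 (gyR A B) / 2 * max 0 (log y) := by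
    clear_value y
    exact le_trans (mul_le_mul_of_nonneg_left (le_max_right 0 (log y)) (by norm_num))
      (mul_le_mul_of_nonneg_right (by have := le_max_right 0 (gyR A B); linarith) (le_max_left _ _))
  exact tail_arith hp95 lhs hTTt hT hTT0 hy0 hln hcase hdn (by linarith)

end Vale.Agent.P322.Cert
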