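import Vale.Agent.P322.Cover
import Vale.Agent.P322.Tail

namespace Vale.Agent.P322.Cert
open Real

theorem goal_all (t s : ℝ) (ht : 11 / 25 ≤ t) (t1 : t < 1) (s0 : 0 < s) (s1 : s < 1) : Goal t s := by
  have hp : ((PP : ℕ) : ℝ) = 79228162514264337593543950336 := by
    unfold PP; norm_num
  rcases le_total t (rv 79228161721919033552488366080) with h | h
  · refine goal_of_certificate (le_trans ?_ ht) h s0 s1
    rw [rv, hp]; norm_num
  · refine goal_tail (le_trans ?_ h) t1 s0 s1
    rw [rv, hp]; norm_num

end Vale.Agent.P322.Cert
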