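import Vale.Agent.P322.Edge0

namespace Vale.Agent.P322.Cert
open Real

noncomputable def kapR (A B : ℝ) : ℝ :=
  (1 - A) * (B * (1 - A) * A + (1 - A ^ 2 * B) * (1 + A * B)) / (A * (1 - A * B) ^ 2)
noncomputable def phiR (A B : ℝ) : ℝ := 3 / 4 + (1 - A) * (1 - B) / (4 * (1 - A * B))
noncomputable def gyR (A B : ℝ) : ℝ :=
  2 * phiR A B - (1 + A * B) / (1 - A * B) * (1 - A) ^ 2 / (4 * A)

/-- the edge derivative inequality at `t = tanh p`, `s = tanh q`. -/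
def Goal (t s : ℝ) : Prop :=
  max 0 (1 - kapR (t ^ 2) (s ^ 2) / 4) *
      (Qz (At t) + log 2 * log (1 + t ^ 2 * s ^ 2 * (1 - t ^ 2) / (1 - t ^ 2 * s ^ 2)))
    ≤ TTt (t ^ 2) s + max 0 (gyR (t ^ 2) (s ^ 2)) / 2 *
      max 0 (log ((1 + t ^ 2 * s ^ 2) / (1 - t ^ 2 * s ^ 2) * phiR (t ^ 2) (s ^ 2) * log 2
        / (xz (At t) / (1 - t ^ 2))))

end Vale.Agent.P322.Cert
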