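import Vale.Agent.P322.Cube

noncomputable section
namespace Vale.Agent.P322
open Real Set Finset

def sgn (b : Bool) : ℝ := if b then 1 else -1

lemma sgn_sq (b : Bool) : sgn b * sgn b = 1 := by cases b <;> simp [sgn]

lemma sgn_not (b : Bool) : sgn (!b) = -sgn b := by cases b <;> simp [sgn]

/-- noise kernel. -/
def ker {n : ℕ} (r : ℝ) (x y : Cube n) : ℝ := ∏ i, (1 + r * (sgn (x i) * sgn (y i))) / 2

/-- noise operator. -/
def Tn {n : ℕ} (r : ℝ) (F : Cube n → ℝ) (x : Cube n) : ℝ := ∑ y, ker r x y * F y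

def Tn' {n : ℕ} (r : ℝ) (F : Cube n → ℝ) (x : Cube n) : ℝ :=
  ∑ y, (∑ i, (∏ j ∈ univ.erase i, (1 + r * (sgn (x j) * sgn (y j))) / 2)
    * (sgn (x i) * sgn (y i) / 2)) * F y

lemma hasDerivAt_Tn {n : ℕ} (r : ℝ) (F : Cube n → ℝ) (x : Cube n) :
    HasDerivAt (fun r => Tn r F x) (Tn' r F x) r := by
  refine HasDerivAt.fun_sum fun y _ => HasDerivAt.mul_const ?_ _
  have hk : ∀ i ∈ (univ : Finset (Fin n)),
      HasDerivAt (fun r : ℝ => (1 + r * (sgn (x i) * sgn (y i))) / 2) (sgn (x i) * sgn (y i) / 2) r :=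
    fun i _ => ((((hasDerivAt_id r).mul_const (sgn (x i) * sgn (y i))).const_add 1).div_const 2).congr_deriv (by ring)
  refine (HasDerivAt.fun_finsetProd hk).congr_deriv ?_
  simp [smul_eq_mul]

lemma Tn_deriv_eq {n : ℕ} (r : ℝ) (F : Cube n → ℝ) (x : Cube n) :
    r * Tn' r F x = ∑ i, (Tn r F x - Tn r F (flipAt i x)) / 2 := by
  simp only [Tn, Tn', ← Finset.sum_sub_distrib, Finset.sum_div, Finset.mul_sum]
  rw [Finset.sum_comm]
  refine Finset.sum_congr rfl fun y _ => ?_
  rw [Finset.sum_mul, Finset.mul_sum]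
  refine Finset.sum_congr rfl fun i _ => ?_
  simp only [ker]
  rw [← Finset.mul_prod_erase univ _ (mem_univ i)]
  rw [← Finset.mul_prod_erase univ (fun j => (1 + r * (sgn (flipAt i x j) * sgn (y j))) / 2) (mem_univ i)]
  have e : ∏ j ∈ univ.erase i, (1 + r * (sgn (flipAt i x j) * sgn (y j))) / 2
      = ∏ j ∈ univ.erase i, (1 + r * (sgn (x j) * sgn (y j))) / 2 := by
    refine Finset.prod_congr rfl fun j hj => ?_
    simp [flipAt, Function.update_of_ne (Finset.ne_of_mem_erase hj)]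
  rw [e]
  simp only [flipAt, Function.update_self, sgn_not]
  ring

lemma ker_comm {n : ℕ} (r : ℝ) (x y : Cube n) : ker r x y = ker r y x := by
  simp [ker, mul_comm]

lemma sum_ker {n : ℕ} (r : ℝ) (x : Cube n) : ∑ y, ker r x y = 1 := by
  simp only [ker]
  rw [← Fintype.prod_sum (fun i b => (1 + r * (sgn (x i) * sgn b)) / 2)]
  refine Finset.prod_eq_one fun i _ => ?_
  simp [sgn]; ring

lemma ker_one {n : ℕ} (x y : Cube n) : ker 1 x y = if y = x then 1 else 0 := by
  by_cases h : y = x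
  · subst h; simp [ker, sgn_sq]
  · rw [if_neg h]
    obtain ⟨i, hi⟩ : ∃ i, y i ≠ x i := by
      by_contra hh; exact h (funext fun i => not_not.1 fun hi => hh ⟨i, hi⟩)
    refine Finset.prod_eq_zero (mem_univ i) ?_
    cases hx : x i <;> cases hy : y i <;> simp_all [sgn]

lemma ker_pos {n : ℕ} {r : ℝ} (h0 : 0 ≤ r) (h1 : r < 1) (x y : Cube n) : 0 < ker r x y := by
  refine Finset.prod_pos fun i _ => ?_
  cases x i <;> cases y i <;> simp [sgn] <;> linarith

lemma Ex_Tn {n : ℕ} (r : ℝ) (F : Cube n → ℝ) : Ex (fun x => Tn r F x) = Ex F := by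
  simp only [Ex, Tn]
  rw [Finset.sum_comm]
  congr 1
  refine Finset.sum_congr rfl fun y _ => ?_
  rw [← Finset.sum_mul]
  simp [ker_comm r _ y, sum_ker]

lemma Tn_mem {n : ℕ} {r : ℝ} (h0 : 0 ≤ r) (h1 : r < 1) {F : Cube n → ℝ}
    (hF : ∀ x, |F x| ≤ 1) (hp : ∃ a, F a < 1) (hm : ∃ a, -1 < F a) (x : Cube n) :
    -1 < Tn r F x ∧ Tn r F x < 1 := by
  obtain ⟨a, ha⟩ := hp
  obtain ⟨b, hb⟩ := hm
  constructor
  · calc (-1:ℝ) = ∑ y, ker r x y * (-1) := by simp [Finset.sum_neg_distrib, sum_ker]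
      _ < Tn r F x := Finset.sum_lt_sum (fun y _ => mul_le_mul_of_nonneg_left (abs_le.1 (hF y)).1 (ker_pos h0 h1 x y).le)
        ⟨b, mem_univ b, mul_lt_mul_of_pos_left hb (ker_pos h0 h1 x b)⟩
  · calc Tn r F x < ∑ y, ker r x y * 1 :=
          Finset.sum_lt_sum (fun y _ => mul_le_mul_of_nonneg_left (abs_le.1 (hF y)).2 (ker_pos h0 h1 x y).le)
            ⟨a, mem_univ a, mul_lt_mul_of_pos_left ha (ker_pos h0 h1 x a)⟩
      _ = 1 := by simp [sum_ker]

/-- entropy deficit of a noisy copy. -/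
def Info {n : ℕ} (r : ℝ) (F : Cube n → ℝ) : ℝ := Ex (fun x => phi (Tn r F x))

lemma continuous_Info {n : ℕ} (F : Cube n → ℝ) : Continuous fun r => Info r F := by
  refine (continuous_finsetSum _ fun x _ => continuous_phi.comp ?_).div_const _
  exact continuous_iff_continuousAt.2 fun r => (hasDerivAt_Tn r F x).continuousAt

lemma flipAt_flipAt {n : ℕ} (i : Fin n) (x : Cube n) : flipAt i (flipAt i x) = x := by
  simp [flipAt]

lemma Ex_flip {n : ℕ} (i : Fin n) (f : Cube n → ℝ) : Ex (fun x => f (flipAt i x)) = Ex f := by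
  simp only [Ex]
  congr 1
  exact (Equiv.sum_comp ⟨flipAt i, flipAt i, flipAt_flipAt i, flipAt_flipAt i⟩ f)

lemma hasDerivAt_Info {n : ℕ} {r : ℝ} (h0 : 0 < r) (h1 : r < 1) {F : Cube n → ℝ}
    (hF : ∀ x, |F x| ≤ 1) (hp : ∃ a, F a < 1) (hm : ∃ a, -1 < F a) :
    HasDerivAt (fun r => Info r F) (Dis (Tn r F) / r) r := by
  have h : HasDerivAt (fun r => Info r F) ((∑ x, At (Tn r F x) * Tn' r F x) / 2 ^ n) r := by
    refine (HasDerivAt.fun_sum fun x _ => ?_).div_const _
    obtain ⟨a, b⟩ := Tn_mem h0.le h1 hF hp hm x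
    exact (hasDerivAt_phi a b).comp r (hasDerivAt_Tn r F x)
  refine h.congr_deriv ?_
  rw [eq_div_iff h0.ne']
  set g := Tn r F
  have e : (∑ x, At (g x) * Tn' r F x) / 2 ^ n * r
      = ∑ i, Ex (fun x => At (g x) * ((g x - g (flipAt i x)) / 2)) := by
    simp only [Ex, ← Finset.sum_div]
    rw [Finset.sum_comm, div_mul_eq_mul_div, Finset.sum_mul]
    congr 1
    refine Finset.sum_congr rfl fun x _ => ?_
    rw [← Finset.mul_sum, ← Tn_deriv_eq r F x]; ring
  rw [e, Dis]
  refine Finset.sum_congr rfl fun i _ => ?_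
  have h2 := Ex_flip i (fun x => At (g x) * ((g x - g (flipAt i x)) / 2))
  simp only [flipAt_flipAt] at h2
  have e2 : (fun x => dd (g x) (g (flipAt i x))) = fun x =>
      1 / 2 * (At (g x) * ((g x - g (flipAt i x)) / 2))
      + 1 / 2 * (At (g (flipAt i x)) * ((g (flipAt i x) - g x) / 2)) := by
    funext x; simp only [dd]; ring
  rw [e2, Ex_add, Ex_mul_left, Ex_mul_left, h2]
  ring

lemma phi_le_log_two {t : ℝ} (h : |t| ≤ 1) : phi t ≤ log 2 := by
  rcases lt_or_eq_of_le h with h' | h'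
  · obtain ⟨a, b⟩ := abs_lt.1 h'
    have := hh_pos a b
    simp only [hh] at this
    linarith
  · rcases abs_eq (zero_le_one : (0:ℝ) ≤ 1) |>.1 h' with e | e <;> subst e <;> simp [phi] <;> norm_num

/-- main comparison. -/
theorem Info_le_phi (hK : TwoPoint) {n : ℕ} {F : Cube n → ℝ} (hF : ∀ x, |F x| ≤ 1)
    (h0 : Ex F = 0) {r : ℝ} (hr0 : 0 < r) (hr1 : r < 1) : Info r F ≤ phi r := by
  have hp : ∃ a, F a < 1 := by
    by_contra hh
    have : ∀ x, 1 ≤ F x := fun x => not_lt.1 fun h => hh ⟨x, h⟩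
    have := Ex_le (f := fun _ => (1:ℝ)) this
    rw [Ex_const, h0] at this; linarith
  have hm : ∃ a, -1 < F a := by
    by_contra hh
    have : ∀ x, F x ≤ -1 := fun x => not_lt.1 fun h => hh ⟨x, h⟩
    have := Ex_le (g := fun _ => (-1:ℝ)) this
    rw [Ex_const, h0] at this; linarith
  by_contra hlt
  rw [not_le] at hlt
  obtain ⟨a, ⟨ha, ha1⟩, hra⟩ : ∃ a, (phi a < Info r F ∧ a < 1) ∧ r < a :=
    (((((continuous_phi.tendsto r).eventually (gt_mem_nhds hlt)).and
      (gt_mem_nhds hr1)).filter_mono nhdsWithin_le_nhds).and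
        (self_mem_nhdsWithin : Ioi r ∈ nhdsWithin r (Ioi r))).exists
  set k := a / r with hk
  have k1 : 1 < k := (one_lt_div hr0).2 hra
  set b := 1 / k with hb
  have hb1 : b < 1 := by rw [hb, div_lt_one (by linarith)]; exact k1
  have hrb : r ≤ b := by
    rw [hb, le_div_iff₀ (by linarith), hk]; field_simp; linarith
  set u : ℝ → ℝ := fun t => Info t F - phi (k * t) with hu
  have huc : Continuous u :=
    (continuous_Info F).sub (continuous_phi.comp (continuous_const.mul continuous_id))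
  have ur : 0 < u r := by
    simp only [hu, hk]; rw [div_mul_cancel₀ _ hr0.ne']; linarith
  have ub : u b ≤ 0 := by
    simp only [hu, hb]
    rw [mul_one_div_cancel (by linarith), phi_one, sub_nonpos]
    have : Info (1 / k) F ≤ Ex (fun _ : Cube n => log 2) := by
      refine Ex_le fun x => ?_
      obtain ⟨c, d⟩ := Tn_mem (by positivity : (0:ℝ) ≤ 1 / k) hb1 hF hp hm x
      exact phi_le_log_two (abs_le.2 ⟨c.le, d.le⟩)
    rwa [Ex_const] at this
  obtain ⟨t1, ⟨⟨ht1, ht1b⟩, hut⟩, hleast⟩ :=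
    (isCompact_Icc.inter_right (isClosed_le huc continuous_const) :
      IsCompact (Icc r b ∩ {t | u t ≤ u r / 2})).exists_isLeast ⟨b, ⟨hrb, le_rfl⟩, by
        show u b ≤ u r / 2; linarith⟩
  simp only [Set.mem_setOf_eq] at hut
  have hmono : MonotoneOn u (Icc r t1) := by
    have hd : ∀ t ∈ Ioo r t1, ∃ d, 0 ≤ d ∧ HasDerivAt u d t := by
      intro t ⟨t0, t2⟩
      have tpos : 0 < t := hr0.trans t0
      have tb : t < b := lt_of_lt_of_le t2 ht1b
      have kt0 : 0 < k * t := by positivity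
      have kt1 : k * t < 1 := by rw [hb, lt_div_iff₀ (by linarith)] at tb; linarith
      have hutpos : u r / 2 < u t := by
        by_contra hh
        have := hleast ⟨⟨t0.le, tb.le⟩, not_lt.1 hh⟩
        linarith
      refine ⟨Dis (Tn t F) / t - At (k * t) * k, ?_, ?_⟩
      · have hg := Tn_mem tpos.le (tb.trans hb1) hF hp hm
        have hD := dis_ge_Psi hK n (Tn t F) hg
        rw [Ex_Tn, h0] at hD
        have hη : Ex (fun x => hh (Tn t F x)) = log 2 - Info t F := by
          simp only [hh, Info]; rw [Ex_sub, Ex_const]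
        rw [hη] at hD
        set η := log 2 - Info t F with hηd
        have ηpos : 0 < η := hη ▸ Ex_pos fun x => hh_pos (hg x).1 (hg x).2
        set z := At (k * t) with hzd
        have hz : tanh z = k * t := tanh_At (by linarith) kt1
        have z0 : 0 ≤ z := by
          rw [hzd, At]
          have := log_le_log (show 0 < 1 - k * t by linarith) (show 1 - k * t ≤ 1 + k * t by linarith)
          linarith
        have hle := le_Pi2 (show (0:ℝ) < 1 by norm_num) ηpos z0
        simp only [Psi, Wt, hh, phi_zero, sub_zero] at hD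
        norm_num at hD
        have hx : xz z = log 2 - phi (k * t) := by rw [← hh_tanh, hz, hh]
        have hI : phi (k * t) ≤ Info t F := by simp only [hu] at hutpos; linarith
        have hS := Sz_nonneg z0
        have hmul : η * Sz z ≤ xz z * Sz z := mul_le_mul_of_nonneg_right (by linarith) hS
        have eQ : Qz z = z * (k * t) - 2 * log 2 + xz z * (2 + Sz z) := by rw [Qz, hz]
        rw [sub_nonneg, le_div_iff₀ tpos]
        nlinarith
      · exact (hasDerivAt_Info tpos (tb.trans hb1) hF hp hm).sub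
          ((hasDerivAt_phi (by linarith) kt1).comp t ((hasDerivAt_id t).const_mul k) |>.congr_deriv
            (by simp))
    refine monotoneOn_of_deriv_nonneg (convex_Icc _ _) huc.continuousOn ?_ ?_ <;>
      intro t ht <;> rw [interior_Icc] at ht <;> obtain ⟨d, hd0, hd1⟩ := hd t ht
    · exact hd1.differentiableAt.differentiableWithinAt
    · rwa [hd1.deriv]
  have := hmono ⟨le_rfl, ht1⟩ ⟨ht1, le_rfl⟩ ht1
  linarith

end Vale.Agent.P322
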