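import Vale.Agent.P322.Special

noncomputable section
namespace Vale.Agent.P322
open Real Filter Topology Set

lemma xz_tendsto : Tendsto xz atTop (𝓝 0) := by
  have h1 : Tendsto (fun z : ℝ => exp (-(2 * z))) atTop (𝓝 0) :=
    tendsto_exp_neg_atTop_nhds_zero.comp (tendsto_id.const_mul_atTop two_pos)
  have h2 : Tendsto (fun z : ℝ => (2 * z) * exp (-(2 * z))) atTop (𝓝 0) := by
    have := (tendsto_pow_mul_exp_neg_atTop_nhds_zero 1).comp
      (tendsto_id.const_mul_atTop (two_pos : (0:ℝ) < 2))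
    simpa [Function.comp_def] using this
  have h3 : Tendsto (fun z : ℝ => exp (-(2 * z)) + (2 * z) * exp (-(2 * z))) atTop (𝓝 0) := by
    simpa using h1.add h2
  refine squeeze_zero' (eventually_atTop.2 ⟨0, fun z hz => (xz_pos_of_nonneg hz).le⟩)
    (eventually_atTop.2 ⟨0, fun z hz => ?_⟩) h3
  have a : log (1 + exp (-(2 * z))) ≤ exp (-(2 * z)) := by
    linarith [log_le_sub_one_of_pos (show 0 < 1 + exp (-(2 * z)) by positivity)]
  have b : 1 - tanh z ≤ 2 * exp (-(2 * z)) := by
    rw [one_sub_tanh, div_le_iff₀ (cosh_pos z), cosh_eq, show -(2 * z) = -z + -z by ring, exp_add]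
    nlinarith [exp_pos (-z), mul_pos (exp_pos (-z)) (exp_pos (-z)),
      show exp z * exp (-z) = 1 by rw [← exp_add]; simp]
  rw [xz_eq_exp]
  nlinarith [exp_pos (-(2*z))]

lemma exists_xz_eq {s : ℝ} (h0 : 0 < s) (h1 : s ≤ log 2) : ∃ z, 0 ≤ z ∧ xz z = s := by
  obtain ⟨b, hb, hb'⟩ := ((xz_tendsto.eventually (gt_mem_nhds h0)).and (eventually_ge_atTop 0)).exists
  obtain ⟨z, hz, hz'⟩ := intermediate_value_Icc' hb' continuous_xz.continuousOn
    (show s ∈ Icc (xz b) (xz 0) from ⟨hb.le, by rwa [xz_zero]⟩)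
  exact ⟨z, hz.1, hz'⟩

/-- inverse of `xz`, extended by `0` above `log 2`. -/
def Zi (s : ℝ) : ℝ :=
  if h : 0 < s ∧ s ≤ log 2 then Classical.choose (exists_xz_eq h.1 h.2) else 0

lemma Zi_nonneg (s : ℝ) : 0 ≤ Zi s := by
  unfold Zi; split
  · next h => exact (Classical.choose_spec (exists_xz_eq h.1 h.2)).1
  · exact le_rfl

lemma xz_Zi {s : ℝ} (h0 : 0 < s) (h1 : s ≤ log 2) : xz (Zi s) = s := by
  unfold Zi; rw [dif_pos ⟨h0, h1⟩]
  exact (Classical.choose_spec (exists_xz_eq h0 h1)).2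

lemma xz_Zi' {s : ℝ} (h0 : 0 < s) : xz (Zi s) = min s (log 2) := by
  rcases le_or_gt s (log 2) with h | h
  · rw [min_eq_left h, xz_Zi h0 h]
  · rw [min_eq_right h.le]; unfold Zi; rw [dif_neg (fun hh => absurd hh.2 (not_le.2 h)), xz_zero]

lemma Zi_antitone : AntitoneOn Zi (Ioi 0) := by
  intro a ha b hb hab
  have := xz_Zi' (show 0 < a from ha)
  have := xz_Zi' (show 0 < b from hb)
  refine (xz_strictAnti.le_iff_ge (Zi_nonneg a) (Zi_nonneg b)).1 ?_
  rw [xz_Zi' (show 0 < a from ha), xz_Zi' (show 0 < b from hb)]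
  exact min_le_min_right _ hab

lemma Zi_xz {z : ℝ} (hz : 0 ≤ z) : Zi (xz z) = z :=
  xz_strictAnti.injOn (Zi_nonneg _) hz (xz_Zi (xz_pos_of_nonneg hz) (xz_le_log_two hz))

lemma continuousOn_Zi : ContinuousOn Zi (Ioi 0) := by
  intro s hs
  refine ContinuousAt.continuousWithinAt ?_
  rw [Metric.continuousAt_iff]
  intro ε hε
  have hs' : (0:ℝ) < s := hs
  set z := Zi s with hz
  have z0 : 0 ≤ z := Zi_nonneg s
  have e1 : xz (z + ε/2) < xz z := xz_strictAnti z0 (show (0:ℝ) ≤ z + ε/2 by linarith) (by linarith)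
  have exzs : xz z = min s (log 2) := xz_Zi' hs'
  have p1 : 0 < xz (z + ε/2) := xz_pos_of_nonneg (by linarith)
  have l1 : xz (z + ε/2) < s := lt_of_lt_of_le e1 (exzs ▸ min_le_left _ _)
  by_cases hc : ε / 2 ≤ z
  · have e2 : xz z < xz (z - ε/2) := xz_strictAnti (show (0:ℝ) ≤ z - ε/2 by linarith) z0 (by linarith)
    have e3 : xz z = s := by
      rw [exzs]; refine min_eq_left ?_
      by_contra hh
      have : xz z = log 2 := by rw [exzs]; exact min_eq_right (not_le.1 hh).le
      linarith [xz_le_log_two (show (0:ℝ) ≤ z - ε/2 by linarith)]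
    refine ⟨min (s - xz (z + ε/2)) (xz (z - ε/2) - s), lt_min (by linarith) (by linarith), fun t ht => ?_⟩
    rw [Real.dist_eq, abs_lt] at ht
    have a1 := min_le_left (s - xz (z + ε/2)) (xz (z - ε/2) - s)
    have a2 := min_le_right (s - xz (z + ε/2)) (xz (z - ε/2) - s)
    have t0 : 0 < t := by linarith
    have u1 : Zi t ≤ z + ε/2 := by
      have := Zi_antitone (show xz (z + ε/2) ∈ Ioi (0:ℝ) from p1) (show t ∈ Ioi (0:ℝ) from t0) (by linarith)
      rwa [Zi_xz (by linarith)] at this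
    have u2 : z - ε/2 ≤ Zi t := by
      have := Zi_antitone (show t ∈ Ioi (0:ℝ) from t0)
        (show xz (z - ε/2) ∈ Ioi (0:ℝ) from xz_pos_of_nonneg (by linarith)) (by linarith)
      rwa [Zi_xz (by linarith)] at this
    rw [Real.dist_eq, abs_lt]; constructor <;> linarith
  · refine ⟨s - xz (z + ε/2), by linarith, fun t ht => ?_⟩
    rw [Real.dist_eq, abs_lt] at ht
    have t0 : 0 < t := by linarith
    have u1 : Zi t ≤ z + ε/2 := by
      have := Zi_antitone (show xz (z + ε/2) ∈ Ioi (0:ℝ) from p1) (show t ∈ Ioi (0:ℝ) from t0) (by linarith)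
      rwa [Zi_xz (by linarith)] at this
    have := Zi_nonneg t
    rw [Real.dist_eq, abs_lt]; constructor <;> linarith

/-- perspective of the strengthened profile. -/
def Pi2 (Y η : ℝ) : ℝ := Y * Qz (Zi (η / Y)) - η * Sz (Zi (η / Y))

lemma Pi2_eq_param {Y z : ℝ} (hY : 0 < Y) (hz : 0 ≤ z) :
    Pi2 Y (Y * xz z) = Y * Qz z - Y * xz z * Sz z := by
  simp [Pi2, mul_div_cancel_left₀ _ hY.ne', Zi_xz hz]

/-- Legendre property. -/
lemma le_Pi2 {Y η z : ℝ} (hY : 0 < Y) (hη : 0 < η) (hz : 0 ≤ z) :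
    Y * Qz z - η * Sz z ≤ Pi2 Y η := by
  set z0 := Zi (η / Y) with hz0
  have hs : 0 < η / Y := div_pos hη hY
  have h00 : 0 ≤ z0 := Zi_nonneg _
  have hd : ∀ x, 0 < x → HasDerivAt (fun x => Y * Qz x - η * Sz x) ((Y * xz x - η) * Sd x) x :=
    fun x hx => (((hasDerivAt_Qz hx).const_mul Y).sub ((hasDerivAt_Sz hx).const_mul η)).congr_deriv (by ring)
  have hc : Continuous fun x => Y * Qz x - η * Sz x :=
    (continuous_const.mul continuous_Qz).sub (continuous_const.mul continuous_Sz)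
  have hx0 : Y * xz z0 ≤ η := by
    rw [hz0, xz_Zi' hs]
    exact (mul_le_mul_of_nonneg_left (min_le_left _ _) hY.le).trans_eq (by field_simp)
  rcases le_total z z0 with h | h
  · have hm : MonotoneOn (fun x => Y * Qz x - η * Sz x) (Icc 0 z0) := by
      refine monotoneOn_of_deriv_nonneg (convex_Icc _ _) hc.continuousOn ?_ ?_ <;>
        intro x hx <;> rw [interior_Icc] at hx
      · exact (hd x hx.1).differentiableAt.differentiableWithinAt
      · rw [(hd x hx.1).deriv]
        refine mul_nonneg ?_ (Sd_pos hx.1).le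
        have e3 : xz z0 = η / Y := by
          rw [hz0, xz_Zi' hs]; refine min_eq_left ?_
          by_contra hh
          have : xz z0 = log 2 := by rw [hz0, xz_Zi' hs]; exact min_eq_right (not_le.1 hh).le
          have := xz_strictAnti hx.1.le h00 hx.2
          linarith [xz_le_log_two hx.1.le]
        have := xz_strictAnti hx.1.le h00 hx.2
        rw [e3, div_lt_iff₀ hY] at this
        linarith
    exact hm ⟨hz, h⟩ ⟨h00, le_rfl⟩ h
  · have hm : AntitoneOn (fun x => Y * Qz x - η * Sz x) (Ici z0) := by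
      refine antitoneOn_of_deriv_nonpos (convex_Ici _) hc.continuousOn ?_ ?_ <;>
        intro x hx <;> rw [interior_Ici] at hx <;> have hx0' : (0:ℝ) < x := lt_of_le_of_lt h00 hx
      · exact (hd x hx0').differentiableAt.differentiableWithinAt
      · rw [(hd x hx0').deriv]
        refine mul_nonpos_of_nonpos_of_nonneg ?_ (Sd_pos hx0').le
        have : xz x ≤ xz z0 := xz_strictAnti.antitoneOn h00 hx0'.le (le_of_lt hx)
        nlinarith
    exact hm self_mem_Ici h h

lemma Pi2_nonneg {Y η : ℝ} (hY : 0 < Y) (hη : 0 < η) : 0 ≤ Pi2 Y η := by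
  simpa [Qz_zero, Sz_zero] using le_Pi2 hY hη (le_refl (0:ℝ))

lemma Pi2_of_le {Y η : ℝ} (hY : 0 < Y) (h : Y * log 2 ≤ η) : Pi2 Y η = 0 := by
  have hη : 0 < η := lt_of_lt_of_le (mul_pos hY (log_pos one_lt_two)) h
  have hs : 0 < η / Y := div_pos hη hY
  have : Zi (η / Y) = 0 := by
    refine xz_strictAnti.injOn (Zi_nonneg _) (self_mem_Ici) ?_
    rw [xz_Zi' hs, xz_zero, min_eq_right ((le_div_iff₀ hY).2 (by linarith))]
  simp [Pi2, this, Qz_zero, Sz_zero]

lemma Pi2_mono {Y Y' η : ℝ} (hY : 0 < Y) (hη : 0 < η) (h : Y ≤ Y') : Pi2 Y η ≤ Pi2 Y' η := by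
  have h1 := le_Pi2 (hY.trans_le h) hη (Zi_nonneg (η / Y))
  have h2 : Y * Qz (Zi (η / Y)) ≤ Y' * Qz (Zi (η / Y)) :=
    mul_le_mul_of_nonneg_right h (Qz_nonneg (Zi_nonneg _))
  unfold Pi2 at h1 ⊢; linarith

lemma Pi2_midpoint {a b x y : ℝ} (ha : 0 < a) (hb : 0 < b) (hx : 0 < x) (hy : 0 < y) :
    Pi2 ((a + b) / 2) ((x + y) / 2) ≤ (Pi2 a x + Pi2 b y) / 2 := by
  set z := Zi (((x + y) / 2) / ((a + b) / 2))
  have h1 := le_Pi2 ha hx (Zi_nonneg (((x + y) / 2) / ((a + b) / 2)))
  have h2 := le_Pi2 hb hy (Zi_nonneg (((x + y) / 2) / ((a + b) / 2)))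
  unfold Pi2 at *; linarith

lemma hasDerivAt_Pi2 {Y η : ℝ} (hY : 0 < Y) (hη : 0 < η) :
    HasDerivAt (fun x => Pi2 Y x) (-Sz (Zi (η / Y))) η := by
  set S := fun x => Sz (Zi (x / Y)) with hS
  have hSc : ContinuousAt S η := by
    have : ContinuousAt (fun x => Zi (x / Y)) η :=
      (continuousOn_Zi.continuousAt (Ioi_mem_nhds (div_pos hη hY))).comp
        (f := fun x => x / Y) (continuousAt_id.div_const Y)
    exact continuous_Sz.continuousAt.comp this
  rw [hasDerivAt_iff_isLittleO, Asymptotics.isLittleO_iff]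
  intro c hc
  have h1 : ∀ᶠ x in 𝓝 η, |S x - S η| ≤ c :=
    (Metric.tendsto_nhds.1 hSc c hc).mono fun x hx => le_of_lt (by simpa [Real.dist_eq] using hx)
  filter_upwards [h1, eventually_gt_nhds hη] with x hx hx0
  have u1 : Pi2 Y x ≥ Pi2 Y η - (x - η) * S η := by
    have := le_Pi2 hY hx0 (Zi_nonneg (η / Y)); simp only [Pi2, hS] at *; linarith
  have u2 : Pi2 Y η ≥ Pi2 Y x - (η - x) * S x := by
    have := le_Pi2 hY hη (Zi_nonneg (x / Y)); simp only [Pi2, hS] at *; linarith
  simp only [smul_eq_mul, norm_eq_abs]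
  change |Pi2 Y x - Pi2 Y η - (x - η) * -S η| ≤ c * |x - η|
  rw [abs_of_nonneg (by linarith)]
  calc Pi2 Y x - Pi2 Y η - (x - η) * -S η ≤ (x - η) * (S η - S x) := by nlinarith
    _ ≤ |(x - η) * (S η - S x)| := le_abs_self _
    _ ≤ c * |x - η| := by
        rw [abs_mul, mul_comm, abs_sub_comm (S η)]; exact mul_le_mul_of_nonneg_right hx (abs_nonneg _)

/-- Upper bound by a tangent plus `log 2` times a Bregman term. -/
lemma Pi2_le_taylor {Y η z0 : ℝ} (hY : 0 < Y) (hη : 0 < η) (hz0 : 0 ≤ z0) :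
    Pi2 Y η ≤ (η / xz z0 * Qz z0 - η * Sz z0) + Qz z0 * (Y - η / xz z0)
      + log 2 * (Y * log (Y / (η / xz z0)) - (Y - η / xz z0)) := by
  have hx0 := xz_pos_of_nonneg hz0
  set Y0 := η / xz z0 with hY0
  have hY0p : 0 < Y0 := div_pos hη hx0
  let B : ℝ → ℝ := fun y => (Y0 * Qz z0 - η * Sz z0) + Qz z0 * (y - Y0)
      + log 2 * (y * log (y / Y0) - (y - Y0))
  have hB : ∀ y, 0 < y → HasDerivAt B (Qz z0 + log 2 * log (y / Y0)) y := by
    intro y hy
    have a := (((hasDerivAt_id y).sub_const Y0).const_mul (Qz z0)).const_add (Y0 * Qz z0 - η * Sz z0)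
    have b := (((hasDerivAt_id y).mul (((hasDerivAt_id y).div_const Y0).log
      (by simp only [id]; positivity))).sub ((hasDerivAt_id y).sub_const Y0)).const_mul (log 2)
    refine (a.add b).congr_deriv ?_
    simp only [id]; field_simp; ring
  -- the gap along the parametrisation `y = η / xz z`
  let G : ℝ → ℝ := fun z => B (η / xz z) - (η / xz z * Qz z - η * Sz z)
  let H : ℝ → ℝ := fun z => Qz z0 + log 2 * log (xz z0 / xz z) - Qz z
  have hY' : ∀ z, 0 ≤ z → HasDerivAt (fun z => η / xz z) (η * (z / cosh z ^ 2) / xz z ^ 2) z := by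
    intro z hz
    refine ((hasDerivAt_const z η).div (hasDerivAt_xz z) (xz_pos_of_nonneg hz).ne').congr_deriv ?_
    ring
  have hG : ∀ z, 0 < z → HasDerivAt G (η * (z / cosh z ^ 2) / xz z ^ 2 * H z) z := by
    intro z hz
    have hxz := xz_pos_of_nonneg hz.le
    have a := (hB (η / xz z) (div_pos hη hxz)).comp z (hY' z hz.le)
    have b := ((hY' z hz.le).mul (hasDerivAt_Qz hz)).sub ((hasDerivAt_Sz hz).const_mul η)
    refine (a.sub b).congr_deriv ?_
    have e : η / xz z / Y0 = xz z0 / xz z := by rw [hY0]; field_simp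
    rw [e]; simp only [H]
    field_simp
    ring
  have hH : MonotoneOn H (Ici 0) := by
    have hd : ∀ z, 0 < z → HasDerivAt H (log 2 * (z / cosh z ^ 2 / xz z) - xz z * Sd z) z := by
      intro z hz
      have hxz := xz_pos_of_nonneg hz.le
      have := ((((hasDerivAt_const z (xz z0)).div (hasDerivAt_xz z) hxz.ne').log
        (div_ne_zero hx0.ne' hxz.ne')).const_mul (log 2)).const_add (Qz z0) |>.sub (hasDerivAt_Qz hz)
      refine this.congr_deriv ?_
      simp only [Pi.div_apply]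
      field_simp
      ring
    refine monotoneOn_of_deriv_nonneg (convex_Ici 0) ?_ ?_ ?_
    · refine (continuousOn_const.add (continuousOn_const.mul (ContinuousOn.log ?_ ?_))).sub
        continuous_Qz.continuousOn
      · exact continuousOn_const.div continuous_xz.continuousOn fun z hz => (xz_pos_of_nonneg hz).ne'
      · intro z hz; exact (div_pos hx0 (xz_pos_of_nonneg hz)).ne'
    all_goals intro z hz; rw [interior_Ici] at hz; have hz' : (0:ℝ) < z := hz
    · exact (hd z hz').differentiableAt.differentiableWithinAt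
    · rw [(hd z hz').deriv, sub_nonneg]
      have hxz := xz_pos_of_nonneg hz'.le
      rw [div_div, ← mul_div_assoc, le_div_iff₀ (by positivity)]
      have k := xz_mul_Sd_le hz'
      have hE := Ez_le_log_two hz'.le
      have eE : xz z * tanh z * cosh z ^ 2 = Ez z * z := by
        rw [Ez, Sz_of_ne hz'.ne', sinh_two_mul, tanh_eq_sinh_div_cosh]; field_simp; ring
      nlinarith [mul_le_mul_of_nonneg_left k (mul_nonneg hxz.le (sq_nonneg (cosh z))),
        mul_le_mul_of_nonneg_right hE hz'.le]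
  have hH0 : H z0 = 0 := by simp [H, hx0.ne']
  have hG0 : G z0 = 0 := by simp [G, B, hY0, hx0.ne', hη.ne']
  have hGc : ContinuousOn G (Ici 0) := by
    intro z hz
    have hxz := xz_pos_of_nonneg (show (0:ℝ) ≤ z from hz)
    refine ContinuousAt.continuousWithinAt ?_
    exact ((hB _ (div_pos hη hxz)).continuousAt.comp (f := fun z => η / xz z)
      (hY' z hz).continuousAt).sub (((hY' z hz).continuousAt.mul continuous_Qz.continuousAt).sub
      (continuousAt_const.mul continuous_Sz.continuousAt))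
  have hGnn : ∀ z, 0 ≤ z → 0 ≤ G z := by
    intro z hz
    rcases le_total z z0 with h | h
    · have hm : AntitoneOn G (Icc 0 z0) := by
        refine antitoneOn_of_deriv_nonpos (convex_Icc _ _) (hGc.mono Icc_subset_Ici_self) ?_ ?_ <;>
          intro x hx <;> rw [interior_Icc] at hx
        · exact (hG x hx.1).differentiableAt.differentiableWithinAt
        · rw [(hG x hx.1).deriv]
          refine mul_nonpos_of_nonneg_of_nonpos (by have := hx.1; positivity) ?_
          exact hH0 ▸ hH hx.1.le hz0 hx.2.le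
      have := hm ⟨hz, h⟩ ⟨hz0, le_rfl⟩ h
      rwa [hG0] at this
    · have hm : MonotoneOn G (Ici z0) := by
        refine monotoneOn_of_deriv_nonneg (convex_Ici _) (hGc.mono (Ici_subset_Ici.2 hz0)) ?_ ?_ <;>
          intro x hx <;> rw [interior_Ici] at hx <;> have hx' : (0:ℝ) < x := lt_of_le_of_lt hz0 hx
        · exact (hG x hx').differentiableAt.differentiableWithinAt
        · rw [(hG x hx').deriv]
          refine mul_nonneg (by positivity) ?_
          exact hH0 ▸ hH hz0 hx'.le (le_of_lt hx)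
      have := hm self_mem_Ici h h
      rwa [hG0] at this
  rcases le_or_gt η (Y * log 2) with hc | hc
  · have hz := xz_Zi (div_pos hη hY) ((div_le_iff₀ hY).2 (by linarith))
    have := hGnn _ (Zi_nonneg (η / Y))
    simp only [G, hz] at this
    rw [show η / (η / Y) = Y by field_simp] at this
    simp only [B] at this
    unfold Pi2; linarith
  · rw [Pi2_of_le hY hc.le]
    have hYt : 0 < η / log 2 := div_pos hη (log_pos one_lt_two)
    have hb : AntitoneOn B (Ioc 0 (η / log 2)) := by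
      refine antitoneOn_of_deriv_nonpos (convex_Ioc _ _)
        (fun y hy => (hB y hy.1).continuousAt.continuousWithinAt) ?_ ?_ <;>
        intro y hy <;> rw [interior_Ioc] at hy
      · exact (hB y hy.1).differentiableAt.differentiableWithinAt
      · rw [(hB y hy.1).deriv]
        have h2 := hH (self_mem_Ici) hz0 hz0
        rw [hH0] at h2
        simp only [H, xz_zero, Qz_zero, sub_zero] at h2
        have : log (y / Y0) ≤ log (xz z0 / log 2) := by
          refine log_le_log (div_pos hy.1 hY0p) ?_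
          rw [hY0, div_le_div_iff₀ (div_pos hη hx0) (log_pos one_lt_two)]
          calc y * log 2 ≤ η / log 2 * log 2 := mul_le_mul_of_nonneg_right hy.2.le (log_pos one_lt_two).le
            _ = xz z0 * (η / xz z0) := by field_simp
        nlinarith [log_pos one_lt_two]
    have hY2 : Y ≤ η / log 2 := (le_div_iff₀ (log_pos one_lt_two)).2 hc.le
    have := hb ⟨hY, hY2⟩ ⟨hYt, le_rfl⟩ hY2
    have h0 := hGnn 0 le_rfl
    simp only [G, xz_zero, Qz_zero, Sz_zero, mul_zero, sub_zero] at h0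
    change B Y ≥ 0
    linarith

end Vale.Agent.P322
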