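import Mathlib

noncomputable section
namespace Vale.Agent.P322
open Real

/-- `phi t = ((1+t) log (1+t) + (1-t) log (1-t)) / 2`. -/
def phi (t : ℝ) : ℝ := ((1 + t) * log (1 + t) + (1 - t) * log (1 - t)) / 2

def hh (t : ℝ) : ℝ := log 2 - phi t

def At (t : ℝ) : ℝ := (log (1 + t) - log (1 - t)) / 2

def dd (u v : ℝ) : ℝ := (u - v) * (At u - At v) / 4

/-- `log (2 cosh z)`. -/
def Lc (z : ℝ) : ℝ := log (2 * cosh z)

def xz (z : ℝ) : ℝ := Lc z - z * tanh z

def Sz (z : ℝ) : ℝ := dslope (fun x => sinh (2 * x) / 2) 0 z - 1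

def Qz (z : ℝ) : ℝ := z * tanh z - 2 * log 2 + xz z * (2 + Sz z)

def gz (z : ℝ) : ℝ := xz z / tanh z

def sg (z : ℝ) : ℝ := sinh z ^ 2 / Lc z

lemma cosh_ne (z : ℝ) : cosh z ≠ 0 := (cosh_pos z).ne'

lemma hasDerivAt_tanh (z : ℝ) : HasDerivAt tanh (1 / cosh z ^ 2) z := by
  have h := (hasDerivAt_sinh z).div (hasDerivAt_cosh z) (cosh_ne z)
  have e : tanh = fun x => sinh x / cosh x := funext tanh_eq_sinh_div_cosh
  rw [e]
  refine h.congr_deriv ?_
  have := cosh_sq_sub_sinh_sq z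
  field_simp
  linarith

lemma hasDerivAt_Lc (z : ℝ) : HasDerivAt Lc (tanh z) z := by
  have h := ((hasDerivAt_cosh z).const_mul 2).log (by positivity [cosh_pos z])
  refine h.congr_deriv ?_
  rw [tanh_eq_sinh_div_cosh]
  field_simp

lemma hasDerivAt_xz (z : ℝ) : HasDerivAt xz (-(z / cosh z ^ 2)) z := by
  have h := (hasDerivAt_Lc z).sub ((hasDerivAt_id z).mul (hasDerivAt_tanh z))
  refine h.congr_deriv ?_
  simp only [id]
  ring

lemma xz_zero : xz 0 = log 2 := by simp [xz, Lc]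

lemma continuous_xz : Continuous xz :=
  continuous_iff_continuousAt.2 fun z => (hasDerivAt_xz z).continuousAt

lemma xz_strictAnti : StrictAntiOn xz (Set.Ici 0) := by
  refine strictAntiOn_of_deriv_neg (convex_Ici 0) continuous_xz.continuousOn ?_
  intro z hz
  rw [interior_Ici] at hz
  rw [(hasDerivAt_xz z).deriv]
  have : 0 < z / cosh z ^ 2 := div_pos hz (pow_pos (cosh_pos z) 2)
  linarith

lemma tanh_lt_one' (z : ℝ) : tanh z < 1 := by
  rw [tanh_eq_sinh_div_cosh, div_lt_one (cosh_pos z)]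
  rw [sinh_eq, cosh_eq]
  linarith [exp_pos (-z)]

lemma neg_one_lt_tanh' (z : ℝ) : -1 < tanh z := by
  have := tanh_lt_one' (-z)
  rw [tanh_neg] at this
  linarith

lemma tanh_pos' {z : ℝ} (hz : 0 < z) : 0 < tanh z := by
  rw [tanh_eq_sinh_div_cosh]
  exact div_pos (sinh_pos_iff.2 hz) (cosh_pos z)

lemma xz_eq_exp (z : ℝ) :
    xz z = log (1 + exp (-(2 * z))) + z * (1 - tanh z) := by
  have : Lc z = z + log (1 + exp (-(2 * z))) := by
    have e : 2 * cosh z = exp z * (1 + exp (-(2 * z))) := by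
      rw [mul_add, mul_one, ← exp_add, cosh_eq]; ring_nf
    rw [Lc, e, log_mul (exp_pos z).ne' (by positivity), log_exp]
  simp only [xz, this]; ring

lemma xz_pos_of_nonneg {z : ℝ} (hz : 0 ≤ z) : 0 < xz z := by
  rw [xz_eq_exp]
  have h1 : 0 < log (1 + exp (-(2 * z))) := log_pos (by linarith [exp_pos (-(2 * z))])
  have h2 : 0 ≤ z * (1 - tanh z) := mul_nonneg hz (by linarith [tanh_lt_one' z])
  linarith

lemma xz_le_log_two {z : ℝ} (hz : 0 ≤ z) : xz z ≤ log 2 := by
  rw [← xz_zero]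
  exact xz_strictAnti.antitoneOn (Set.self_mem_Ici) hz hz

/-- `phi` in hyperbolic coordinates. -/
lemma one_add_tanh (z : ℝ) : 1 + tanh z = exp z / cosh z := by
  rw [tanh_eq_sinh_div_cosh, eq_div_iff (cosh_ne z), add_mul, div_mul_cancel₀ _ (cosh_ne z),
    one_mul, cosh_add_sinh]

lemma one_sub_tanh (z : ℝ) : 1 - tanh z = exp (-z) / cosh z := by
  rw [tanh_eq_sinh_div_cosh, eq_div_iff (cosh_ne z), sub_mul, div_mul_cancel₀ _ (cosh_ne z),
    one_mul, cosh_sub_sinh]

lemma phi_tanh (z : ℝ) : phi (tanh z) = z * tanh z - log (cosh z) := by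
  rw [phi, one_add_tanh, one_sub_tanh, log_div (exp_pos z).ne' (cosh_ne z),
    log_div (exp_pos _).ne' (cosh_ne z), log_exp, log_exp, tanh_eq_sinh_div_cosh, sinh_eq]
  field_simp
  rw [cosh_eq]
  ring

lemma hh_tanh (z : ℝ) : hh (tanh z) = xz z := by
  rw [hh, phi_tanh, xz, Lc, log_mul two_ne_zero (cosh_ne z)]; ring

lemma At_tanh (z : ℝ) : At (tanh z) = z := by
  rw [At, one_add_tanh, one_sub_tanh, log_div (exp_pos z).ne' (cosh_ne z),
    log_div (exp_pos _).ne' (cosh_ne z), log_exp, log_exp]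
  ring

lemma tanh_At {t : ℝ} (h1 : -1 < t) (h2 : t < 1) : tanh (At t) = t := by
  have a : 0 < 1 + t := by linarith
  have b : 0 < 1 - t := by linarith
  have hA : exp (At t) ^ 2 = (1 + t) / (1 - t) := by
    rw [← exp_nat_mul, At]
    rw [show ((2 : ℕ) : ℝ) * ((log (1 + t) - log (1 - t)) / 2) = log ((1+t)/(1-t)) by
      rw [log_div a.ne' b.ne']; push_cast; ring]
    exact exp_log (div_pos a b)
  rw [tanh_eq_sinh_div_cosh, sinh_eq, cosh_eq, exp_neg]
  have := exp_pos (At t)
  field_simp at hA ⊢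
  nlinarith [hA]

lemma hasDerivAt_phi {t : ℝ} (h1 : -1 < t) (h2 : t < 1) : HasDerivAt phi (At t) t := by
  have a : (1 : ℝ) + t ≠ 0 := by linarith
  have b : (1 : ℝ) - t ≠ 0 := by linarith
  have e1 : HasDerivAt (fun x : ℝ => (1 + x) * log (1 + x)) (log (1 + t) + 1) t := by
    have := ((hasDerivAt_id t).const_add 1).mul (((hasDerivAt_id t).const_add 1).log a)
    refine this.congr_deriv ?_
    simp only [id]; field_simp
  have e2 : HasDerivAt (fun x : ℝ => (1 - x) * log (1 - x)) (-(log (1 - t) + 1)) t := by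
    have := ((hasDerivAt_id t).const_sub 1).mul (((hasDerivAt_id t).const_sub 1).log b)
    refine this.congr_deriv ?_
    simp only [id]; field_simp; ring
  exact ((e1.add e2).div_const 2).congr_deriv (by rw [At]; ring)

lemma phi_zero : phi 0 = 0 := by simp [phi]

lemma phi_one : phi 1 = log 2 := by
  simp [phi]; norm_num

lemma continuous_phi : Continuous phi := by
  have h : Continuous fun x : ℝ => x * log x := continuous_mul_log
  exact ((h.comp (continuous_const.add continuous_id)).add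
    (h.comp (continuous_const.sub continuous_id))).div_const 2

end Vale.Agent.P322
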