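import Vale.Agent.P322.Scalar

noncomputable section
namespace Vale.Agent.P322
open Real Filter Topology

lemma hasDerivAt_sinh_two (z : ℝ) :
    HasDerivAt (fun x => sinh (2 * x) / 2) (cosh (2 * z)) z := by
  have := ((hasDerivAt_sinh (2 * z)).comp z ((hasDerivAt_id z).const_mul 2)).div_const 2
  simpa using this

lemma Sz_zero : Sz 0 = 0 := by
  simp [Sz, (hasDerivAt_sinh_two 0).deriv]

lemma Sz_of_ne {z : ℝ} (hz : z ≠ 0) : Sz z = sinh (2 * z) / (2 * z) - 1 := by
  simp [Sz, dslope_of_ne _ hz, slope_def_field]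
  field_simp

lemma continuous_Sz : Continuous Sz := by
  refine Continuous.sub (continuous_iff_continuousAt.2 fun z => ?_) continuous_const
  rcases eq_or_ne z 0 with rfl | hz
  · exact continuousAt_dslope_same.2 (hasDerivAt_sinh_two 0).differentiableAt
  · exact (continuousAt_dslope_of_ne hz).2 (hasDerivAt_sinh_two z).continuousAt

lemma continuous_Qz : Continuous Qz := by
  have ht : Continuous tanh :=
    continuous_iff_continuousAt.2 fun z => (hasDerivAt_tanh z).continuousAt
  exact ((continuous_id.mul ht).sub continuous_const).add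
    (continuous_xz.mul (continuous_const.add continuous_Sz))

lemma Qz_zero : Qz 0 = 0 := by simp [Qz, xz_zero, Sz_zero]; ring

/-- derivative of `Sz` away from zero. -/
def Sd (z : ℝ) : ℝ := (2 * z * cosh (2 * z) - sinh (2 * z)) / (2 * z ^ 2)

lemma hasDerivAt_Sz {z : ℝ} (hz : 0 < z) : HasDerivAt Sz (Sd z) z := by
  have h2 : HasDerivAt (fun x : ℝ => 2 * x) 2 z := by simpa using (hasDerivAt_id z).const_mul 2
  have h := ((hasDerivAt_sinh (2 * z)).comp z h2).div h2 (by positivity) |>.sub_const 1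
  refine (h.congr_deriv ?_).congr_of_eventuallyEq ?_
  · simp only [Sd, Function.comp]; field_simp
  · filter_upwards [eventually_ne_nhds hz.ne'] with x hx
    rw [Sz_of_ne hx]; rfl

lemma hasDerivAt_Qz {z : ℝ} (hz : 0 < z) : HasDerivAt Qz (xz z * Sd z) z := by
  have h := (((hasDerivAt_id z).mul (hasDerivAt_tanh z)).sub_const (2 * log 2)).add
    ((hasDerivAt_xz z).mul ((hasDerivAt_Sz hz).const_add 2))
  refine h.congr_deriv ?_
  rw [Sz_of_ne hz.ne', sinh_two_mul, tanh_eq_sinh_div_cosh]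
  simp only [id]
  field_simp
  ring

lemma sinh_two_lt {z : ℝ} (hz : 0 < z) : sinh (2 * z) < 2 * z * cosh (2 * z) := by
  have h : StrictMonoOn (fun x : ℝ => 2 * x * cosh (2 * x) - sinh (2 * x)) (Set.Ici 0) := by
    refine strictMonoOn_of_deriv_pos (convex_Ici 0) (by fun_prop) ?_
    intro x hx
    rw [interior_Ici] at hx
    have h2 : HasDerivAt (fun y : ℝ => 2 * y) 2 x := by simpa using (hasDerivAt_id x).const_mul 2
    have hd := (h2.mul ((hasDerivAt_cosh (2 * x)).comp x h2)).sub ((hasDerivAt_sinh (2 * x)).comp x h2)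
    have e : deriv (fun x : ℝ => 2 * x * cosh (2 * x) - sinh (2 * x)) x = _ := hd.deriv
    rw [e]
    have : 0 < sinh (2 * x) := sinh_pos_iff.2 (by linarith [Set.mem_Ioi.1 hx])
    have hx' : 0 < x := hx
    simp only [Function.comp]
    nlinarith [mul_pos hx' this]
  have := h Set.self_mem_Ici hz.le hz
  simp at this
  linarith

lemma Sd_pos {z : ℝ} (hz : 0 < z) : 0 < Sd z :=
  div_pos (by linarith [sinh_two_lt hz]) (by positivity)

lemma Sz_strictMono : StrictMonoOn Sz (Set.Ici 0) := by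
  refine strictMonoOn_of_deriv_pos (convex_Ici 0) continuous_Sz.continuousOn ?_
  intro x hx
  rw [interior_Ici] at hx
  rw [(hasDerivAt_Sz hx).deriv]
  exact Sd_pos hx

lemma Sz_nonneg {z : ℝ} (hz : 0 ≤ z) : 0 ≤ Sz z := by
  have := Sz_strictMono.monotoneOn Set.self_mem_Ici hz hz
  rwa [Sz_zero] at this

/-- `log (1+y) ≤ y (y+6) / (6+4y)`. -/
lemma log_one_add_le_pade {y : ℝ} (hy : 0 ≤ y) : log (1 + y) ≤ y * (y + 6) / (6 + 4 * y) := by
  have h : MonotoneOn (fun x : ℝ => x * (x + 6) / (6 + 4 * x) - log (1 + x)) (Set.Ici 0) := by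
    have hd : ∀ x : ℝ, 0 ≤ x → HasDerivAt (fun x : ℝ => x * (x + 6) / (6 + 4 * x) - log (1 + x))
        (((x + 6) + x) / (6 + 4 * x) - x * (x + 6) * 4 / (6 + 4 * x) ^ 2 - 1 / (1 + x)) x := by
      intro x hx
      have a := ((hasDerivAt_id x).mul ((hasDerivAt_id x).add_const 6)).div
        (((hasDerivAt_id x).const_mul 4).const_add 6) (by simp only [id]; linarith)
      have b := ((hasDerivAt_id x).const_add 1).log (by simp only [id]; linarith)
      refine (a.sub b).congr_deriv ?_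
      simp only [id, Pi.mul_apply]
      have : (6 : ℝ) + 4 * x ≠ 0 := by linarith
      field_simp
    refine monotoneOn_of_deriv_nonneg (convex_Ici 0)
      (fun x hx => (hd x hx).continuousAt.continuousWithinAt) ?_ ?_
    · intro x hx
      rw [interior_Ici] at hx
      exact (hd x (le_of_lt hx)).differentiableAt.differentiableWithinAt
    · intro x hx
      rw [interior_Ici] at hx
      rw [(hd x (le_of_lt hx)).deriv]
      have hx' : 0 < x := hx
      have h1 : (0 : ℝ) < 6 + 4 * x := by linarith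
      have h2 : (0 : ℝ) < 1 + x := by linarith
      rw [div_sub_div _ _ h1.ne' (by positivity), div_sub_div _ _ (by positivity) h2.ne']
      apply div_nonneg _ (by positivity)
      nlinarith [pow_pos hx' 3, pow_pos hx' 4]
  have := h Set.self_mem_Ici hy hy
  simp at this
  linarith

lemma exp_neg_le_cubic {x : ℝ} (hx : 0 ≤ x) :
    exp (-x) ≤ 6 / (6 + 6 * x + 3 * x ^ 2 + x ^ 3) := by
  have h := Real.sum_le_exp_of_nonneg hx 4
  simp [Finset.sum_range_succ, Nat.factorial] at h
  rw [exp_neg, le_div_iff₀ (by positivity), inv_mul_le_iff₀ (exp_pos x)]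
  linarith

/-- key inequality `xz z * Sd z ≤ tanh z`. -/
lemma xz_mul_Sd_le {z : ℝ} (hz : 0 < z) : xz z * Sd z ≤ tanh z := by
  set x := 2 * z with hx
  set y := exp (-x) with hy
  set u := 6 / (6 + 6 * x + 3 * x ^ 2 + x ^ 3) with hu
  have x0 : 0 < x := by positivity
  have y0 : 0 < y := exp_pos _
  have yu : y ≤ u := exp_neg_le_cubic x0.le
  have et : tanh z = (1 - y) / (1 + y) := by
    rw [tanh_eq_sinh_div_cosh, sinh_eq, cosh_eq, hy, hx,
      show -(2 * z) = -z + -z by ring, exp_add]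
    have : exp z * exp (-z) = 1 := by rw [← exp_add]; simp
    field_simp
    linear_combination 2 * exp (-z) * this
  have ex : xz z ≤ y * (y + 6) / (6 + 4 * y) + x * y / (1 + y) := by
    rw [xz_eq_exp, et]
    have := log_one_add_le_pade y0.le
    have e2 : z * (1 - (1 - y) / (1 + y)) = x * y / (1 + y) := by rw [hx]; field_simp; ring
    rw [e2, ← hx]
    linarith
  have eS : Sd z = ((x - 1) + (x + 1) * y ^ 2) / (y * x ^ 2) := by
    rw [Sd, hy, ← hx, cosh_eq, sinh_eq, exp_neg, show z = x / 2 by rw [hx]; ring]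
    field_simp
    ring
  have B0 : 0 ≤ (x - 1) + (x + 1) * y ^ 2 := by
    have := (Sd_pos hz).le
    rw [eS] at this
    exact (div_nonneg_iff.1 this).elim (fun h => h.1) (fun h => absurd h.2 (not_le.2 (by positivity)))
  have Bu : (x - 1) + (x + 1) * y ^ 2 ≤ (x - 1) + (x + 1) * u ^ 2 := by gcongr
  have key : ((y + 6) * (1 + y) + x * (6 + 4 * y)) * ((x - 1) + (x + 1) * y ^ 2)
      ≤ x ^ 2 * (1 - y) * (6 + 4 * y) := by
    have hu0 : 0 < u := lt_of_lt_of_le y0 yu
    have h1 : ((y + 6) * (1 + y) + x * (6 + 4 * y)) * ((x - 1) + (x + 1) * y ^ 2)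
        ≤ ((u + 6) * (1 + u) + x * (6 + 4 * u)) * ((x - 1) + (x + 1) * u ^ 2) :=
      mul_le_mul (by gcongr) Bu B0 (by positivity)
    have h2 : ((u + 6) * (1 + u) + x * (6 + 4 * u)) * ((x - 1) + (x + 1) * u ^ 2)
        ≤ x ^ 2 * (1 - u) * (6 + 4 * u) := by
      rw [← sub_nonneg]
      have : x ^ 2 * (1 - u) * (6 + 4 * u) -
          ((u + 6) * (1 + u) + x * (6 + 4 * u)) * ((x - 1) + (x + 1) * u ^ 2) =
          (864 * x ^ 3 + 1512 * x ^ 4 + 1404 * x ^ 5 + 1386 * x ^ 6 + 1044 * x ^ 7 + 666 * x ^ 8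
          + 348 * x ^ 9 + 126 * x ^ 10 + 36 * x ^ 11 + 6 * x ^ 12) /
          (6 + 6 * x + 3 * x ^ 2 + x ^ 3) ^ 4 := by
        rw [hu]; field_simp; ring
      rw [this]; positivity
    have h3 : x ^ 2 * (1 - u) * (6 + 4 * u) ≤ x ^ 2 * (1 - y) * (6 + 4 * y) := by
      rw [mul_assoc, mul_assoc]
      gcongr ?_ * ?_
      nlinarith [mul_nonneg (sub_nonneg.2 yu) (add_nonneg y0.le hu0.le)]
    linarith
  calc xz z * Sd z ≤ (y * (y + 6) / (6 + 4 * y) + x * y / (1 + y)) * Sd z :=
        mul_le_mul_of_nonneg_right ex (Sd_pos hz).le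
    _ ≤ (1 - y) / (1 + y) := by
        rw [eS, div_add_div _ _ (by positivity) (by positivity), div_mul_div_comm,
          div_le_div_iff₀ (by positivity) (by positivity)]
        have := mul_le_mul_of_nonneg_left key (by positivity : (0:ℝ) ≤ y * (1 + y))
        linarith
    _ = tanh z := et.symm

/-- `Ez z = xz z * (1 + Sz z)`. -/
def Ez (z : ℝ) : ℝ := xz z * (1 + Sz z)

lemma Ez_antitone : AntitoneOn Ez (Set.Ici 0) := by
  refine antitoneOn_of_deriv_nonpos (convex_Ici 0)
    ((continuous_xz.mul (continuous_const.add continuous_Sz)).continuousOn) ?_ ?_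
  · intro x hx
    rw [interior_Ici] at hx
    exact ((hasDerivAt_xz x).mul ((hasDerivAt_Sz hx).const_add 1)).differentiableAt.differentiableWithinAt
  · intro x hx
    rw [interior_Ici] at hx
    have hd : HasDerivAt Ez (-(x / cosh x ^ 2) * (1 + Sz x) + xz x * Sd x) x :=
      (hasDerivAt_xz x).mul ((hasDerivAt_Sz hx).const_add 1)
    rw [hd.deriv]
    have e : x / cosh x ^ 2 * (1 + Sz x) = tanh x := by
      have hx' : (x : ℝ) ≠ 0 := ne_of_gt hx
      rw [Sz_of_ne hx', sinh_two_mul, tanh_eq_sinh_div_cosh]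
      field_simp
      ring
    have := xz_mul_Sd_le (show (0:ℝ) < x from hx)
    linarith

lemma Ez_le_log_two {z : ℝ} (hz : 0 ≤ z) : Ez z ≤ log 2 := by
  have := Ez_antitone Set.self_mem_Ici hz hz
  simpa [Ez, Sz_zero, xz_zero] using this

lemma Lc_pos (z : ℝ) : 0 < Lc z := log_pos (by linarith [one_le_cosh z])

lemma log_two_le_Lc (z : ℝ) : log 2 ≤ Lc z :=
  log_le_log two_pos (by linarith [one_le_cosh z])

lemma Sz_le_sg {z : ℝ} (hz : 0 < z) : Sz z ≤ sg z := by
  have hE := (Ez_le_log_two hz.le).trans (log_two_le_Lc z)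
  rw [sg, le_div_iff₀ (Lc_pos z)]
  have key : Sz z * Lc z = sinh z ^ 2 + (Ez z - Lc z) := by
    rw [Ez, xz, Sz_of_ne hz.ne', sinh_two_mul, tanh_eq_sinh_div_cosh]
    field_simp
    ring
  linarith

lemma sg_monotone : MonotoneOn sg (Set.Ici 0) := by
  have hd : ∀ x : ℝ, HasDerivAt sg ((2 * sinh x * cosh x * Lc x - sinh x ^ 2 * tanh x) / Lc x ^ 2) x := by
    intro x
    exact ((hasDerivAt_sinh x).pow 2).div (hasDerivAt_Lc x) (Lc_pos x).ne' |>.congr_deriv
      (by simp)
  refine monotoneOn_of_deriv_nonneg (convex_Ici 0)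
    (fun x _ => (hd x).continuousAt.continuousWithinAt)
    (fun x _ => (hd x).differentiableAt.differentiableWithinAt) ?_
  intro x hx
  rw [interior_Ici] at hx
  rw [(hd x).deriv]
  refine div_nonneg ?_ (sq_nonneg _)
  have hs : 0 < sinh x := sinh_pos_iff.2 hx
  have hc := one_le_cosh x
  have hl := log_two_le_Lc x
  have h69 := log_two_gt_d9
  have ht : sinh x * tanh x ≤ cosh x := by
    rw [tanh_eq_sinh_div_cosh, ← mul_div_assoc, div_le_iff₀ (cosh_pos x)]
    nlinarith [cosh_sq_sub_sinh_sq x]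
  nlinarith [mul_le_mul_of_nonneg_left ht hs.le, mul_nonneg (mul_nonneg hs.le (cosh_pos x).le)
    (by linarith : (0:ℝ) ≤ 2 * Lc x - 1)]

lemma Qz_monotone : MonotoneOn Qz (Set.Ici 0) := by
  refine monotoneOn_of_deriv_nonneg (convex_Ici 0) continuous_Qz.continuousOn ?_ ?_
  · intro x hx
    rw [interior_Ici] at hx
    exact (hasDerivAt_Qz hx).differentiableAt.differentiableWithinAt
  · intro x hx
    rw [interior_Ici] at hx
    rw [(hasDerivAt_Qz hx).deriv]
    exact mul_nonneg (xz_pos_of_nonneg (le_of_lt hx)).le (Sd_pos hx).le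

lemma Qz_nonneg {z : ℝ} (hz : 0 ≤ z) : 0 ≤ Qz z := by
  have := Qz_monotone Set.self_mem_Ici hz hz
  rwa [Qz_zero] at this

end Vale.Agent.P322
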