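import Vale.Agent.P322.Cell

namespace Vale.Agent.P322.Cert

def tree0 : CT :=
(.cs 39614081257132168796771975168
(.ct 45160052633107613998227914752
(.cs 19807040628566084398385987584
(.ct 40010222069676108599005282304
.leaf .leaf) (.ct 40010222069676108599005282304
.leaf .leaf)) (.cs 19807040628566084398385987584
(.ct 50309883196539119397450547200
.leaf (.ct 52884798478254872097061863424
.leaf .leaf)) (.ct 50309883196539119397450547200
(.cs 29710560942849126597578981376
(.ct 47734967914823366697839230976
.leaf .leaf) (.ct 47734967914823366697839230976
.leaf .leaf)) (.cs 29710560942849126597578981376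
(.ct 52884798478254872097061863424
.leaf .leaf) (.ct 52884798478254872097061863424
.leaf (.cs 34662321099990647697175478272
.leaf .leaf)))))) (.cs 59421121885698253195157962752
(.ct 45160052633107613998227914752
(.cs 49517601571415210995964968960
(.ct 40010222069676108599005282304
.leaf .leaf) (.ct 40010222069676108599005282304
.leaf .leaf)) (.cs 49517601571415210995964968960
(.ct 50309883196539119397450547200
(.ct 47734967914823366697839230976
.leaf .leaf) (.ct 52884798478254872097061863424
(.cs 44565841414273689896368472064
.leaf .leaf) (.cs 44565841414273689896368472064
(.ct 54172256119112748446867521536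
.leaf .leaf) (.ct 54172256119112748446867521536
.leaf .leaf)))) (.ct 50309883196539119397450547200
(.cs 54469361728556732095561465856
(.ct 47734967914823366697839230976
.leaf .leaf) (.ct 47734967914823366697839230976
.leaf .leaf)) (.cs 54469361728556732095561465856
(.ct 52884798478254872097061863424
.leaf (.ct 54172256119112748446867521536
.leaf .leaf)) (.ct 52884798478254872097061863424
.leaf .leaf))))) (.cs 69324642199981295394350956544
(.ct 45160052633107613998227914752
(.cs 64372882042839774294754459648
(.ct 40010222069676108599005282304
.leaf .leaf) (.ct 40010222069676108599005282304
.leaf .leaf)) (.ct 50309883196539119397450547200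
(.cs 64372882042839774294754459648
(.ct 47734967914823366697839230976
.leaf .leaf) .leaf) (.cs 64372882042839774294754459648
(.ct 52884798478254872097061863424
.leaf .leaf) (.ct 52884798478254872097061863424
.leaf .leaf)))) (.ct 45160052633107613998227914752
(.cs 74276402357122816493947453440
(.ct 40010222069676108599005282304
.leaf .leaf) (.ct 40010222069676108599005282304
(.cs 76752282435693577043745701888
.leaf (.cs 77990222474978957318644826112
.leaf .leaf)) .leaf)) (.cs 74276402357122816493947453440
(.ct 50309883196539119397450547200
.leaf .leaf) (.ct 50309883196539119397450547200
.leaf (.cs 76752282435693577043745701888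
.leaf .leaf)))))))

lemma tree0_ok : tree0.check 34860391506244603199782649856 55459713759970624796673179648 0 PP = true := by decide +kernel

end Vale.Agent.P322.Cert
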